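import Mathlib

/-! # P346: ratios of binomial coefficients -/

namespace Vale.Agent.P346

theorem choose_up (N s : ℕ) : (N.choose (s + 1) : ℝ) * (s + 1) = N.choose s * ((N - s : ℕ) : ℝ) := by
  exact_mod_cast Nat.choose_succ_right_eq N s

/-- decay above the middle -/
theorem choose_decay (N i : ℕ) (A : ℝ) (hA : 0 < A)
    (h : ∀ s : ℕ, i ≤ s → A * ((N - s : ℕ) : ℝ) ≤ s + 1) (a : ℕ) :
    (N.choose (i + a) : ℝ) ≤ N.choose i / A ^ a := by
  induction a with
  | zero => simp
  | succ a ih =>
    have h1 := choose_up N (i + a)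
    have h2 := h (i + a) (by omega)
    have hs : (0 : ℝ) < ((i + a : ℕ) : ℝ) + 1 := by positivity
    have h3 : (N.choose (i + a + 1) : ℝ) * A ≤ N.choose (i + a) := by
      have h4 : (N.choose (i + a + 1) : ℝ) * A * (((i + a : ℕ) : ℝ) + 1) ≤
          N.choose (i + a) * (((i + a : ℕ) : ℝ) + 1) := by
        calc (N.choose (i + a + 1) : ℝ) * A * (((i + a : ℕ) : ℝ) + 1)
            = (N.choose (i + a + 1) * (((i + a : ℕ) : ℝ) + 1)) * A := by ring
          _ = N.choose (i + a) * (A * ((N - (i + a) : ℕ) : ℝ)) := by rw [h1]; ring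
          _ ≤ N.choose (i + a) * (((i + a : ℕ) : ℝ) + 1) :=
              mul_le_mul_of_nonneg_left h2 (Nat.cast_nonneg _)
      exact le_of_mul_le_mul_right h4 hs
    rw [← add_assoc, pow_succ, ← div_div, le_div_iff₀ hA]
    exact h3.trans ih

/-- growth is at most exponential -/
theorem choose_growth (N j : ℕ) (A : ℝ) (hA : 0 < A)
    (h : ∀ s : ℕ, j ≤ s → ((N - s : ℕ) : ℝ) ≤ A * (s + 1)) (b : ℕ) :
    (N.choose (j + b) : ℝ) ≤ N.choose j * A ^ b := by
  induction b with
  | zero => simp
  | succ b ih =>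
    have h1 := choose_up N (j + b)
    have h2 := h (j + b) (by omega)
    have hs : (0 : ℝ) < ((j + b : ℕ) : ℝ) + 1 := by positivity
    have h3 : (N.choose (j + b + 1) : ℝ) ≤ N.choose (j + b) * A := by
      have h4 : (N.choose (j + b + 1) : ℝ) * (((j + b : ℕ) : ℝ) + 1) ≤
          N.choose (j + b) * A * (((j + b : ℕ) : ℝ) + 1) := by
        calc (N.choose (j + b + 1) : ℝ) * (((j + b : ℕ) : ℝ) + 1)
            = N.choose (j + b) * ((N - (j + b) : ℕ) : ℝ) := h1
          _ ≤ N.choose (j + b) * (A * (((j + b : ℕ) : ℝ) + 1)) :=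
              mul_le_mul_of_nonneg_left h2 (Nat.cast_nonneg _)
          _ = _ := by ring
      exact le_of_mul_le_mul_right h4 hs
    rw [← add_assoc, pow_succ]
    calc (N.choose (j + b + 1) : ℝ) ≤ N.choose (j + b) * A := h3
      _ ≤ N.choose j * A ^ b * A := mul_le_mul_of_nonneg_right ih hA.le
      _ = _ := by ring

/-- removing elements from the ground set -/
theorem choose_remove (N i M : ℕ) (h : i + M ≤ N) (k : ℕ) (hk : k ≤ M) :
    (N.choose i : ℝ) * (((N : ℝ) - i - M) / N) ^ k ≤ (N - k).choose i := by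
  induction k with
  | zero => simp
  | succ k ih =>
    have ih := ih (by omega)
    rcases Nat.eq_zero_or_pos N with hN | hN
    · omega
    have hN' : (0 : ℝ) < N := by exact_mod_cast hN
    have key := Nat.choose_mul_succ_eq (N - (k + 1)) i
    have e1 : N - (k + 1) + 1 = N - k := by omega
    rw [e1] at key
    have key' : ((N - (k + 1)).choose i : ℝ) * ((N - k : ℕ) : ℝ) =
        (N - k).choose i * ((N - k - i : ℕ) : ℝ) := by exact_mod_cast key
    have hpos : (0 : ℝ) < ((N - k : ℕ) : ℝ) := by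
      have : 0 < N - k := by omega
      exact_mod_cast this
    have hx0 : 0 ≤ ((N : ℝ) - i - M) / N := by
      apply div_nonneg _ hN'.le
      have : (i : ℝ) + M ≤ N := by exact_mod_cast h
      linarith
    have hx : ((N : ℝ) - i - M) / N * ((N - k : ℕ) : ℝ) ≤ ((N - k - i : ℕ) : ℝ) := by
      have e2 : ((N - k : ℕ) : ℝ) = N - k := by
        rw [Nat.cast_sub (by omega)]
      have e3 : ((N - k - i : ℕ) : ℝ) = N - k - i := by
        rw [Nat.cast_sub (by omega), Nat.cast_sub (by omega)]
      have hkM : (k : ℝ) + 1 ≤ M := by exact_mod_cast hk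
      calc ((N : ℝ) - i - M) / N * ((N - k : ℕ) : ℝ)
          ≤ ((N : ℝ) - i - M) / N * N := by
            apply mul_le_mul_of_nonneg_left _ hx0
            rw [e2]; linarith [Nat.cast_nonneg (α := ℝ) k]
        _ = (N : ℝ) - i - M := by field_simp
        _ ≤ _ := by rw [e3]; linarith
    have : (N.choose i : ℝ) * (((N : ℝ) - i - M) / N) ^ (k + 1) * ((N - k : ℕ) : ℝ) ≤
        (N - (k + 1)).choose i * ((N - k : ℕ) : ℝ) := by
      rw [key']
      calc (N.choose i : ℝ) * (((N : ℝ) - i - M) / N) ^ (k + 1) * ((N - k : ℕ) : ℝ)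
          = (N.choose i : ℝ) * (((N : ℝ) - i - M) / N) ^ k *
              (((N : ℝ) - i - M) / N * ((N - k : ℕ) : ℝ)) := by ring
        _ ≤ (N - k).choose i * ((N - k - i : ℕ) : ℝ) := by
            apply mul_le_mul ih hx
            · exact mul_nonneg hx0 (Nat.cast_nonneg _)
            · exact Nat.cast_nonneg _
    exact le_of_mul_le_mul_right this hpos

end Vale.Agent.P346
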