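import Mathlib

/-!
# P346: the weight `tau`
-/

namespace Vale.Agent.P346

/-- the weight of a factor of degree `d` -/
noncomputable def tau (Λy Λu : ℝ) (d : ℕ) : ℝ :=
  ∑ a ∈ Finset.range (d + 1), min (Real.sqrt (Λu ^ (d - a) / Λy ^ a))
    (Real.sqrt (Λy ^ a / Λu ^ (d - a)))

end Vale.Agent.P346
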