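import Vale.Agent.P346.SF
import Vale.Agent.P346.TauDef

/-!
# P346: the measure and products
-/

namespace Vale.Agent.P346

open MvPolynomial Finset Matrix

section RANK

variable {W : Type*} [Fintype W] [DecidableEq W] {K : Type*} [Field K]

/-- projection onto the squarefree monomials of bidegree `(i, j)` -/
noncomputable def Pr (K : Type*) [Field K] (W : Type*) [Fintype W] [DecidableEq W] (i j : ℕ) :
    Matrix (Finset (W ⊕ W)) (Finset (W ⊕ W)) K :=
  Matrix.diagonal fun S => if S.toLeft.card = i ∧ S.toRight.card = j then 1 else 0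

/-- the measure: rank of multiplication by `g` from bidegree `(i, j)` to `(i+k, j+k')` -/
noncomputable def mu (i j k k' : ℕ) (g : MvPolynomial (W ⊕ W) K) : ℕ :=
  (Pr K W (i + k) (j + k') * SM g * Pr K W i j).rank

namespace RankAux

theorem rank_add_le {m n : Type*} [Fintype m] [Fintype n] (A B : Matrix m n K) :
    (A + B).rank ≤ A.rank + B.rank := by
  unfold Matrix.rank
  rw [Matrix.mulVecLin_add]
  have h1 : LinearMap.range (A.mulVecLin + B.mulVecLin) ≤
      LinearMap.range A.mulVecLin ⊔ LinearMap.range B.mulVecLin := by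
    rintro _ ⟨x, rfl⟩
    exact Submodule.add_mem_sup ⟨x, rfl⟩ ⟨x, rfl⟩
  exact (Submodule.finrank_mono h1).trans (Submodule.finrank_add_le_finrank_add_finrank _ _)

theorem rank_sum_le {m n ι : Type*} [Fintype m] [Fintype n] (s : Finset ι)
    (A : ι → Matrix m n K) : (∑ x ∈ s, A x).rank ≤ ∑ x ∈ s, (A x).rank := by
  classical
  induction s using Finset.induction_on with
  | empty => simp
  | insert x s hx ih =>
    rw [Finset.sum_insert hx, Finset.sum_insert hx]
    exact (rank_add_le _ _).trans (Nat.add_le_add_left ih _)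

/-- weight counting the left variables -/
def wl : W ⊕ W → ℕ := Sum.elim (fun _ => 1) (fun _ => 0)
/-- weight counting the right variables -/
def wr : W ⊕ W → ℕ := Sum.elim (fun _ => 0) (fun _ => 1)

omit [Fintype W] [DecidableEq W] in
theorem weight_ind (w : W ⊕ W → ℕ) (D : Finset (W ⊕ W)) :
    Finsupp.weight w (SFAux.ind D) = ∑ v ∈ D, w v := by
  unfold SFAux.ind
  rw [map_sum]
  refine Finset.sum_congr rfl fun v _ => ?_
  rw [Finsupp.weight_apply, Finsupp.sum_single_index] <;> simp

theorem weight_wl (D : Finset (W ⊕ W)) : Finsupp.weight wl (SFAux.ind D) = D.toLeft.card := by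
  rw [weight_ind]
  conv_lhs => rw [← Finset.toLeft_disjSum_toRight (u := D)]
  rw [Finset.sum_disjSum]
  simp [wl]

theorem weight_wr (D : Finset (W ⊕ W)) : Finsupp.weight wr (SFAux.ind D) = D.toRight.card := by
  rw [weight_ind]
  conv_lhs => rw [← Finset.toLeft_disjSum_toRight (u := D)]
  rw [Finset.sum_disjSum]
  simp [wr]

/-- bihomogeneous polynomials -/
def BH (g : MvPolynomial (W ⊕ W) K) (a b : ℕ) : Prop :=
  IsWeightedHomogeneous wl g a ∧ IsWeightedHomogeneous wr g b

omit [Fintype W] [DecidableEq W] in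
theorem BH.prod {ι : Type*} (s : Finset ι) (q : ι → MvPolynomial (W ⊕ W) K) (a b : ι → ℕ)
    (h : ∀ x ∈ s, BH (q x) (a x) (b x)) : BH (∏ x ∈ s, q x) (∑ x ∈ s, a x) (∑ x ∈ s, b x) :=
  ⟨IsWeightedHomogeneous.prod s q a fun x hx => (h x hx).1,
    IsWeightedHomogeneous.prod s q b fun x hx => (h x hx).2⟩

theorem BH.sf_ne {g : MvPolynomial (W ⊕ W) K} {a b : ℕ} (h : BH g a b) {D : Finset (W ⊕ W)}
    (hD : sf g D ≠ 0) : D.toLeft.card = a ∧ D.toRight.card = b := by
  have hD' : coeff (SFAux.ind D) g ≠ 0 := hD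
  refine ⟨?_, ?_⟩
  · rw [← weight_wl]; exact h.1 hD'
  · rw [← weight_wr]; exact h.2 hD'

omit [Fintype W] in
theorem card_sdiff_left {S T : Finset (W ⊕ W)} (h : S ⊆ T) :
    T.toLeft.card = S.toLeft.card + (T \ S).toLeft.card := by
  rw [Finset.toLeft_sdiff, Finset.card_sdiff_of_subset (Finset.toLeft_subset_toLeft h)]
  have := Finset.card_le_card (Finset.toLeft_subset_toLeft h)
  omega

omit [Fintype W] in
theorem card_sdiff_right {S T : Finset (W ⊕ W)} (h : S ⊆ T) :
    T.toRight.card = S.toRight.card + (T \ S).toRight.card := by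
  rw [Finset.toRight_sdiff, Finset.card_sdiff_of_subset (Finset.toRight_subset_toRight h)]
  have := Finset.card_le_card (Finset.toRight_subset_toRight h)
  omega

/-- a bihomogeneous polynomial shifts the bidegree -/
theorem BH.shift {g : MvPolynomial (W ⊕ W) K} {a b : ℕ} (h : BH g a b) (i j : ℕ) :
    SM g * Pr K W i j = Pr K W (i + a) (j + b) * (SM g * Pr K W i j) := by
  ext T S
  simp only [Pr, Matrix.diagonal_mul, Matrix.mul_diagonal, SM, Matrix.of_apply]
  by_cases hS : S.toLeft.card = i ∧ S.toRight.card = j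
  · by_cases hST : S ⊆ T
    · by_cases h0 : sf g (T \ S) = 0
      · simp [h0]
      · have h1 := h.sf_ne h0
        have h2 := card_sdiff_left hST
        have h3 := card_sdiff_right hST
        rw [if_pos (show T.toLeft.card = i + a ∧ T.toRight.card = j + b by omega), one_mul]
    · simp [hST]
  · simp [hS]

theorem Pr_mul_Pr_of_ne {i j i' j' : ℕ} (h : ¬ (i = i' ∧ j = j')) :
    Pr K W i j * Pr K W i' j' = 0 := by
  unfold Pr
  rw [Matrix.diagonal_mul_diagonal]
  ext T S
  rw [Matrix.diagonal_apply]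
  by_cases hTS : T = S
  · rw [if_pos hTS]
    by_cases h1 : T.toLeft.card = i ∧ T.toRight.card = j
    · have h2 : ¬ (T.toLeft.card = i' ∧ T.toRight.card = j') := fun h3 => h (by omega)
      rw [if_neg h2, mul_zero]; rfl
    · rw [if_neg h1, zero_mul]; rfl
  · rw [if_neg hTS]; rfl

/-- vanishing in the wrong bidegree -/
theorem BH.mu_eq_zero {g : MvPolynomial (W ⊕ W) K} {a b : ℕ} (h : BH g a b) (i j k k' : ℕ)
    (hne : ¬ (k = a ∧ k' = b)) : mu i j k k' g = 0 := by
  unfold mu
  rw [Matrix.mul_assoc, h.shift, ← Matrix.mul_assoc, Pr_mul_Pr_of_ne (by omega), Matrix.zero_mul]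
  exact Matrix.rank_zero

theorem rank_Pr_le (i j : ℕ) : (Pr K W i j).rank ≤
    (Fintype.card W).choose i * (Fintype.card W).choose j := by
  classical
  unfold Pr
  rw [Matrix.rank_diagonal]
  have h1 : Fintype.card {S : Finset (W ⊕ W) //
      (if S.toLeft.card = i ∧ S.toRight.card = j then (1 : K) else 0) ≠ 0}
      ≤ ((Finset.powersetCard i (univ : Finset W)) ×ˢ
        (Finset.powersetCard j (univ : Finset W))).card := by
    rw [Fintype.card_subtype]
    refine Finset.card_le_card_of_injOn (fun S => (S.toLeft, S.toRight)) ?_ ?_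
    · intro S hS
      have hS := (Finset.mem_filter.1 hS).2
      have hS' : S.toLeft.card = i ∧ S.toRight.card = j := by
        by_contra h
        rw [if_neg h] at hS
        exact hS rfl
      rw [Finset.mem_coe, Finset.mem_product, Finset.mem_powersetCard, Finset.mem_powersetCard]
      exact ⟨⟨Finset.subset_univ _, hS'.1⟩, ⟨Finset.subset_univ _, hS'.2⟩⟩
    · intro S _ T _ h
      have h := Prod.ext_iff.1 h
      rw [← Finset.toLeft_disjSum_toRight (u := S), ← Finset.toLeft_disjSum_toRight (u := T)]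
      have h1 : S.toLeft = T.toLeft := h.1
      have h2 : S.toRight = T.toRight := h.2
      rw [h1, h2]
  rw [Finset.card_product, Finset.card_powersetCard, Finset.card_powersetCard,
    Finset.card_univ] at h1
  exact h1

/-- the measure of a product of bihomogeneous polynomials, bounded through any subproduct -/
theorem mu_prod_sub_le {J : Type*} [Fintype J] [DecidableEq J]
    (q : J → MvPolynomial (W ⊕ W) K) (a b : J → ℕ) (h : ∀ x, BH (q x) (a x) (b x))
    (i j k k' : ℕ) (S : Finset J) :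
    mu i j k k' (∏ x, q x) ≤ (Fintype.card W).choose (i + ∑ x ∈ S, a x) *
      (Fintype.card W).choose (j + ∑ x ∈ S, b x) := by
  have hS : BH (∏ x ∈ S, q x) (∑ x ∈ S, a x) (∑ x ∈ S, b x) := BH.prod S q a b fun x _ => h x
  unfold mu
  rw [← Finset.prod_compl_mul_prod S, SM_mul, Matrix.mul_assoc, Matrix.mul_assoc, hS.shift i j,
    ← Matrix.mul_assoc, ← Matrix.mul_assoc]
  exact (Matrix.rank_mul_le_left _ _).trans ((Matrix.rank_mul_le_right _ _).trans
    (rank_Pr_le _ _))

/-- the part of left degree `a` -/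
noncomputable def lp (g : MvPolynomial (W ⊕ W) K) (a : ℕ) : MvPolynomial (W ⊕ W) K :=
  weightedHomogeneousComponent wl a g

omit [Fintype W] [DecidableEq W] in
theorem weight_add (m : W ⊕ W →₀ ℕ) :
    Finsupp.weight wl m + Finsupp.weight wr m = Finsupp.weight (1 : W ⊕ W → ℕ) m := by
  simp only [Finsupp.weight_apply, Finsupp.sum]
  rw [← Finset.sum_add_distrib]
  refine Finset.sum_congr rfl fun v _ => ?_
  cases v <;> simp [wl, wr]

omit [Fintype W] [DecidableEq W] in
theorem lp_BH {g : MvPolynomial (W ⊕ W) K} {d : ℕ} (hg : g.IsHomogeneous d) (a : ℕ)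
    (ha : a ≤ d) : BH (lp g a) a (d - a) := by
  refine ⟨weightedHomogeneousComponent_isWeightedHomogeneous a g, ?_⟩
  intro m hm
  unfold lp at hm
  rw [coeff_weightedHomogeneousComponent] at hm
  split_ifs at hm with h1
  · have h2 : Finsupp.weight (1 : W ⊕ W → ℕ) m = d := hg hm
    have h3 := weight_add m
    omega
  · exact absurd rfl hm

omit [Fintype W] [DecidableEq W] in
theorem sum_lp {g : MvPolynomial (W ⊕ W) K} {d : ℕ} (hg : g.IsHomogeneous d) :
    ∑ a ∈ Finset.range (d + 1), lp g a = g := by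
  ext m
  rw [MvPolynomial.coeff_sum]
  simp only [lp, coeff_weightedHomogeneousComponent]
  by_cases h0 : coeff m g = 0
  · simp [h0]
  · have h2 : Finsupp.weight (1 : W ⊕ W → ℕ) m = d := hg h0
    have h3 := weight_add m
    rw [Finset.sum_ite_eq, if_pos]
    rw [Finset.mem_range]; omega

/-- elementary identity for the weights -/
theorem min_eq {x : ℝ} (hx : 0 < x) :
    (if x < 1 then x else 1) = Real.sqrt x * min (Real.sqrt x) (Real.sqrt (1 / x)) := by
  have hs : 0 < Real.sqrt x := Real.sqrt_pos.2 hx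
  have h1 : Real.sqrt x * Real.sqrt x = x := Real.mul_self_sqrt hx.le
  have h2 : Real.sqrt x * Real.sqrt (1 / x) = 1 := by
    rw [← Real.sqrt_mul hx.le, mul_one_div_cancel hx.ne', Real.sqrt_one]
  split_ifs with h
  · have h3 : Real.sqrt x ≤ Real.sqrt (1 / x) := by
      refine Real.sqrt_le_sqrt ?_
      rw [le_div_iff₀ hx]
      nlinarith
    rw [min_eq_left h3, h1]
  · have h3 : Real.sqrt (1 / x) ≤ Real.sqrt x := by
      refine Real.sqrt_le_sqrt ?_
      rw [div_le_iff₀ hx]
      nlinarith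
    rw [min_eq_right h3, h2]

end RankAux

open RankAux

theorem mu_sum_le (i j k k' : ℕ) {ι : Type*} (s : Finset ι) (g : ι → MvPolynomial (W ⊕ W) K) :
    mu i j k k' (∑ x ∈ s, g x) ≤ ∑ x ∈ s, mu i j k k' (g x) := by
  unfold mu
  rw [SM_sum, Matrix.mul_sum, Matrix.sum_mul]
  exact rank_sum_le _ _

theorem mu_C_mul_le (i j k k' : ℕ) (a : K) (g : MvPolynomial (W ⊕ W) K) :
    mu i j k k' (C a * g) ≤ mu i j k k' g := by
  unfold mu
  rw [SM_C_mul, Matrix.mul_smul, Matrix.smul_mul]
  have h : a • (Pr K W (i + k) (j + k') * SM g * Pr K W i j)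
      = (a • (1 : Matrix (Finset (W ⊕ W)) (Finset (W ⊕ W)) K)) *
        (Pr K W (i + k) (j + k') * SM g * Pr K W i j) := by
    rw [Matrix.smul_mul, Matrix.one_mul]
  rw [h]
  exact Matrix.rank_mul_le_right _ _

theorem mu_prod_le {J : Type*} [Fintype J] (Q : J → MvPolynomial (W ⊕ W) K) (d : J → ℕ)
    (hQ : ∀ x, (Q x).IsHomogeneous (d x)) (i j k k' : ℕ) (hd : ∑ x, d x = k + k')
    (Λy Λu : ℝ) (hy : 0 < Λy) (hu : 0 < Λu)
    (hdim : ∀ a b : ℕ, (((Fintype.card W).choose (i + a) : ℝ) * (Fintype.card W).choose (j + b)) ≤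
      (Fintype.card W).choose i * (Fintype.card W).choose j * (Λu ^ b / Λy ^ a)) :
    (mu i j k k' (∏ x, Q x) : ℝ) ≤ (Fintype.card W).choose i * (Fintype.card W).choose j *
      Real.sqrt (Λu ^ k' / Λy ^ k) * ∏ x, tau Λy Λu (d x) := by
  classical
  set D : ℝ := (Fintype.card W).choose i * (Fintype.card W).choose j with hDdef
  have hD0 : 0 ≤ D := by positivity
  -- the weights
  set wt : (x : J) → ℕ → ℝ := fun x a => min (Real.sqrt (Λu ^ (d x - a) / Λy ^ a))
    (Real.sqrt (Λy ^ a / Λu ^ (d x - a))) with hwt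
  have hwt0 : ∀ x a, 0 ≤ wt x a := fun x a => le_min (Real.sqrt_nonneg _) (Real.sqrt_nonneg _)
  have hprod : ∏ x, tau Λy Λu (d x) =
      ∑ f ∈ Fintype.piFinset (fun x => Finset.range (d x + 1)), ∏ x, wt x (f x) := by
    unfold tau
    rw [Finset.prod_univ_sum]
  have hQprod : ∏ x, Q x =
      ∑ f ∈ Fintype.piFinset (fun x => Finset.range (d x + 1)), ∏ x, lp (Q x) (f x) := by
    rw [← Finset.prod_univ_sum]
    exact Finset.prod_congr rfl fun x _ => (sum_lp (hQ x)).symm
  rw [hQprod, hprod, Finset.mul_sum]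
  refine (Nat.cast_le.2 (mu_sum_le i j k k' _ _)).trans ?_
  rw [Nat.cast_sum]
  refine Finset.sum_le_sum fun f hf => ?_
  have hf' : ∀ x, f x ≤ d x := by
    intro x
    have := Fintype.mem_piFinset.1 hf x
    rw [Finset.mem_range] at this
    omega
  have hBH : ∀ x, BH (lp (Q x) (f x)) (f x) (d x - f x) := fun x => lp_BH (hQ x) _ (hf' x)
  by_cases hk : ∑ x, f x = k
  swap
  · have hB := BH.prod univ (fun x => lp (Q x) (f x)) f (fun x => d x - f x) fun x _ => hBH x
    rw [hB.mu_eq_zero i j k k' (fun h => hk h.1.symm), Nat.cast_zero]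
    exact mul_nonneg (mul_nonneg hD0 (Real.sqrt_nonneg _)) (Finset.prod_nonneg fun x _ => hwt0 x _)
  have hk' : ∑ x, (d x - f x) = k' := by
    have h1 : ∑ x, (d x - f x) + ∑ x, f x = ∑ x, d x := by
      rw [← Finset.sum_add_distrib]
      exact Finset.sum_congr rfl fun x _ => Nat.sub_add_cancel (hf' x)
    omega
  set X : J → ℝ := fun x => Λu ^ (d x - f x) / Λy ^ (f x) with hX
  have hX0 : ∀ x, 0 < X x := fun x => by positivity
  set S : Finset J := univ.filter fun x => X x < 1 with hS
  have h1 : (mu i j k k' (∏ x, lp (Q x) (f x)) : ℝ) ≤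
      ((Fintype.card W).choose (i + ∑ x ∈ S, f x) : ℝ) *
        (Fintype.card W).choose (j + ∑ x ∈ S, (d x - f x)) := by
    have := mu_prod_sub_le (fun x => lp (Q x) (f x)) f (fun x => d x - f x) hBH i j k k' S
    exact_mod_cast this
  have h2 := h1.trans (hdim (∑ x ∈ S, f x) (∑ x ∈ S, (d x - f x)))
  have h3 : Λu ^ (∑ x ∈ S, (d x - f x)) / Λy ^ (∑ x ∈ S, f x) = ∏ x ∈ S, X x := by
    rw [Finset.prod_div_distrib, Finset.prod_pow_eq_pow_sum, Finset.prod_pow_eq_pow_sum]
  have h4 : ∏ x ∈ S, X x = ∏ x, (if X x < 1 then X x else 1) := by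
    rw [hS, Finset.prod_filter]
  have h5 : ∏ x, (if X x < 1 then X x else 1) = Real.sqrt (Λu ^ k' / Λy ^ k) * ∏ x, wt x (f x) := by
    have h6 : ∀ x, (if X x < 1 then X x else 1) = Real.sqrt (X x) * wt x (f x) := by
      intro x
      rw [min_eq (hX0 x)]
      have : 1 / X x = Λy ^ (f x) / Λu ^ (d x - f x) := by
        simp only [hX]; rw [one_div_div]
      rw [this]
    rw [Finset.prod_congr rfl fun x _ => h6 x, Finset.prod_mul_distrib]
    congr 1
    have h7 : ∏ x, X x = Λu ^ k' / Λy ^ k := by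
      simp only [hX]
      rw [Finset.prod_div_distrib, Finset.prod_pow_eq_pow_sum, Finset.prod_pow_eq_pow_sum, hk, hk']
    rw [← h7, Real.sqrt_prod _ fun x _ => (hX0 x).le]
  rw [h3, h4, h5] at h2
  calc _ ≤ _ := h2
    _ = _ := by ring

end RANK

end Vale.Agent.P346
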