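import Vale.Agent.P346.TauDef

/-!
# P346: estimates for the weight `tau`
-/

namespace Vale.Agent.P346

open Finset

namespace TauAux

/-- the potential used for `tau_le_three` -/
noncomputable def phi (s : ℝ) : ℝ := if s ≤ 1 then 3 / 2 * s else 3 - 3 / 2 / s

theorem phi_le_three {s : ℝ} (hs : 0 < s) : phi s ≤ 3 := by
  unfold phi
  split_ifs with h
  · linarith
  · have : 0 < 3 / 2 / s := by positivity
    linarith

theorem phi_mono {s t : ℝ} (hs : 0 < s) (h : s ≤ t) : phi s ≤ phi t := by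
  have ht : 0 < t := hs.trans_le h
  unfold phi
  split_ifs with h1 h2 h2
  · linarith
  · push Not at h2
    have : 3 / 2 / t ≤ 3 / 2 := by
      rw [div_le_iff₀ ht]
      linarith
    linarith
  · exact absurd (h.trans h2) h1
  · have : 3 / 2 / t ≤ 3 / 2 / s := by
      gcongr
    linarith

theorem phi_step {s : ℝ} (hs : 0 < s) : min s (1 / s) + phi (s / 3) ≤ phi s := by
  by_cases h : s ≤ 1
  · have h1 : s / 3 ≤ 1 := by linarith
    unfold phi
    rw [if_pos h, if_pos h1]
    have := min_le_left s (1 / s)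
    linarith
  · push Not at h
    have h0 := min_le_right s (1 / s)
    unfold phi
    rw [if_neg (by linarith : ¬ s ≤ 1)]
    split_ifs with h1
    · have h2 : 1 / s + 3 / 2 * (s / 3) ≤ 3 - 3 / 2 / s := by
        rw [← sub_nonneg]
        have e : 3 - 3 / 2 / s - (1 / s + 3 / 2 * (s / 3)) = (s - 1) * (5 - s) / (2 * s) := by
          field_simp
          ring
        rw [e]
        apply div_nonneg _ (by positivity)
        exact mul_nonneg (by linarith) (by linarith)
      linarith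
    · have h2 : 1 / s + (3 - 3 / 2 / (s / 3)) ≤ 3 - 3 / 2 / s := by
        rw [← sub_nonneg]
        have e : 3 - 3 / 2 / s - (1 / s + (3 - 3 / 2 / (s / 3))) = 2 / s := by
          field_simp
          ring
        rw [e]
        positivity
      linarith

theorem sum_min_le (n : ℕ) : ∀ s : ℕ → ℝ, (∀ a, 0 < s a) →
    (∀ a, a + 1 < n → s (a + 1) ≤ s a / 3) →
    ∑ a ∈ Finset.range n, min (s a) (1 / s a) ≤ phi (s 0) := by
  induction n with
  | zero =>
    intro s hs _
    simp only [Finset.range_zero, Finset.sum_empty]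
    unfold phi
    have := hs 0
    split_ifs with h
    · positivity
    · push Not at h
      have : 3 / 2 / s 0 ≤ 3 / 2 := by
        rw [div_le_iff₀ (hs 0)]
        linarith
      linarith
  | succ n ih =>
    intro s hs hr
    rw [Finset.sum_range_succ']
    rcases n with _ | n
    · simp only [Finset.range_zero, Finset.sum_empty, zero_add]
      have h1 := phi_step (hs 0)
      have h2 : 0 ≤ phi (s 0 / 3) := by
        unfold phi
        have := hs 0
        split_ifs with h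
        · positivity
        · push Not at h
          have : 3 / 2 / (s 0 / 3) ≤ 3 / 2 := by
            rw [div_le_iff₀ (by positivity)]
            linarith
          linarith
      linarith
    · have h1 := ih (fun a => s (a + 1)) (fun a => hs (a + 1))
        (fun a ha => hr (a + 1) (by omega))
      have h2 := hr 0 (by omega)
      have h3 := phi_mono (hs 1) h2
      have h4 := phi_step (hs 0)
      simp only [zero_add] at h1 h2 h3 ⊢
      linarith

theorem geo_sum_le {L : ℝ} (hL : 1 < L) (n : ℕ) :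
    ∑ k ∈ Finset.range n, (1 / L) ^ k ≤ L / (L - 1) := by
  have h0 : (0 : ℝ) < L := by linarith
  have hr : (1 / L) ≠ 1 := by
    intro h
    rw [div_eq_iff (ne_of_gt h0)] at h
    linarith
  rw [geom_sum_eq hr]
  have e : ((1 / L) ^ n - 1) / (1 / L - 1) = (1 - (1 / L) ^ n) * (L / (L - 1)) := by
    have : L - 1 ≠ 0 := by
      intro h; linarith
    have h2 : 1 / L - 1 ≠ 0 := sub_ne_zero.2 hr
    have h3 : 1 / L - 1 = - ((L - 1) / L) := by field_simp; ring
    rw [h3]
    field_simp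
    ring
  rw [e]
  have h1 : 0 ≤ (1 / L) ^ n := by positivity
  have h2 : 0 ≤ L / (L - 1) := div_nonneg h0.le (by linarith)
  nlinarith

end TauAux

open TauAux

theorem tau_nonneg (Λy Λu : ℝ) (d : ℕ) : 0 ≤ tau Λy Λu d := by
  unfold tau
  exact Finset.sum_nonneg (fun a _ => le_min (Real.sqrt_nonneg _) (Real.sqrt_nonneg _))

theorem tau_zero {Λy Λu : ℝ} : tau Λy Λu 0 = 1 := by
  simp [tau]

theorem tau_le_three (L m : ℕ) (hL : 3 ≤ L) (d : ℕ) : tau (L + m) L d ≤ 3 := by
  have hL' : (3 : ℝ) ≤ L := by exact_mod_cast hL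
  have hL0 : (0 : ℝ) < L := by linarith
  have hm0 : (0 : ℝ) ≤ m := Nat.cast_nonneg m
  have hY0 : (0 : ℝ) < (L : ℝ) + m := by linarith
  have h := sum_min_le (d + 1) (fun a => Real.sqrt ((L : ℝ) ^ (d - a) / ((L : ℝ) + m) ^ a))
    (fun a => Real.sqrt_pos.2 (by positivity)) (by
      intro a ha
      have e : (L : ℝ) ^ (d - a) = L ^ (d - (a + 1)) * L := by
        rw [← pow_succ]
        congr 1
        omega
      have h1 : (L : ℝ) ^ (d - (a + 1)) / ((L : ℝ) + m) ^ (a + 1)
          ≤ ((L : ℝ) ^ (d - a) / ((L : ℝ) + m) ^ a) / 3 ^ 2 := by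
        rw [e, pow_succ, div_div, div_le_div_iff₀ (by positivity) (by positivity)]
        have h2 : (3 : ℝ) ^ 2 ≤ L * ((L : ℝ) + m) := by nlinarith
        have h3 : 0 ≤ (L : ℝ) ^ (d - (a + 1)) * ((L : ℝ) + m) ^ a := by positivity
        nlinarith [mul_le_mul_of_nonneg_left h2 h3]
      calc Real.sqrt ((L : ℝ) ^ (d - (a + 1)) / ((L : ℝ) + m) ^ (a + 1))
          ≤ Real.sqrt (((L : ℝ) ^ (d - a) / ((L : ℝ) + m) ^ a) / 3 ^ 2) := Real.sqrt_le_sqrt h1
        _ = _ := by
          rw [Real.sqrt_div' _ (by positivity), Real.sqrt_sq (by norm_num)])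
  have e : tau ((L : ℝ) + m) L d = ∑ a ∈ Finset.range (d + 1),
      min (Real.sqrt ((L : ℝ) ^ (d - a) / ((L : ℝ) + m) ^ a))
        (1 / Real.sqrt ((L : ℝ) ^ (d - a) / ((L : ℝ) + m) ^ a)) := by
    unfold tau
    refine Finset.sum_congr rfl (fun a _ => ?_)
    congr 1
    rw [one_div, ← Real.sqrt_inv, inv_div]
  rw [e]
  exact h.trans (phi_le_three (Real.sqrt_pos.2 (by positivity)))

theorem tau_one_le (L m : ℕ) (hL : 3 ≤ L) : tau (L + m) L 1 ≤ 2 / Real.sqrt L := by
  have hL' : (3 : ℝ) ≤ L := by exact_mod_cast hL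
  have hL0 : (0 : ℝ) < L := by linarith
  have hm0 : (0 : ℝ) ≤ m := Nat.cast_nonneg m
  have hY0 : (0 : ℝ) < (L : ℝ) + m := by linarith
  unfold tau
  rw [Finset.sum_range_succ, Finset.sum_range_one]
  have h1 : min (Real.sqrt ((L : ℝ) ^ (1 - 0) / ((L : ℝ) + m) ^ 0))
      (Real.sqrt (((L : ℝ) + m) ^ 0 / (L : ℝ) ^ (1 - 0))) ≤ 1 / Real.sqrt L := by
    refine (min_le_right _ _).trans (le_of_eq ?_)
    simp
  have h2 : min (Real.sqrt ((L : ℝ) ^ (1 - 1) / ((L : ℝ) + m) ^ 1))
      (Real.sqrt (((L : ℝ) + m) ^ 1 / (L : ℝ) ^ (1 - 1))) ≤ 1 / Real.sqrt L := by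
    refine (min_le_left _ _).trans ?_
    have e : (1 : ℝ) / Real.sqrt L = Real.sqrt (1 / L) := by
      simp
    rw [e]
    apply Real.sqrt_le_sqrt
    simp only [Nat.sub_self, pow_zero, pow_one]
    gcongr
    linarith
  have e : 2 / Real.sqrt L = 1 / Real.sqrt L + 1 / Real.sqrt L := by ring
  rw [e]
  exact add_le_add h1 h2

namespace TauAux

/-- a term of `tau` at distance `k` below or above the middle: common bound -/
theorem sqrt_le {ρ2 x c : ℝ} (hρ : 0 ≤ c) (h : x ≤ ρ2 * c ^ 2) :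
    Real.sqrt x ≤ Real.sqrt ρ2 * c := by
  calc Real.sqrt x ≤ Real.sqrt (ρ2 * c ^ 2) := Real.sqrt_le_sqrt h
    _ = Real.sqrt ρ2 * c := by
      rw [Real.sqrt_mul' _ (sq_nonneg c), Real.sqrt_sq hρ]

theorem exp_le_one_add {u : ℝ} (h0 : 0 ≤ u) (h1 : u ≤ 1 / 4) : Real.exp (4 / 5 * u) ≤ 1 + u := by
  have h2 := Real.add_one_le_exp (-(4 / 5 * u))
  have h3 : 0 < 1 - 4 / 5 * u := by linarith
  have h4 : Real.exp (4 / 5 * u) * Real.exp (-(4 / 5 * u)) = 1 := by
    rw [← Real.exp_add]
    simp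
  have h5 : Real.exp (4 / 5 * u) * (1 - 4 / 5 * u) ≤ 1 := by
    rw [← h4]
    apply mul_le_mul_of_nonneg_left _ (Real.exp_pos _).le
    linarith
  have h6 : 1 ≤ (1 + u) * (1 - 4 / 5 * u) := by nlinarith
  exact le_of_mul_le_mul_right (h5.trans h6) h3

/-- the numerical inequality for even degree -/
theorem even_ineq {L m t : ℝ} (hm : 100 ≤ m) (hL : 32 * Real.exp (Real.log 2 * m) ≤ L)
    (ht1 : m / L ≤ t) (ht2 : t ≤ m / 4) :
    Real.exp (-(2 / 5 * t)) + 2 / (L - 1) * Real.exp (t / 2) ≤ Real.exp (-(t / 8)) := by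
  have hlog : 0 < Real.log 2 := Real.log_pos (by norm_num)
  have hlog2 : (0.69 : ℝ) ≤ Real.log 2 := by
    have := Real.log_two_gt_d9
    linarith
  have hL1 : (1 : ℝ) ≤ Real.exp (Real.log 2 * m) := Real.one_le_exp (by positivity)
  have hL32 : (32 : ℝ) ≤ L := by linarith
  have hLm1 : 0 < L - 1 := by linarith
  have ht0 : 0 < t := lt_of_lt_of_le (by positivity) ht1
  have h1 : Real.exp (-(t / 8)) = Real.exp (-(2 / 5 * t)) * Real.exp (11 / 40 * t) := by
    rw [← Real.exp_add]
    congr 1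
    ring
  have h2 : 1 + 11 / 40 * t ≤ Real.exp (11 / 40 * t) := by
    have := Real.add_one_le_exp (11 / 40 * t)
    linarith
  have h3 : Real.exp (t / 2) = Real.exp (-(2 / 5 * t)) * Real.exp (9 / 10 * t) := by
    rw [← Real.exp_add]
    congr 1
    ring
  have key : 2 / (L - 1) * Real.exp (9 / 10 * t) ≤ 11 / 40 * t := by
    rw [div_mul_eq_mul_div, div_le_iff₀ hLm1]
    by_cases hc : t ≤ 1
    · have e1 : Real.exp (9 / 10 * t) ≤ 3 := by
        have : Real.exp (9 / 10 * t) ≤ Real.exp 1 := Real.exp_le_exp.2 (by linarith)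
        have := Real.exp_one_lt_d9
        linarith
      have e2 : 50 ≤ t * (L - 1) := by
        have : m ≤ t * L := by
          rw [div_le_iff₀ (by linarith)] at ht1
          exact ht1
        nlinarith
      nlinarith
    · push Not at hc
      have e1 : Real.exp (9 / 10 * t) ≤ Real.exp (Real.log 2 * m) := by
        apply Real.exp_le_exp.2
        nlinarith
      nlinarith
  calc Real.exp (-(2 / 5 * t)) + 2 / (L - 1) * Real.exp (t / 2)
      = Real.exp (-(2 / 5 * t)) * (1 + 2 / (L - 1) * Real.exp (9 / 10 * t)) := by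
        rw [h3]; ring
    _ ≤ Real.exp (-(2 / 5 * t)) * (1 + 11 / 40 * t) := by
        apply mul_le_mul_of_nonneg_left _ (Real.exp_pos _).le
        linarith
    _ ≤ Real.exp (-(t / 8)) := by
        rw [h1]
        exact mul_le_mul_of_nonneg_left h2 (Real.exp_pos _).le

theorem term_hi {L u : ℝ} (hL : 0 < L) (hu : 0 ≤ u) (q k ε : ℕ) :
    (L * (1 + u)) ^ q / L ^ (q + 2 * k + ε) ≤
      ((1 + u) ^ (q + k) * (1 / L) ^ ε) * ((1 / L) ^ k) ^ 2 := by
  have e : (L * (1 + u)) ^ q / L ^ (q + 2 * k + ε) =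
      ((1 + u) ^ q * (1 / L) ^ ε) * ((1 / L) ^ k) ^ 2 := by
    rw [mul_pow, pow_add, pow_add, ← pow_mul, mul_comm k 2, div_pow, div_pow, one_pow, one_pow]
    field_simp
  rw [e]
  have h : (1 + u) ^ q ≤ (1 + u) ^ (q + k) := pow_le_pow_right₀ (by linarith) (by omega)
  gcongr

theorem term_lo {L u : ℝ} (hL : 0 < L) (hu : 0 ≤ u) (q k ε : ℕ) :
    L ^ q / (L * (1 + u)) ^ (q + 2 * k + ε) ≤
      ((1 + u) ^ (q + k) * (1 / L) ^ ε) * ((1 / L) ^ k) ^ 2 := by
  have h1u : (1 : ℝ) ≤ 1 + u := by linarith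
  have e : L ^ q / (L * (1 + u)) ^ (q + 2 * k + ε) =
      ((1 / (1 + u) ^ (q + 2 * k + ε)) * (1 / L) ^ ε) * ((1 / L) ^ k) ^ 2 := by
    rw [mul_pow L, pow_add L, pow_add L, ← pow_mul, mul_comm k 2, div_pow, div_pow, one_pow,
      one_pow]
    field_simp
  rw [e]
  have h : 1 / (1 + u) ^ (q + 2 * k + ε) ≤ (1 + u) ^ (q + k) := by
    have h2 : (1 : ℝ) ≤ (1 + u) ^ (q + k) := one_le_pow₀ h1u
    have h3 : 1 / (1 + u) ^ (q + 2 * k + ε) ≤ 1 := by
      rw [div_le_one (by positivity)]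
      exact one_le_pow₀ h1u
    exact h3.trans h2
  gcongr

/-- the numerical inequality for odd degree -/
theorem odd_ineq {L m t x : ℝ} (hm : 100 ≤ m) (hL : 32 * Real.exp (Real.log 2 * m) ≤ L)
    (ht2 : t ≤ m / 4) (hx : x ≤ m / 16) :
    3 * (Real.exp (t / 2) * Real.sqrt (1 / L)) ≤ Real.exp (-x) := by
  have hlog2 : (0.69 : ℝ) ≤ Real.log 2 := by
    have := Real.log_two_gt_d9
    linarith
  have hE : 0 < Real.exp (Real.log 2 * m) := Real.exp_pos _
  have hL0 : 0 < L := by linarith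
  have hs : 3 * Real.exp (m / 8 + m / 16) ≤ Real.sqrt L := by
    apply Real.le_sqrt_of_sq_le
    have e : (3 * Real.exp (m / 8 + m / 16)) ^ 2 = 9 * Real.exp (3 / 8 * m) := by
      rw [mul_pow, ← Real.exp_nat_mul]
      norm_num
      ring_nf
    rw [e]
    have : Real.exp (3 / 8 * m) ≤ Real.exp (Real.log 2 * m) := by
      apply Real.exp_le_exp.2
      nlinarith
    linarith
  have hsL : 0 < Real.sqrt L := Real.sqrt_pos.2 hL0
  have e1 : Real.sqrt (1 / L) = 1 / Real.sqrt L := by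
    simp
  have h1 : Real.exp (t / 2) ≤ Real.exp (m / 8) := Real.exp_le_exp.2 (by linarith)
  have h2 : Real.exp (-(m / 16)) ≤ Real.exp (-x) := Real.exp_le_exp.2 (by linarith)
  refine le_trans ?_ h2
  rw [e1, Real.exp_neg, ← mul_assoc, mul_one_div, div_le_iff₀ hsL, inv_mul_eq_div,
    le_div_iff₀ (Real.exp_pos _)]
  rw [Real.exp_add] at hs
  calc 3 * Real.exp (t / 2) * Real.exp (m / 16) ≤ 3 * Real.exp (m / 8) * Real.exp (m / 16) := by
        gcongr
    _ ≤ Real.sqrt L := by linarith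

end TauAux

theorem tau_le_exp (L m : ℕ) (hm : 100 ≤ m) (hL : 32 * 2 ^ m ≤ L) (d : ℕ) (h1 : 1 ≤ d)
    (hd : 2 * d ≤ L) : tau (L + m) L d ≤ Real.exp (-((m : ℝ) * d / (16 * L))) := by
  have hm' : (100 : ℝ) ≤ m := by exact_mod_cast hm
  have hlog : 0 < Real.log 2 := Real.log_pos (by norm_num)
  have hlog2 : (0.69 : ℝ) ≤ Real.log 2 := by
    have := Real.log_two_gt_d9
    linarith
  have hpow : Real.exp (Real.log 2 * m) = 2 ^ m := by
    rw [mul_comm, Real.exp_nat_mul, Real.exp_log (by norm_num)]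
  have hL' : 32 * Real.exp (Real.log 2 * m) ≤ L := by
    rw [hpow]
    exact_mod_cast hL
  have hL1 : (1 : ℝ) ≤ Real.exp (Real.log 2 * m) := Real.one_le_exp (by positivity)
  have hL32 : (32 : ℝ) ≤ L := by linarith
  have hL0 : (0 : ℝ) < L := by linarith
  have hm0 : (0 : ℝ) ≤ m := Nat.cast_nonneg m
  have hY0 : (0 : ℝ) < (L : ℝ) + m := by linarith
  -- `m` is much smaller than `L`
  have hmL : (m : ℝ) ≤ L / 16 := by
    have : (m : ℝ) ≤ 2 * Real.exp (Real.log 2 * m) := by
      have := Real.add_one_le_exp (Real.log 2 * m)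
      nlinarith
    linarith
  set u : ℝ := (m : ℝ) / L with hu
  have hu0 : 0 ≤ u := by positivity
  have hu1 : u ≤ 1 / 4 := by
    rw [hu, div_le_iff₀ hL0]
    linarith
  have hYu : (L : ℝ) + m = L * (1 + u) := by
    rw [hu]; field_simp
  have h1u : (1 : ℝ) ≤ 1 + u := by linarith
  have hdL : 2 * (d : ℝ) ≤ L := by exact_mod_cast hd
  obtain ⟨i, hi⟩ := Nat.even_or_odd' d
  -- common part
  set P : ℝ := (1 + u) ^ i with hP
  have hP1 : 1 ≤ P := one_le_pow₀ h1u
  have hP0 : 0 < P := by linarith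
  set t : ℝ := u * i with ht
  have hid : 2 * (i : ℝ) ≤ d := by
    have : 2 * i ≤ d := by omega
    exact_mod_cast this
  have hi0 : (0 : ℝ) ≤ i := Nat.cast_nonneg i
  have ht4 : t ≤ m / 4 := by
    rw [ht, hu, div_mul_eq_mul_div, div_le_iff₀ hL0]
    nlinarith
  have hPle : Real.sqrt P ≤ Real.exp (t / 2) := by
    rw [Real.sqrt_le_left (Real.exp_pos _).le, hP]
    calc (1 + u) ^ i ≤ (Real.exp u) ^ i := by
          have := Real.add_one_le_exp u
          exact pow_le_pow_left₀ (by linarith) (by linarith) i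
      _ = Real.exp (t / 2) ^ 2 := by
          rw [← Real.exp_nat_mul, ← Real.exp_nat_mul, ht]
          congr 1
          push_cast
          ring
  have hPge : Real.sqrt P⁻¹ ≤ Real.exp (-(2 / 5 * t)) := by
    rw [Real.sqrt_le_left (Real.exp_pos _).le, hP]
    have h2 : (Real.exp (4 / 5 * u)) ^ i ≤ (1 + u) ^ i :=
      pow_le_pow_left₀ (Real.exp_pos _).le (exp_le_one_add hu0 hu1) i
    have h3 : Real.exp (-(2 / 5 * t)) ^ 2 = ((Real.exp (4 / 5 * u)) ^ i)⁻¹ := by
      rw [← Real.exp_nat_mul, ← Real.exp_nat_mul, ← Real.exp_neg, ht]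
      congr 1
      push_cast
      ring
    rw [h3]
    exact inv_anti₀ (by positivity) h2
  rcases hi with hi | hi
  · -- even degree
    subst hi
    have hi1 : 1 ≤ i := by omega
    have hi1' : (1 : ℝ) ≤ i := by exact_mod_cast hi1
    have hgeo : ∑ k ∈ Finset.range i, Real.sqrt P * (1 / (L : ℝ)) ^ (k + 1)
        ≤ Real.sqrt P / ((L : ℝ) - 1) := by
      have h := geo_sum_le (L := (L : ℝ)) (by linarith) i
      calc ∑ k ∈ Finset.range i, Real.sqrt P * (1 / (L : ℝ)) ^ (k + 1)
          = Real.sqrt P * (1 / (L : ℝ)) * ∑ k ∈ Finset.range i, (1 / (L : ℝ)) ^ k := by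
            rw [Finset.mul_sum]
            exact Finset.sum_congr rfl (fun k _ => by rw [pow_succ]; ring)
        _ ≤ Real.sqrt P * (1 / (L : ℝ)) * ((L : ℝ) / (L - 1)) := by
            apply mul_le_mul_of_nonneg_left h (by positivity)
        _ = _ := by
            have : (L : ℝ) - 1 ≠ 0 := by intro h; linarith
            field_simp
    have hsplit : tau ((L : ℝ) + m) L (2 * i) ≤
        Real.sqrt P⁻¹ + 2 * (Real.sqrt P / ((L : ℝ) - 1)) := by
      unfold tau
      have e : 2 * i + 1 = i + (i + 1) := by ring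
      rw [e, Finset.sum_range_add, Finset.sum_range_succ' _ i,
        ← Finset.sum_range_reflect _ i]
      have hA : ∑ j ∈ Finset.range i, min (Real.sqrt ((L : ℝ) ^ (2 * i - (i - 1 - j)) /
          ((L : ℝ) + m) ^ (i - 1 - j))) (Real.sqrt (((L : ℝ) + m) ^ (i - 1 - j) /
          (L : ℝ) ^ (2 * i - (i - 1 - j)))) ≤ Real.sqrt P / ((L : ℝ) - 1) := by
        refine le_trans (Finset.sum_le_sum (fun j hj => ?_)) hgeo
        rw [Finset.mem_range] at hj
        refine (min_le_right _ _).trans (sqrt_le (by positivity) ?_)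
        obtain ⟨q, hq⟩ : ∃ q, i = q + (j + 1) := ⟨i - 1 - j, by omega⟩
        have e1 : i - 1 - j = q := by omega
        have e2 : 2 * i - q = q + 2 * (j + 1) + 0 := by omega
        have := term_hi hL0 hu0 q (j + 1) 0
        rw [e1, e2, hYu, hP]
        rw [← hq, pow_zero, mul_one] at this
        exact this
      have hB : ∑ j ∈ Finset.range i, min (Real.sqrt ((L : ℝ) ^ (2 * i - (i + (j + 1))) /
          ((L : ℝ) + m) ^ (i + (j + 1)))) (Real.sqrt (((L : ℝ) + m) ^ (i + (j + 1)) /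
          (L : ℝ) ^ (2 * i - (i + (j + 1))))) ≤ Real.sqrt P / ((L : ℝ) - 1) := by
        refine le_trans (Finset.sum_le_sum (fun j hj => ?_)) hgeo
        rw [Finset.mem_range] at hj
        refine (min_le_left _ _).trans (sqrt_le (by positivity) ?_)
        obtain ⟨q, hq⟩ : ∃ q, i = q + (j + 1) := ⟨i - 1 - j, by omega⟩
        have e1 : 2 * i - (i + (j + 1)) = q := by omega
        have e2 : i + (j + 1) = q + 2 * (j + 1) + 0 := by omega
        have := term_lo hL0 hu0 q (j + 1) 0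
        rw [e1, e2, hYu, hP]
        rw [← hq, pow_zero, mul_one] at this
        exact this
      have hC : min (Real.sqrt ((L : ℝ) ^ (2 * i - (i + 0)) /
          ((L : ℝ) + m) ^ (i + 0))) (Real.sqrt (((L : ℝ) + m) ^ (i + 0) /
          (L : ℝ) ^ (2 * i - (i + 0)))) ≤ Real.sqrt P⁻¹ := by
        refine (min_le_left _ _).trans (le_of_eq ?_)
        congr 1
        have e1 : 2 * i - (i + 0) = i := by omega
        rw [e1, add_zero, hYu, mul_pow, hP]
        field_simp
      have := add_le_add hA (add_le_add hB hC)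
      linarith
    have hmu : (m : ℝ) / L ≤ t := by
      rw [ht, ← hu]
      nlinarith
    have hfin := even_ineq hm' hL' hmu ht4
    have e3 : Real.exp (-((m : ℝ) * ((2 * i : ℕ) : ℝ) / (16 * L))) = Real.exp (-(t / 8)) := by
      congr 1
      rw [ht, hu]
      push_cast
      field_simp
      ring
    rw [e3]
    refine hsplit.trans (le_trans ?_ hfin)
    have hLm1 : 0 < (L : ℝ) - 1 := by linarith
    have e4 : 2 * (Real.sqrt P / ((L : ℝ) - 1)) = 2 / ((L : ℝ) - 1) * Real.sqrt P := by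
      ring
    rw [e4]
    exact add_le_add hPge (mul_le_mul_of_nonneg_left hPle (by positivity))
  · -- odd degree
    subst hi
    have hgeo : ∑ k ∈ Finset.range (i + 1), Real.sqrt (P * (1 / L)) * (1 / (L : ℝ)) ^ k
        ≤ Real.sqrt (P * (1 / L)) * ((L : ℝ) / (L - 1)) := by
      have h := geo_sum_le (L := (L : ℝ)) (by linarith) (i + 1)
      rw [← Finset.mul_sum]
      exact mul_le_mul_of_nonneg_left h (Real.sqrt_nonneg _)
    have hsplit : tau ((L : ℝ) + m) L (2 * i + 1) ≤
        2 * (Real.sqrt (P * (1 / L)) * ((L : ℝ) / (L - 1))) := by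
      unfold tau
      have e : 2 * i + 1 + 1 = (i + 1) + (i + 1) := by ring
      rw [e, Finset.sum_range_add, ← Finset.sum_range_reflect _ (i + 1)]
      have hA : ∑ j ∈ Finset.range (i + 1), min (Real.sqrt ((L : ℝ) ^ (2 * i + 1 -
          (i + 1 - 1 - j)) / ((L : ℝ) + m) ^ (i + 1 - 1 - j)))
          (Real.sqrt (((L : ℝ) + m) ^ (i + 1 - 1 - j) / (L : ℝ) ^ (2 * i + 1 -
          (i + 1 - 1 - j)))) ≤ Real.sqrt (P * (1 / L)) * ((L : ℝ) / (L - 1)) := by
        refine le_trans (Finset.sum_le_sum (fun j hj => ?_)) hgeo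
        rw [Finset.mem_range] at hj
        refine (min_le_right _ _).trans (sqrt_le (by positivity) ?_)
        obtain ⟨q, hq⟩ : ∃ q, i = q + j := ⟨i - j, by omega⟩
        have e1 : i + 1 - 1 - j = q := by omega
        have e2 : 2 * i + 1 - q = q + 2 * j + 1 := by omega
        have := term_hi hL0 hu0 q j 1
        rw [e1, e2, hYu, hP]
        rw [← hq, pow_one] at this
        exact this
      have hB : ∑ j ∈ Finset.range (i + 1), min (Real.sqrt ((L : ℝ) ^ (2 * i + 1 -
          (i + 1 + j)) / ((L : ℝ) + m) ^ (i + 1 + j)))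
          (Real.sqrt (((L : ℝ) + m) ^ (i + 1 + j) / (L : ℝ) ^ (2 * i + 1 -
          (i + 1 + j)))) ≤ Real.sqrt (P * (1 / L)) * ((L : ℝ) / (L - 1)) := by
        refine le_trans (Finset.sum_le_sum (fun j hj => ?_)) hgeo
        rw [Finset.mem_range] at hj
        refine (min_le_left _ _).trans (sqrt_le (by positivity) ?_)
        obtain ⟨q, hq⟩ : ∃ q, i = q + j := ⟨i - j, by omega⟩
        have e1 : 2 * i + 1 - (i + 1 + j) = q := by omega
        have e2 : i + 1 + j = q + 2 * j + 1 := by omega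
        have := term_lo hL0 hu0 q j 1
        rw [e1, e2, hYu, hP]
        rw [← hq, pow_one] at this
        exact this
      have := add_le_add hA hB
      linarith
    have hx : (m : ℝ) * ((2 * i + 1 : ℕ) : ℝ) / (16 * L) ≤ m / 16 := by
      rw [div_le_div_iff₀ (by positivity) (by norm_num)]
      have : ((2 * i + 1 : ℕ) : ℝ) ≤ L := by linarith
      nlinarith
    have hfin := odd_ineq hm' hL' ht4 hx
    refine hsplit.trans (le_trans ?_ hfin)
    have hLm1 : 0 < (L : ℝ) - 1 := by linarith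
    have e4 : Real.sqrt (P * (1 / (L : ℝ))) = Real.sqrt P * Real.sqrt (1 / L) :=
      Real.sqrt_mul hP0.le _
    have e5 : (L : ℝ) / (L - 1) ≤ 3 / 2 := by
      rw [div_le_div_iff₀ hLm1 (by norm_num)]
      linarith
    have e6 : Real.sqrt P * Real.sqrt (1 / (L : ℝ)) ≤ Real.exp (t / 2) * Real.sqrt (1 / L) :=
      mul_le_mul_of_nonneg_right hPle (Real.sqrt_nonneg _)
    rw [e4]
    have e7 : 0 ≤ Real.sqrt P * Real.sqrt (1 / (L : ℝ)) := by positivity
    calc 2 * (Real.sqrt P * Real.sqrt (1 / (L : ℝ)) * ((L : ℝ) / (L - 1)))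
        ≤ 2 * (Real.sqrt P * Real.sqrt (1 / (L : ℝ)) * (3 / 2)) := by gcongr
      _ = 3 * (Real.sqrt P * Real.sqrt (1 / (L : ℝ))) := by ring
      _ ≤ _ := by linarith

end Vale.Agent.P346
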