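import Vale.Agent.P346.Defs
import Vale.Agent.P346.Rank
import Vale.Agent.P346.Tau

/-!
# P346: circuits have small measure
-/

namespace Vale.Agent.P346

open MvPolynomial Finset Matrix

namespace CircAux

section Hom

variable {K : Type*} [Field K] {σ : Type*} (Cc : Circ K σ)

theorem hom_zero' (x : Fin Cc.n₀) : (Cc.poly₀ x).IsHomogeneous (Cc.leafDeg x) := by
  unfold Circ.poly₀ Circ.leafDeg
  rcases Cc.leaf x with v | a
  · exact isHomogeneous_X K v
  · exact isHomogeneous_C σ a

variable {Cc} {d₁ : Fin Cc.n₁ → ℕ} {d₂ : Fin Cc.n₂ → ℕ} {d₃ : Fin Cc.n₃ → ℕ}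
  {d₄ : Fin Cc.n₄ → ℕ} {D : ℕ} (hC : Cc.FormalDegrees d₁ d₂ d₃ d₄ D)

include hC

theorem hom_one' (l : Fin Cc.n₁) : (Cc.poly₁ l).IsHomogeneous (d₁ l) := by
  unfold Circ.poly₁
  apply MvPolynomial.IsHomogeneous.sum
  intro x _
  by_cases h : Cc.c₁ l x = 0
  · rw [h, MvPolynomial.C_0, zero_mul]
    exact MvPolynomial.isHomogeneous_zero _ _ _
  · rw [← hC.bottom l x h]
    have := (isHomogeneous_C σ (Cc.c₁ l x)).mul (hom_zero' Cc x)
    rwa [zero_add] at this

theorem hom_two' (k : Fin Cc.n₂) : (Cc.poly₂ k).IsHomogeneous (d₂ k) := by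
  unfold Circ.poly₂
  rw [hC.lower k]
  apply MvPolynomial.IsHomogeneous.prod
  intro l _
  have := (hom_one' hC l).pow (Cc.e₂ k l)
  rwa [mul_comm] at this

theorem hom_three' (j : Fin Cc.n₃) : (Cc.poly₃ j).IsHomogeneous (d₃ j) := by
  unfold Circ.poly₃
  apply MvPolynomial.IsHomogeneous.sum
  intro k _
  by_cases h : Cc.c₃ j k = 0
  · rw [h, MvPolynomial.C_0, zero_mul]
    exact MvPolynomial.isHomogeneous_zero _ _ _
  · rw [← hC.middle j k h]
    have := (isHomogeneous_C σ (Cc.c₃ j k)).mul (hom_two' hC k)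
    rwa [zero_add] at this

theorem hom_four' (i : Fin Cc.n₄) : (Cc.poly₄ i).IsHomogeneous (d₄ i) := by
  unfold Circ.poly₄
  rw [hC.upper i]
  apply MvPolynomial.IsHomogeneous.prod
  intro j _
  have := (hom_three' hC j).pow (Cc.e₄ i j)
  rwa [mul_comm] at this

end Hom

variable {W : Type*} [Fintype W] [DecidableEq W] {K : Type*} [Field K]

theorem mu_zero' (i j k k' : ℕ) : mu i j k k' (0 : MvPolynomial (W ⊕ W) K) = 0 := by
  have := mu_sum_le (W := W) (K := K) i j k k' (∅ : Finset ℕ) (fun _ => 0)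
  simpa using this

/-- a product of powers as a product over a sigma type -/
theorem prod_pow_eq {ι : Type*} [Fintype ι] {M : Type*} [CommMonoid M] (q : ι → M) (e : ι → ℕ) :
    ∏ x : (Σ j : ι, Fin (e j)), q x.1 = ∏ j, q j ^ e j := by
  rw [Fintype.prod_sigma]
  refine Finset.prod_congr rfl (fun j _ => ?_)
  simp

theorem sum_mul_eq {ι : Type*} [Fintype ι] (d : ι → ℕ) (e : ι → ℕ) :
    ∑ x : (Σ j : ι, Fin (e j)), d x.1 = ∑ j, e j * d j := by
  rw [Fintype.sum_sigma]
  refine Finset.sum_congr rfl (fun j _ => ?_)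
  simp

end CircAux

open CircAux

variable {W : Type*} [Fintype W] [DecidableEq W] {K : Type*} [Field K]

/-- `t` is the threshold between low and high degree factors. -/
theorem circuit_mu_le {σ : Type*} (Cc : Circ K σ) (n : ℕ) {d₁ d₂ d₃ d₄}
    (hC : Cc.FormalDegrees d₁ d₂ d₃ d₄ n) (e : σ → W ⊕ W)
    (i j k k' : ℕ) (hn : k + k' = n) (Λy Λu : ℝ) (hy : 0 < Λy) (hu : 0 < Λu)
    (hdim : ∀ a b : ℕ, (((Fintype.card W).choose (i + a) : ℝ) * (Fintype.card W).choose (j + b)) ≤
      (Fintype.card W).choose i * (Fintype.card W).choose j * (Λu ^ b / Λy ^ a))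
    (g β : ℝ) (t : ℕ) (hβ0 : 0 ≤ β) (hβ1 : β ≤ 1)
    (hlow : ∀ d, 1 ≤ d → d ≤ t → tau Λy Λu d ≤ Real.exp (-(g * d)))
    (h3 : ∀ d, tau Λy Λu d ≤ 3) (hone : tau Λy Λu 1 ≤ β) :
    (mu i j k k' (rename e Cc.poly) : ℝ) ≤ (Fintype.card W).choose i * (Fintype.card W).choose j *
      Real.sqrt (Λu ^ k' / Λy ^ k) *
      (Cc.n₄ * Real.exp (-(g * n)) + Cc.n₄ * Cc.n₂ * (3 * β ^ t)) := by
  classical
  set B : ℝ := (Fintype.card W).choose i * (Fintype.card W).choose j *
      Real.sqrt (Λu ^ k' / Λy ^ k) with hB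
  have hB0 : 0 ≤ B := by positivity
  have hbt : 0 ≤ 3 * β ^ t := by positivity
  -- the renamed circuit
  have e5 : rename e Cc.poly = ∑ x, C (Cc.c₅ x) * rename e (Cc.poly₄ x) := by
    unfold Circ.poly
    rw [map_sum]
    exact Finset.sum_congr rfl (fun x _ => by rw [map_mul, rename_C])
  have e4 : ∀ x, rename e (Cc.poly₄ x) = ∏ y, (rename e (Cc.poly₃ y)) ^ Cc.e₄ x y := by
    intro x
    unfold Circ.poly₄
    rw [map_prod]
    exact Finset.prod_congr rfl (fun y _ => by rw [map_pow])
  have e3 : ∀ y, rename e (Cc.poly₃ y) = ∑ z, C (Cc.c₃ y z) * rename e (Cc.poly₂ z) := by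
    intro y
    unfold Circ.poly₃
    rw [map_sum]
    exact Finset.sum_congr rfl (fun x _ => by rw [map_mul, rename_C])
  have e2 : ∀ z, rename e (Cc.poly₂ z) = ∏ l, (rename e (Cc.poly₁ l)) ^ Cc.e₂ z l := by
    intro x
    unfold Circ.poly₂
    rw [map_prod]
    exact Finset.prod_congr rfl (fun y _ => by rw [map_pow])
  -- the bound for one upper product gate
  have main : ∀ x, d₄ x = n → (mu i j k k' (rename e (Cc.poly₄ x)) : ℝ) ≤
      B * (Real.exp (-(g * n)) + Cc.n₂ * (3 * β ^ t)) := by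
    intro x hx
    have hsum : ∑ y, Cc.e₄ x y * d₃ y = n := by rw [← hx, hC.upper x]
    by_cases hlow' : ∀ y, Cc.e₄ x y ≠ 0 → d₃ y ≤ t
    · -- all factors have low degree
      have h1 := mu_prod_le (W := W) (K := K) (J := Σ y : Fin Cc.n₃, Fin (Cc.e₄ x y))
        (fun p => rename e (Cc.poly₃ p.1)) (fun p => d₃ p.1)
        (fun p => (hom_three' hC p.1).rename_isHomogeneous) i j k k'
        (by rw [sum_mul_eq, hsum, hn]) Λy Λu hy hu hdim
      rw [prod_pow_eq (fun y => rename e (Cc.poly₃ y)) (Cc.e₄ x), ← e4 x] at h1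
      refine h1.trans ?_
      rw [← hB]
      apply mul_le_mul_of_nonneg_left _ hB0
      have h2 : ∏ p : (Σ y : Fin Cc.n₃, Fin (Cc.e₄ x y)), tau Λy Λu (d₃ p.1) ≤
          ∏ p : (Σ y : Fin Cc.n₃, Fin (Cc.e₄ x y)), Real.exp (-(g * d₃ p.1)) := by
        apply Finset.prod_le_prod
        · intro p _
          exact tau_nonneg _ _ _
        · intro p _
          have hp : Cc.e₄ x p.1 ≠ 0 := by
            intro h
            have := p.2.2
            omega
          rcases Nat.eq_zero_or_pos (d₃ p.1) with h0 | h0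
          · rw [h0, tau_zero]
            simp
          · exact hlow _ h0 (hlow' _ hp)
      have h4 : ∏ p : (Σ y : Fin Cc.n₃, Fin (Cc.e₄ x y)), Real.exp (-(g * d₃ p.1)) =
          Real.exp (-(g * n)) := by
        rw [← Real.exp_sum, Finset.sum_neg_distrib, ← Finset.mul_sum, ← Nat.cast_sum,
          sum_mul_eq, hsum]
      rw [h4] at h2
      have h5 : 0 ≤ (Cc.n₂ : ℝ) * (3 * β ^ t) := by positivity
      linarith
    · -- some factor has high degree
      push Not at hlow'
      obtain ⟨y, hy0, hyt⟩ := hlow'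
      -- the remaining factors
      obtain ⟨m, hm⟩ : ∃ m, Cc.e₄ x y = m + 1 := ⟨Cc.e₄ x y - 1, by omega⟩
      set R : MvPolynomial (W ⊕ W) K := (rename e (Cc.poly₃ y)) ^ m *
        ∏ z ∈ Finset.univ.erase y, (rename e (Cc.poly₃ z)) ^ Cc.e₄ x z with hR
      have hPR : rename e (Cc.poly₄ x) = rename e (Cc.poly₃ y) * R := by
        rw [e4 x, ← Finset.mul_prod_erase Finset.univ _ (Finset.mem_univ y), hm, hR, pow_succ]
        ring
      have hRh : R.IsHomogeneous (m * d₃ y + ∑ z ∈ Finset.univ.erase y, Cc.e₄ x z * d₃ z) := by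
        rw [hR]
        apply MvPolynomial.IsHomogeneous.mul
        · have := ((hom_three' hC y).rename_isHomogeneous (f := e)).pow m
          rwa [mul_comm] at this
        · apply MvPolynomial.IsHomogeneous.prod
          intro z _
          have := ((hom_three' hC z).rename_isHomogeneous (f := e)).pow (Cc.e₄ x z)
          rwa [mul_comm] at this
      have hdeg : d₃ y + (m * d₃ y + ∑ z ∈ Finset.univ.erase y, Cc.e₄ x z * d₃ z) = n := by
        rw [← hsum, ← Finset.add_sum_erase Finset.univ _ (Finset.mem_univ y), hm]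
        ring
      set r : ℕ := m * d₃ y + ∑ z ∈ Finset.univ.erase y, Cc.e₄ x z * d₃ z with hr
      have hexp : rename e (Cc.poly₄ x) =
          ∑ z, C (Cc.c₃ y z) * (rename e (Cc.poly₂ z) * R) := by
        rw [hPR, e3 y, Finset.sum_mul]
        exact Finset.sum_congr rfl (fun z _ => by ring)
      have hpiece : ∀ z, (mu i j k k' (C (Cc.c₃ y z) * (rename e (Cc.poly₂ z) * R)) : ℝ) ≤
          B * (3 * β ^ t) := by
        intro z
        have hnn : 0 ≤ B * (3 * β ^ t) := mul_nonneg hB0 hbt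
        by_cases hc : Cc.c₃ y z = 0
        · rw [hc, MvPolynomial.C_0, zero_mul, mu_zero']
          simpa using hnn
        have hd2 : d₂ z = d₃ y := hC.middle y z hc
        refine le_trans (Nat.cast_le.2 (mu_C_mul_le i j k k' _ _)) ?_
        by_cases hz : ∃ l, Cc.e₂ z l ≠ 0 ∧ Cc.poly₁ l = 0
        · obtain ⟨l, hl1, hl2⟩ := hz
          have : rename e (Cc.poly₂ z) = 0 := by
            rw [e2 z]
            apply Finset.prod_eq_zero (Finset.mem_univ l)
            rw [hl2, map_zero, zero_pow hl1]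
          rw [this, zero_mul, mu_zero']
          simpa using hnn
        push Not at hz
        -- all bottom gates in use have degree at most one
        have hd1 : ∀ l, Cc.e₂ z l ≠ 0 → d₁ l ≤ 1 := by
          intro l hl
          have h0 := hz l hl
          have : ∃ w, Cc.c₁ l w ≠ 0 := by
            by_contra hcon
            push Not at hcon
            apply h0
            unfold Circ.poly₁
            apply Finset.sum_eq_zero
            intro w _
            rw [hcon w, MvPolynomial.C_0, zero_mul]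
          obtain ⟨w, hw⟩ := this
          rw [← hC.bottom l w hw]
          unfold Circ.leafDeg
          rcases Cc.leaf w with v | a <;> simp
        have h1 := mu_prod_le (W := W) (K := K) (J := Option (Σ l : Fin Cc.n₁, Fin (Cc.e₂ z l)))
          (fun p => p.elim R (fun p => rename e (Cc.poly₁ p.1)))
          (fun p => p.elim r (fun p => d₁ p.1))
          (by
            intro p
            rcases p with _ | p
            · exact hRh
            · exact (hom_one' hC p.1).rename_isHomogeneous)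
          i j k k'
          (by
            rw [Fintype.sum_option]
            simp only [Option.elim]
            rw [sum_mul_eq, ← hC.lower z, hd2, hn, ← hdeg]
            ring) Λy Λu hy hu hdim
        rw [Fintype.prod_option, Fintype.prod_option] at h1
        simp only [Option.elim] at h1
        rw [prod_pow_eq (fun l => rename e (Cc.poly₁ l)) (Cc.e₂ z), ← e2 z, mul_comm R] at h1
        refine h1.trans ?_
        rw [← hB]
        apply mul_le_mul_of_nonneg_left _ hB0
        have h2 : ∏ p : (Σ l : Fin Cc.n₁, Fin (Cc.e₂ z l)), tau Λy Λu (d₁ p.1) ≤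
            ∏ p : (Σ l : Fin Cc.n₁, Fin (Cc.e₂ z l)), β ^ (d₁ p.1) := by
          apply Finset.prod_le_prod
          · intro p _
            exact tau_nonneg _ _ _
          · intro p _
            have hp : Cc.e₂ z p.1 ≠ 0 := by
              intro h
              have := p.2.2
              omega
            have hp1 := hd1 _ hp
            have hcase : d₁ p.1 = 0 ∨ d₁ p.1 = 1 := by omega
            rcases hcase with h0 | h0
            · rw [h0, tau_zero, pow_zero]
            · rw [h0, pow_one]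
              exact hone
        have h4 : ∏ p : (Σ l : Fin Cc.n₁, Fin (Cc.e₂ z l)), β ^ (d₁ p.1) = β ^ (d₃ y) := by
          rw [Finset.prod_pow_eq_pow_sum, sum_mul_eq, ← hC.lower z, hd2]
        have h5 : β ^ (d₃ y) ≤ β ^ t := pow_le_pow_of_le_one hβ0 hβ1 hyt.le
        rw [h4] at h2
        have h6 : 0 ≤ ∏ p : (Σ l : Fin Cc.n₁, Fin (Cc.e₂ z l)), tau Λy Λu (d₁ p.1) :=
          Finset.prod_nonneg (fun p _ => tau_nonneg _ _ _)
        calc tau Λy Λu r * ∏ p : (Σ l : Fin Cc.n₁, Fin (Cc.e₂ z l)), tau Λy Λu (d₁ p.1)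
            ≤ 3 * ∏ p : (Σ l : Fin Cc.n₁, Fin (Cc.e₂ z l)), tau Λy Λu (d₁ p.1) :=
              mul_le_mul_of_nonneg_right (h3 r) h6
          _ ≤ 3 * β ^ t := by linarith [h2.trans h5]
      have hsum' : (mu i j k k' (rename e (Cc.poly₄ x)) : ℝ) ≤ Cc.n₂ * (B * (3 * β ^ t)) := by
        rw [hexp]
        calc (mu i j k k' (∑ z, C (Cc.c₃ y z) * (rename e (Cc.poly₂ z) * R)) : ℝ)
            ≤ ((∑ z, mu i j k k' (C (Cc.c₃ y z) * (rename e (Cc.poly₂ z) * R)) : ℕ) : ℝ) :=
              Nat.cast_le.2 (mu_sum_le i j k k' _ _)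
          _ = ∑ z, (mu i j k k' (C (Cc.c₃ y z) * (rename e (Cc.poly₂ z) * R)) : ℝ) := by
              push_cast; rfl
          _ ≤ ∑ _z : Fin Cc.n₂, B * (3 * β ^ t) := Finset.sum_le_sum (fun z _ => hpiece z)
          _ = _ := by simp
      refine hsum'.trans ?_
      have h7 : 0 ≤ B * Real.exp (-(g * n)) := mul_nonneg hB0 (Real.exp_pos _).le
      have h8 : B * (Real.exp (-(g * n)) + Cc.n₂ * (3 * β ^ t)) =
          B * Real.exp (-(g * n)) + Cc.n₂ * (B * (3 * β ^ t)) := by ring
      rw [h8]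
      linarith
  rw [e5]
  calc (mu i j k k' (∑ x, C (Cc.c₅ x) * rename e (Cc.poly₄ x)) : ℝ)
      ≤ ((∑ x, mu i j k k' (C (Cc.c₅ x) * rename e (Cc.poly₄ x)) : ℕ) : ℝ) :=
        Nat.cast_le.2 (mu_sum_le i j k k' _ _)
    _ = ∑ x, (mu i j k k' (C (Cc.c₅ x) * rename e (Cc.poly₄ x)) : ℝ) := by push_cast; rfl
    _ ≤ ∑ _x : Fin Cc.n₄, B * (Real.exp (-(g * n)) + Cc.n₂ * (3 * β ^ t)) := by
        apply Finset.sum_le_sum
        intro x _
        by_cases hc : Cc.c₅ x = 0
        · rw [hc, MvPolynomial.C_0, zero_mul, mu_zero']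
          have : 0 ≤ Real.exp (-(g * n)) + Cc.n₂ * (3 * β ^ t) := by positivity
          simpa using mul_nonneg hB0 this
        · exact le_trans (Nat.cast_le.2 (mu_C_mul_le i j k k' _ _)) (main x (hC.top x hc))
    _ = _ := by
        rw [Finset.sum_const, Finset.card_univ, Fintype.card_fin, nsmul_eq_mul]
        ring

end Vale.Agent.P346
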