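import Mathlib

/-!
# P346: definitions used by the statement

Iterated matrix multiplication and five-layer (sum-product-sum-product-sum) circuits.
-/

namespace Vale.Agent.P346

open MvPolynomial

/-- `IMM_{w,d}`: the `(1,1)` entry of the product of `d` generic `w × w` matrices; the entry
`(a, b)` of the `t`-th matrix is the variable `(t, a, b)`. -/
noncomputable def IMM (K : Type*) [CommSemiring K] (w d : ℕ) [NeZero w] :
    MvPolynomial (Fin d × Fin w × Fin w) K :=
  (List.ofFn fun t : Fin d =>
    (Matrix.of fun a b : Fin w => (X (t, a, b) : MvPolynomial (Fin d × Fin w × Fin w) K))).prod 0 0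

/-- A circuit with five layers `+, ×, +, ×, +` (from the output down) over the leaves. The edges
into a sum gate are the ones with non-zero coefficient; product gates read their inputs with
multiplicities. Gates may be shared; fan-in and fan-out are arbitrary. -/
structure Circ (K : Type*) (σ : Type*) where
  /-- number of leaves -/
  n₀ : ℕ
  /-- number of bottom sum gates -/
  n₁ : ℕ
  /-- number of lower product gates -/
  n₂ : ℕ
  /-- number of middle sum gates -/
  n₃ : ℕ
  /-- number of upper product gates -/
  n₄ : ℕ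
  /-- every leaf is a variable or a constant -/
  leaf : Fin n₀ → σ ⊕ K
  /-- coefficients of the bottom sum gates -/
  c₁ : Fin n₁ → Fin n₀ → K
  /-- multiplicities of the inputs of the lower product gates -/
  e₂ : Fin n₂ → Fin n₁ → ℕ
  /-- coefficients of the middle sum gates -/
  c₃ : Fin n₃ → Fin n₂ → K
  /-- multiplicities of the inputs of the upper product gates -/
  e₄ : Fin n₄ → Fin n₃ → ℕ
  /-- coefficients of the output gate -/
  c₅ : Fin n₄ → K

namespace Circ

variable {K : Type*} [Field K] {σ : Type*} (C : Circ K σ)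

/-- The number of vertices (leaves, gates of the four inner layers, output gate). -/
def size : ℕ := C.n₀ + C.n₁ + C.n₂ + C.n₃ + C.n₄ + 1

/-- polynomial computed by a leaf -/
noncomputable def poly₀ (x : Fin C.n₀) : MvPolynomial σ K :=
  Sum.elim (fun v => X v) (fun a => MvPolynomial.C a) (C.leaf x)

/-- polynomial computed by a bottom sum gate -/
noncomputable def poly₁ (l : Fin C.n₁) : MvPolynomial σ K :=
  ∑ x, MvPolynomial.C (C.c₁ l x) * C.poly₀ x

/-- polynomial computed by a lower product gate -/
noncomputable def poly₂ (k : Fin C.n₂) : MvPolynomial σ K :=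
  ∏ l, C.poly₁ l ^ C.e₂ k l

/-- polynomial computed by a middle sum gate -/
noncomputable def poly₃ (j : Fin C.n₃) : MvPolynomial σ K :=
  ∑ k, MvPolynomial.C (C.c₃ j k) * C.poly₂ k

/-- polynomial computed by an upper product gate -/
noncomputable def poly₄ (i : Fin C.n₄) : MvPolynomial σ K :=
  ∏ j, C.poly₃ j ^ C.e₄ i j

/-- polynomial computed by the circuit -/
noncomputable def poly : MvPolynomial σ K :=
  ∑ i, MvPolynomial.C (C.c₅ i) * C.poly₄ i

/-- formal degree of a leaf: variables have degree one, constants degree zero -/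
def leafDeg (x : Fin C.n₀) : ℕ := Sum.elim (fun _ => 1) (fun _ => 0) (C.leaf x)

/-- `d₁, …, d₄, D` are formal degrees of the gates: all inputs of a sum gate have the degree of
the gate, and the degree of a product gate is the sum of the degrees of its inputs, with
multiplicities. -/
structure FormalDegrees (d₁ : Fin C.n₁ → ℕ) (d₂ : Fin C.n₂ → ℕ) (d₃ : Fin C.n₃ → ℕ)
    (d₄ : Fin C.n₄ → ℕ) (D : ℕ) : Prop where
  bottom : ∀ l x, C.c₁ l x ≠ 0 → C.leafDeg x = d₁ l
  lower : ∀ k, d₂ k = ∑ l, C.e₂ k l * d₁ l
  middle : ∀ j k, C.c₃ j k ≠ 0 → d₂ k = d₃ j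
  upper : ∀ i, d₄ i = ∑ j, C.e₄ i j * d₃ j
  top : ∀ i, C.c₅ i ≠ 0 → d₄ i = D

/-- The circuit is syntactically homogeneous. -/
def IsSyntHomogeneous : Prop :=
  ∃ d₁ d₂ d₃ d₄ D, C.FormalDegrees d₁ d₂ d₃ d₄ D

end Circ

end Vale.Agent.P346
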