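import Vale.Agent.P346.Defs

/-!
# P346: path sets and balanced quadruples (definitions shared by Quad, Paths, Transfer, Word)
-/

namespace Vale.Agent.P346

section

variable {W : Type*} [Fintype W] [DecidableEq W]

/-- multiplication by `∑_{p ∈ P} x_p` on squarefree monomials of bidegree `(i, j)` -/
def MP (R : Type*) [Zero R] [One R] (P : Finset (Finset (W ⊕ W))) (i j : ℕ) :
    Matrix (Finset (W ⊕ W)) (Finset (W ⊕ W)) R :=
  Matrix.of fun T S =>
    if (S.toLeft.card = i ∧ S.toRight.card = j) ∧ S ⊆ T ∧ T \ S ∈ P then 1 else 0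

/-- balanced quadruples: `1_{p₁} + 1_{p₃} = 1_{p₂} + 1_{p₄}` -/
def Balanced (p : Finset (W ⊕ W) × Finset (W ⊕ W) × Finset (W ⊕ W) × Finset (W ⊕ W)) : Prop :=
  ∀ v, (if v ∈ p.1 then 1 else 0) + (if v ∈ p.2.2.1 then 1 else 0) =
    (if v ∈ p.2.1 then 1 else 0) + (if v ∈ p.2.2.2 then 1 else (0 : ℕ))

instance (p : Finset (W ⊕ W) × Finset (W ⊕ W) × Finset (W ⊕ W) × Finset (W ⊕ W)) :
    Decidable (Balanced p) := by unfold Balanced; infer_instance

/-- embedding of the variables of `IMM`: layers with `word t = true` go left -/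
def emb (n : ℕ) (word : Fin n → Bool) (ω : Fin n × Fin n × Fin n → W) :
    Fin n × Fin n × Fin n → W ⊕ W :=
  fun x => if word x.1 then Sum.inl (ω x) else Sum.inr (ω x)

/-- vertex sequences of closed paths -/
def pathSeqs (n : ℕ) [NeZero n] : Finset (Fin (n + 1) → Fin n) :=
  Finset.univ.filter fun v => v 0 = 0 ∧ v (Fin.last n) = 0

/-- the set of variables of a path -/
def pathSet (n : ℕ) (word : Fin n → Bool) (ω : Fin n × Fin n × Fin n → W)
    (v : Fin (n + 1) → Fin n) : Finset (W ⊕ W) :=
  Finset.univ.image fun t : Fin n => emb n word ω (t, v t.castSucc, v t.succ)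

/-- all path sets -/
def pathSets (n : ℕ) [NeZero n] (word : Fin n → Bool) (ω : Fin n × Fin n × Fin n → W) :
    Finset (Finset (W ⊕ W)) :=
  (pathSeqs n).image (pathSet n word ω)

end

/-- number of `true` letters among the first `t` -/
def cntT (n : ℕ) (word : Fin n → Bool) (t : ℕ) : ℕ :=
  (Finset.univ.filter fun s : Fin n => s.val < t ∧ word s = true).card

/-- number of `false` letters among the first `t` -/
def cntF (n : ℕ) (word : Fin n → Bool) (t : ℕ) : ℕ :=
  (Finset.univ.filter fun s : Fin n => s.val < t ∧ word s = false).card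

end Vale.Agent.P346
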