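import Vale.Agent.P346.Rank
import Vale.Agent.P346.PathDefs

/-!
# P346: `IMM` as a sum over paths
-/

namespace Vale.Agent.P346

open MvPolynomial Finset Matrix

namespace PathsAux

/-- entries of a product of matrices as a sum over paths -/
theorem prod_apply {R : Type*} [CommSemiring R] {w : ℕ} :
    ∀ (d : ℕ) (M : Fin d → Matrix (Fin w) (Fin w) R) (a b : Fin w),
      (List.ofFn M).prod a b = ∑ v : Fin (d + 1) → Fin w,
        if v 0 = a ∧ v (Fin.last d) = b then ∏ t : Fin d, M t (v t.castSucc) (v t.succ) else 0 := by
  intro d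
  induction d with
  | zero =>
    intro M a b
    rw [List.ofFn_zero, List.prod_nil, Matrix.one_apply]
    by_cases hab : a = b
    · rw [if_pos hab, Finset.sum_eq_single (fun _ => a)]
      · simp [hab]
      · intro v _ hv
        rw [if_neg]
        rintro ⟨h1, -⟩
        exact hv (funext fun x => by rw [show x = 0 from Fin.ext (by omega), h1])
      · intro h; exact absurd (Finset.mem_univ _) h
    · rw [if_neg hab]
      symm
      refine Finset.sum_eq_zero fun v _ => ?_
      rw [if_neg]
      rintro ⟨h1, h2⟩
      exact hab (h1.symm.trans h2)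
  | succ d ih =>
    intro M a b
    rw [List.ofFn_succ, List.prod_cons, Matrix.mul_apply]
    have e : ∑ v : Fin (d + 1 + 1) → Fin w,
        (if v 0 = a ∧ v (Fin.last (d + 1)) = b then
          ∏ t : Fin (d + 1), M t (v t.castSucc) (v t.succ) else 0)
        = ∑ x : Fin w, ∑ v : Fin (d + 1) → Fin w,
          if x = a ∧ v (Fin.last d) = b then
            M 0 x (v 0) * ∏ t : Fin d, M t.succ (v t.castSucc) (v t.succ) else 0 := by
      rw [← Fintype.sum_prod_type']
      refine (Fintype.sum_equiv (Fin.consEquiv (fun _ => Fin w)) _ _ ?_).symm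
      rintro ⟨x, v⟩
      simp only [Fin.consEquiv_apply, Fin.cons_zero]
      have h1 : (Fin.cons x v : Fin (d + 1 + 1) → Fin w) (Fin.last (d + 1)) = v (Fin.last d) := by
        rw [← Fin.succ_last, Fin.cons_succ]
      have h2 : ∏ t : Fin (d + 1), M t ((Fin.cons x v : Fin (d + 1 + 1) → Fin w) t.castSucc)
          ((Fin.cons x v : Fin (d + 1 + 1) → Fin w) t.succ)
          = M 0 x (v 0) * ∏ t : Fin d, M t.succ (v t.castSucc) (v t.succ) := by
        rw [Fin.prod_univ_succ]
        simp only [Fin.castSucc_zero, Fin.cons_zero, Fin.cons_succ, ← Fin.succ_castSucc]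
      rw [h1, h2]
    have e' : ∑ x : Fin w, ∑ v : Fin (d + 1) → Fin w,
          (if x = a ∧ v (Fin.last d) = b then
            M 0 x (v 0) * ∏ t : Fin d, M t.succ (v t.castSucc) (v t.succ) else 0)
        = ∑ v : Fin (d + 1) → Fin w, if v (Fin.last d) = b then
            M 0 a (v 0) * ∏ t : Fin d, M t.succ (v t.castSucc) (v t.succ) else 0 := by
      rw [Finset.sum_eq_single a]
      · refine Finset.sum_congr rfl fun v _ => ?_
        by_cases h : v (Fin.last d) = b
        · rw [if_pos ⟨rfl, h⟩, if_pos h]
        · rw [if_neg (fun h' => h h'.2), if_neg h]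
      · intro x _ hx
        refine Finset.sum_eq_zero fun v _ => ?_
        rw [if_neg (fun h => hx h.1)]
      · intro h; exact absurd (Finset.mem_univ _) h
    rw [e, e']
    have h3 : ∀ c, (List.ofFn fun i => M i.succ).prod c b = ∑ v : Fin (d + 1) → Fin w,
          if v 0 = c ∧ v (Fin.last d) = b then
            ∏ t : Fin d, M t.succ (v t.castSucc) (v t.succ) else 0 := fun c => ih _ c b
    simp only [h3, Finset.mul_sum]
    rw [Finset.sum_comm]
    refine Finset.sum_congr rfl fun v _ => ?_
    rw [Finset.sum_eq_single (v 0)]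
    · by_cases h : v (Fin.last d) = b
      · rw [if_pos ⟨rfl, h⟩, if_pos h]
      · rw [if_neg (fun h' => h h'.2), if_neg h, mul_zero]
    · intro c _ hc
      have hneg : ¬ (v 0 = c ∧ v (Fin.last d) = b) := fun h' => hc h'.1.symm
      rw [if_neg hneg, mul_zero]
    · intro h; exact absurd (Finset.mem_univ _) h

end PathsAux

open PathsAux

section PATHS

variable {W : Type*} [Fintype W] [DecidableEq W]

namespace PathsAux

/-- `IMM` as a sum over closed paths -/
theorem IMM_eq {K : Type*} [CommSemiring K] (n : ℕ) [NeZero n] :
    IMM K n n = ∑ v ∈ pathSeqs n, ∏ t : Fin n,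
      (X (t, v t.castSucc, v t.succ) : MvPolynomial (Fin n × Fin n × Fin n) K) := by
  unfold IMM pathSeqs
  rw [prod_apply, Finset.sum_filter]
  rfl

omit [Fintype W] [DecidableEq W] in
theorem emb_injective (n : ℕ) (word : Fin n → Bool) {ω : Fin n × Fin n × Fin n → W}
    (hω : Function.Injective ω) : Function.Injective (emb n word ω) := by
  intro x y h
  unfold emb at h
  by_cases hx : word x.1 = true <;> by_cases hy : word y.1 = true <;>
    simp only [hx, hy, if_true, Bool.false_eq_true, if_false] at h
  · exact hω (Sum.inl.inj h)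
  · exact absurd h (by simp)
  · exact absurd h (by simp)
  · exact hω (Sum.inr.inj h)

omit [Fintype W] in
theorem mem_pathSet {n : ℕ} {word : Fin n → Bool} {ω : Fin n × Fin n × Fin n → W}
    (hω : Function.Injective ω) (v : Fin (n + 1) → Fin n) (x : Fin n × Fin n × Fin n) :
    emb n word ω x ∈ pathSet n word ω v ↔ x.2 = (v x.1.castSucc, v x.1.succ) := by
  unfold pathSet
  rw [Finset.mem_image]
  constructor
  · rintro ⟨t, -, h⟩
    have := emb_injective n word hω h
    rw [← this]
  · intro h
    refine ⟨x.1, Finset.mem_univ _, ?_⟩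
    congr 1
    refine Prod.ext rfl ?_
    exact h.symm

theorem pathSet_injOn (n : ℕ) [NeZero n] (word : Fin n → Bool) {ω : Fin n × Fin n × Fin n → W}
    (hω : Function.Injective ω) : Set.InjOn (pathSet n word ω) (pathSeqs n : Set _) := by
  intro v _ v' _ h
  have hn : 0 < n := Nat.pos_of_ne_zero (NeZero.ne n)
  have h1 : ∀ t : Fin n, (v t.castSucc, v t.succ) = (v' t.castSucc, v' t.succ) := by
    intro t
    have h2 : emb n word ω (t, v t.castSucc, v t.succ) ∈ pathSet n word ω v :=
      (mem_pathSet hω v _).2 rfl
    rw [h] at h2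
    exact (mem_pathSet hω v' _).1 h2
  funext x
  refine Fin.cases ?_ (fun t => ?_) x
  · have := h1 ⟨0, hn⟩
    exact (Prod.ext_iff.1 this).1
  · exact (Prod.ext_iff.1 (h1 t)).2

theorem card_pathSeqs (n : ℕ) [NeZero n] : (pathSeqs n).card = n ^ (n - 1) := by
  have hn : 0 < n := Nat.pos_of_ne_zero (NeZero.ne n)
  have e : pathSeqs n = Fintype.piFinset (fun t : Fin (n + 1) =>
      if t = 0 ∨ t = Fin.last n then ({0} : Finset (Fin n)) else univ) := by
    ext v
    simp only [pathSeqs, Finset.mem_filter, Finset.mem_univ, true_and, Fintype.mem_piFinset]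
    constructor
    · rintro ⟨h1, h2⟩ t
      by_cases ht : t = 0 ∨ t = Fin.last n
      · rw [if_pos ht, Finset.mem_singleton]
        rcases ht with rfl | rfl
        · exact h1
        · exact h2
      · rw [if_neg ht]; exact Finset.mem_univ _
    · intro h
      have h1 := h 0
      have h2 := h (Fin.last n)
      simp only [true_or, or_true, if_true, Finset.mem_singleton] at h1 h2
      exact ⟨h1, h2⟩
  rw [e, Fintype.card_piFinset]
  have e2 : ∀ t : Fin (n + 1), (if t = 0 ∨ t = Fin.last n then ({0} : Finset (Fin n))
      else univ).card = if t = 0 ∨ t = Fin.last n then 1 else n := by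
    intro t
    split_ifs <;> simp
  rw [Finset.prod_congr rfl fun t _ => e2 t, Finset.prod_ite, Finset.prod_const_one, one_mul,
    Finset.prod_const]
  congr 1
  have e3 : (univ.filter fun t : Fin (n + 1) => ¬ (t = 0 ∨ t = Fin.last n))
      = univ \ {0, Fin.last n} := by
    ext t; simp
  have hne : (0 : Fin (n + 1)) ≠ Fin.last n := by
    intro h
    have := congrArg Fin.val h
    simp at this
    omega
  rw [e3, Finset.card_sdiff_of_subset (Finset.subset_univ _), Finset.card_univ, Fintype.card_fin,
    Finset.card_pair hne]
  omega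

end PathsAux

theorem card_pathSets (n : ℕ) [NeZero n] (word : Fin n → Bool) (ω : Fin n × Fin n × Fin n → W)
    (hω : Function.Injective ω) : (pathSets n word ω).card = n ^ (n - 1) := by
  unfold pathSets
  rw [Finset.card_image_of_injOn (pathSet_injOn n word hω), card_pathSeqs]

theorem card_of_mem_pathSets (n : ℕ) [NeZero n] (word : Fin n → Bool)
    (ω : Fin n × Fin n × Fin n → W) (hω : Function.Injective ω) (p : Finset (W ⊕ W))
    (hp : p ∈ pathSets n word ω) :
    p.toLeft.card = (Finset.univ.filter fun t => word t = true).card ∧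
    p.toRight.card = (Finset.univ.filter fun t => word t = false).card := by
  unfold pathSets at hp
  obtain ⟨v, -, rfl⟩ := Finset.mem_image.1 hp
  constructor
  · have e : (pathSet n word ω v).toLeft = (Finset.univ.filter fun t => word t = true).image
        (fun t : Fin n => ω (t, v t.castSucc, v t.succ)) := by
      ext x
      rw [Finset.mem_toLeft]
      unfold pathSet
      rw [Finset.mem_image, Finset.mem_image]
      constructor
      · rintro ⟨t, -, h⟩
        unfold emb at h
        by_cases ht : word t = true
        · refine ⟨t, by simp [ht], ?_⟩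
          simp only [ht, if_true] at h
          exact Sum.inl.inj h
        · simp only [ht] at h
          exact absurd h (by simp)
      · rintro ⟨t, ht, h⟩
        have ht := (Finset.mem_filter.1 ht).2
        refine ⟨t, Finset.mem_univ _, ?_⟩
        unfold emb
        simp only [ht, if_true]
        rw [h]
    rw [e, Finset.card_image_of_injective]
    intro t t' h
    exact (Prod.ext_iff.1 (hω h)).1
  · have e : (pathSet n word ω v).toRight = (Finset.univ.filter fun t => word t = false).image
        (fun t : Fin n => ω (t, v t.castSucc, v t.succ)) := by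
      ext x
      rw [Finset.mem_toRight]
      unfold pathSet
      rw [Finset.mem_image, Finset.mem_image]
      constructor
      · rintro ⟨t, -, h⟩
        unfold emb at h
        by_cases ht : word t = true
        · simp only [ht, if_true] at h
          exact absurd h (by simp)
        · refine ⟨t, by simpa using ht, ?_⟩
          simp only [ht] at h
          simpa using h
      · rintro ⟨t, ht, h⟩
        have ht := (Finset.mem_filter.1 ht).2
        refine ⟨t, Finset.mem_univ _, ?_⟩
        unfold emb
        simp only [ht, Bool.false_eq_true, if_false]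
        rw [h]
    rw [e, Finset.card_image_of_injective]
    intro t t' h
    exact (Prod.ext_iff.1 (hω h)).1

namespace PathsAux

theorem sf_IMM {K : Type*} [Field K] (n : ℕ) [NeZero n] (word : Fin n → Bool)
    (ω : Fin n × Fin n × Fin n → W) (hω : Function.Injective ω) (D : Finset (W ⊕ W)) :
    sf (rename (emb n word ω) (IMM K n n)) D = if D ∈ pathSets n word ω then 1 else 0 := by
  have h1 : rename (emb n word ω) (IMM K n n)
      = ∑ v ∈ pathSeqs n, monomial (SFAux.ind (pathSet n word ω v)) (1 : K) := by
    rw [IMM_eq, map_sum]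
    refine Finset.sum_congr rfl fun v _ => ?_
    rw [map_prod]
    simp only [rename_X]
    have h2 : SFAux.ind (pathSet n word ω v)
        = ∑ t : Fin n, Finsupp.single (emb n word ω (t, v t.castSucc, v t.succ)) 1 := by
      unfold SFAux.ind pathSet
      rw [Finset.sum_image]
      intro t _ t' _ h
      exact (Prod.ext_iff.1 (emb_injective n word hω h)).1
    rw [h2, monomial_sum_one]
    rfl
  show coeff (SFAux.ind D) _ = _
  rw [h1, MvPolynomial.coeff_sum]
  simp only [coeff_monomial]
  have h3 : ∀ v, (SFAux.ind (pathSet n word ω v) = SFAux.ind D) ↔ pathSet n word ω v = D :=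
    fun v => ⟨fun h => SFAux.ind_injective h, fun h => by rw [h]⟩
  simp only [h3]
  by_cases hD : D ∈ pathSets n word ω
  · rw [if_pos hD]
    unfold pathSets at hD
    obtain ⟨v, hv, hvD⟩ := Finset.mem_image.1 hD
    rw [Finset.sum_eq_single_of_mem v hv, if_pos hvD]
    intro v' hv' hne
    rw [if_neg]
    intro h
    exact hne (pathSet_injOn n word hω hv' hv (h.trans hvD.symm))
  · rw [if_neg hD]
    refine Finset.sum_eq_zero fun v hv => ?_
    rw [if_neg]
    intro h
    exact hD (Finset.mem_image.2 ⟨v, hv, h⟩)

end PathsAux

/-- the measure matrix of `IMM` is the 0/1 matrix of the family of path sets -/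
theorem SM_IMM {K : Type*} [Field K] (n : ℕ) [NeZero n] (word : Fin n → Bool)
    (ω : Fin n × Fin n × Fin n → W) (hω : Function.Injective ω) (i j : ℕ) :
    Pr K W (i + (Finset.univ.filter fun t => word t = true).card)
        (j + (Finset.univ.filter fun t => word t = false).card) *
      SM (rename (emb n word ω) (IMM K n n)) * Pr K W i j =
    (MP ℤ (pathSets n word ω) i j).map (Int.cast : ℤ → K) := by
  ext T S
  simp only [Pr, Matrix.diagonal_mul, Matrix.mul_diagonal, SM, Matrix.of_apply, Matrix.map_apply,
    MP, sf_IMM n word ω hω]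
  by_cases hall : (S.toLeft.card = i ∧ S.toRight.card = j) ∧ S ⊆ T ∧ T \ S ∈ pathSets n word ω
  · obtain ⟨hS, hST, hD⟩ := hall
    have h1 := card_of_mem_pathSets n word ω hω _ hD
    have h2 := RankAux.card_sdiff_left hST
    have h3 := RankAux.card_sdiff_right hST
    rw [if_pos (show T.toLeft.card = i + _ ∧ T.toRight.card = j + _ by omega), if_pos hST,
      if_pos hD, if_pos hS, if_pos ⟨hS, hST, hD⟩]
    simp
  · rw [if_neg hall]
    by_cases hS : S.toLeft.card = i ∧ S.toRight.card = j
    · by_cases hST : S ⊆ T
      · have hD : T \ S ∉ pathSets n word ω := fun h => hall ⟨hS, hST, h⟩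
        rw [if_pos hST, if_neg hD]
        simp
      · rw [if_neg hST]
        simp
    · rw [if_neg hS]
      simp

end PATHS

end Vale.Agent.P346
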