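import Vale.Agent.P346.Circuit
import Vale.Agent.P346.Paths

/-!
# P346: the formal degree of a circuit computing `IMM`
-/

namespace Vale.Agent.P346

open MvPolynomial Finset

namespace CircAux

theorem hom_poly' {K : Type*} [Field K] {σ : Type*} {Cc : Circ K σ} {d₁ d₂ d₃ d₄ D}
    (hC : Cc.FormalDegrees d₁ d₂ d₃ d₄ D) : Cc.poly.IsHomogeneous D := by
  unfold Circ.poly
  apply MvPolynomial.IsHomogeneous.sum
  intro i _
  by_cases h : Cc.c₅ i = 0
  · rw [h, MvPolynomial.C_0, zero_mul]
    exact MvPolynomial.isHomogeneous_zero _ _ _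
  · rw [← hC.top i h]
    have := (isHomogeneous_C σ (Cc.c₅ i)).mul (hom_four' hC i)
    rwa [zero_add] at this

theorem IMM_hom {K : Type*} [Field K] (n : ℕ) [NeZero n] : (IMM K n n).IsHomogeneous n := by
  rw [PathsAux.IMM_eq]
  apply MvPolynomial.IsHomogeneous.sum
  intro v _
  have h := MvPolynomial.IsHomogeneous.prod (Finset.univ : Finset (Fin n))
    (fun t : Fin n => (X (t, v t.castSucc, v t.succ) : MvPolynomial (Fin n × Fin n × Fin n) K))
    (fun _ => 1) (fun t _ => isHomogeneous_X K _)
  simpa using h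

theorem IMM_ne_zero {K : Type*} [Field K] (n : ℕ) [NeZero n] : IMM K n n ≠ 0 := by
  intro h
  have h1 : eval (fun x : Fin n × Fin n × Fin n => if x.2 = (0, 0) then (1 : K) else 0)
      (IMM K n n) = 0 := by
    rw [h, map_zero]
  rw [PathsAux.IMM_eq, map_sum, Finset.sum_eq_single (fun _ => (0 : Fin n))] at h1
  · simp at h1
  · intro v hv hne
    rw [map_prod]
    have : ∃ t : Fin n, v t.castSucc ≠ 0 := by
      by_contra hcon
      push Not at hcon
      apply hne
      funext t
      rcases Fin.eq_castSucc_or_eq_last t with ⟨s, rfl⟩ | rfl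
      · exact hcon s
      · unfold pathSeqs at hv
        exact (Finset.mem_filter.1 hv).2.2
    obtain ⟨t, ht⟩ := this
    apply Finset.prod_eq_zero (Finset.mem_univ t)
    rw [eval_X, if_neg]
    intro h2
    exact ht (Prod.ext_iff.1 h2).1
  · intro hv
    exfalso
    apply hv
    unfold pathSeqs
    rw [Finset.mem_filter]
    exact ⟨Finset.mem_univ _, rfl, rfl⟩

end CircAux

open CircAux

/-- the formal degree of a homogeneous circuit computing `IMM` is `n` -/
theorem degree_eq {K : Type*} [Field K] (n : ℕ) [NeZero n]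
    (Cc : Circ K (Fin n × Fin n × Fin n)) {d₁ d₂ d₃ d₄ D}
    (hC : Cc.FormalDegrees d₁ d₂ d₃ d₄ D) (h : Cc.poly = IMM K n n) : D = n := by
  have h1 := hom_poly' hC
  rw [h] at h1
  exact h1.inj_right (IMM_hom n) (IMM_ne_zero n)

end Vale.Agent.P346
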