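import Mathlib

/-! # P346: the final numerical estimates -/

namespace Vale.Agent.P346

open Real

theorem thousand_mul_le_two_pow (m : ℕ) (hm : 20 ≤ m) : 1000 * m ≤ 2 ^ m := by
  induction m, hm using Nat.le_induction with
  | base => norm_num
  | succ m hm ih => rw [pow_succ]; omega

/-- The comparison of the two bounds forces `s` to be large. -/
theorem size_ge (n L m s : ℕ) (hm : 400 ≤ m) (hL : 32 * 2 ^ m ≤ L) (hn1 : L ^ 2 ≤ n)
    (hn2 : n ≤ L ^ 2 + 2 * L)
    (h : 1 / (4 * (L : ℝ) * (L + m + 1) * (1 + (L + m + 1))) *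
        Real.exp (-(8 * n / L) - (L + m + 1)) ≤
      Real.exp (n / (2 * L)) * (s * Real.exp (-((m : ℝ) / (16 * L) * n)) +
        (s : ℝ) ^ 2 * (3 * (2 / Real.sqrt L) ^ (L / 2)))) :
    Real.exp ((m : ℝ) * L / 32) ≤ s := by
  by_contra hcon
  push Not at hcon
  have hm' : (400 : ℝ) ≤ m := by exact_mod_cast hm
  have hLm : 1000 * m ≤ L := by
    have := thousand_mul_le_two_pow m (by omega)
    omega
  have hLm' : 1000 * (m : ℝ) ≤ L := by exact_mod_cast hLm
  have hL0 : (0 : ℝ) < L := by linarith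
  have hL1 : (400000 : ℝ) ≤ L := by linarith
  have hnL : (n : ℝ) / L ≤ L + 2 := by
    rw [div_le_iff₀ hL0]
    have : (n : ℝ) ≤ (L : ℝ) ^ 2 + 2 * L := by exact_mod_cast hn2
    nlinarith
  have hnL' : (L : ℝ) ≤ (n : ℝ) / L := by
    rw [le_div_iff₀ hL0]
    have : (L : ℝ) ^ 2 ≤ n := by exact_mod_cast hn1
    nlinarith
  set A : ℝ := 4 * (L : ℝ) * (L + m + 1) * (1 + (L + m + 1)) with hA
  have hApos : 0 < A := by positivity
  have hAle : A ≤ Real.exp L := by
    have h1 : A ≤ 16 * (L : ℝ) ^ 3 := by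
      have h2 : (L : ℝ) + m + 1 ≤ 2 * L - 1 := by linarith
      have h3 : 1 + ((L : ℝ) + m + 1) ≤ 2 * L := by linarith
      calc A ≤ 4 * (L : ℝ) * (2 * L) * (2 * L) := by
            rw [hA]
            gcongr
            linarith
        _ = 16 * (L : ℝ) ^ 3 := by ring
    have h4 : 16 * (L : ℝ) ^ 3 ≤ (L : ℝ) ^ 4 / 24 := by
      have : 16 * (L : ℝ) ^ 3 * 24 ≤ (L : ℝ) ^ 3 * L := by
        have : (0 : ℝ) ≤ (L : ℝ) ^ 3 := by positivity
        nlinarith
      rw [le_div_iff₀ (by norm_num)]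
      calc 16 * (L : ℝ) ^ 3 * 24 ≤ (L : ℝ) ^ 3 * L := this
        _ = (L : ℝ) ^ 4 := by ring
    have h5 : (L : ℝ) ^ 4 / 24 ≤ Real.exp L := by
      have := Real.pow_div_factorial_le_exp (L : ℝ) hL0.le 4
      simpa [Nat.factorial] using this
    linarith
  -- the total loss
  have hE : A * Real.exp (8 * n / L + (L + m + 1)) * Real.exp (n / (2 * L)) ≤
      Real.exp (11 * L) := by
    calc A * Real.exp (8 * n / L + (L + m + 1)) * Real.exp (n / (2 * L))
        ≤ Real.exp L * Real.exp (8 * n / L + (L + m + 1)) * Real.exp (n / (2 * L)) := by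
          gcongr
      _ = Real.exp (L + (8 * n / L + (L + m + 1)) + n / (2 * L)) := by
          rw [← Real.exp_add, ← Real.exp_add]
      _ ≤ Real.exp (11 * L) := by
          apply Real.exp_le_exp.2
          have e1 : 8 * (n : ℝ) / L = 8 * (n / L) := by ring
          have e2 : (n : ℝ) / (2 * L) = (n / L) / 2 := by ring
          rw [e1, e2]
          linarith
  have hmain : 1 ≤ Real.exp (11 * L) * (s * Real.exp (-((m : ℝ) / (16 * L) * n)) +
        (s : ℝ) ^ 2 * (3 * (2 / Real.sqrt L) ^ (L / 2))) := by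
    set R : ℝ := (s * Real.exp (-((m : ℝ) / (16 * L) * n)) +
        (s : ℝ) ^ 2 * (3 * (2 / Real.sqrt L) ^ (L / 2))) with hR
    have hR0 : 0 ≤ R := by positivity
    have h1 : 1 / A * Real.exp (-(8 * n / L) - (L + m + 1)) *
        (A * Real.exp (8 * n / L + (L + m + 1))) = 1 := by
      have : Real.exp (-(8 * (n : ℝ) / L) - (L + m + 1)) *
          Real.exp (8 * n / L + (L + m + 1)) = 1 := by
        rw [← Real.exp_add, ← Real.exp_zero]; congr 1; ring
      calc 1 / A * Real.exp (-(8 * n / L) - (L + m + 1)) *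
            (A * Real.exp (8 * n / L + (L + m + 1)))
          = (1 / A * A) * (Real.exp (-(8 * (n : ℝ) / L) - (L + m + 1)) *
              Real.exp (8 * n / L + (L + m + 1))) := by ring
        _ = 1 := by rw [this, one_div, inv_mul_cancel₀ hApos.ne', one_mul]
    calc (1 : ℝ) = 1 / A * Real.exp (-(8 * n / L) - (L + m + 1)) *
          (A * Real.exp (8 * n / L + (L + m + 1))) := h1.symm
      _ ≤ (Real.exp (n / (2 * L)) * R) * (A * Real.exp (8 * n / L + (L + m + 1))) := by
          gcongr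
      _ = (A * Real.exp (8 * n / L + (L + m + 1)) * Real.exp (n / (2 * L))) * R := by ring
      _ ≤ Real.exp (11 * L) * R := by gcongr
  have hs0 : (0 : ℝ) ≤ s := Nat.cast_nonneg s
  -- first term
  have hT1 : Real.exp (11 * L) * (s * Real.exp (-((m : ℝ) / (16 * L) * n))) < 1 / 2 := by
    calc Real.exp (11 * L) * (s * Real.exp (-((m : ℝ) / (16 * L) * n)))
        ≤ Real.exp (11 * L) * (Real.exp ((m : ℝ) * L / 32) * Real.exp (-((m : ℝ) * L / 16))) := by
          gcongr
          have : (m : ℝ) / (16 * L) * n = (m / 16) * (n / L) := by ring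
          rw [this]
          have : (m : ℝ) * L / 16 = (m / 16) * L := by ring
          rw [this]
          gcongr
      _ = Real.exp (11 * L + ((m : ℝ) * L / 32 + -((m : ℝ) * L / 16))) := by
          rw [Real.exp_add, Real.exp_add]
      _ ≤ Real.exp (-1) := by
          apply Real.exp_le_exp.2
          nlinarith
      _ < 1 / 2 := by
          have := Real.exp_one_gt_d9
          rw [Real.exp_neg, inv_lt_comm₀ (Real.exp_pos _) (by norm_num)]
          linarith
  -- second term
  have hβ0 : 0 ≤ 2 / Real.sqrt L := by positivity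
  have hβ2 : (2 / Real.sqrt L) ^ 2 ≤ (1 / 2) ^ m := by
    rw [div_pow, Real.sq_sqrt hL0.le, one_div, inv_pow, div_le_iff₀ hL0]
    have h1 : (32 : ℝ) * 2 ^ m ≤ L := by exact_mod_cast hL
    have h2 : (0 : ℝ) < 2 ^ m := by positivity
    rw [← div_eq_inv_mul, le_div_iff₀ h2]
    linarith
  have hβ1 : 2 / Real.sqrt L ≤ 1 := by
    have : (2 / Real.sqrt L) ^ 2 ≤ 1 := hβ2.trans (pow_le_one₀ (by norm_num) (by norm_num))
    nlinarith
  have hβt : (2 / Real.sqrt L) ^ (L / 2) ≤ Real.exp (-(m * L / 8)) := by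
    calc (2 / Real.sqrt L) ^ (L / 2) ≤ (2 / Real.sqrt L) ^ (2 * (L / 4)) := by
          apply pow_le_pow_of_le_one hβ0 hβ1
          omega
      _ = ((2 / Real.sqrt L) ^ 2) ^ (L / 4) := by rw [pow_mul]
      _ ≤ ((1 / 2) ^ m) ^ (L / 4) := by gcongr
      _ = Real.exp (-(Real.log 2 * (m * (L / 4 : ℕ)))) := by
          rw [← pow_mul, one_div, inv_pow, Real.exp_neg]
          congr 1
          rw [← Nat.cast_mul, mul_comm (Real.log 2), Real.exp_nat_mul, Real.exp_log (by norm_num)]
      _ ≤ Real.exp (-(m * L / 8)) := by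
          apply Real.exp_le_exp.2
          have h1 : (L : ℝ) / 4 - 1 ≤ ((L / 4 : ℕ) : ℝ) := by
            have : L ≤ 4 * (L / 4) + 3 := by omega
            have : (L : ℝ) ≤ 4 * ((L / 4 : ℕ) : ℝ) + 3 := by exact_mod_cast this
            linarith
          have h2 : (0.69 : ℝ) ≤ Real.log 2 := by
            have := Real.log_two_gt_d9
            linarith
          have h3 : (L : ℝ) / 5 ≤ ((L / 4 : ℕ) : ℝ) := by linarith
          have h4 : (m : ℝ) * (L / 5) ≤ m * ((L / 4 : ℕ) : ℝ) := by gcongr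
          have h5 : 0.69 * ((m : ℝ) * (L / 5)) ≤ Real.log 2 * (m * ((L / 4 : ℕ) : ℝ)) := by
            gcongr
          have h6 : (m : ℝ) * L / 8 ≤ 0.69 * ((m : ℝ) * (L / 5)) := by
            have : 0 ≤ (m : ℝ) * L := by positivity
            linarith
          linarith
  have hT2 : Real.exp (11 * L) * ((s : ℝ) ^ 2 * (3 * (2 / Real.sqrt L) ^ (L / 2))) < 1 / 2 := by
    calc Real.exp (11 * L) * ((s : ℝ) ^ 2 * (3 * (2 / Real.sqrt L) ^ (L / 2)))
        ≤ Real.exp (11 * L) * ((Real.exp ((m : ℝ) * L / 32)) ^ 2 *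
            (Real.exp 2 * Real.exp (-(m * L / 8)))) := by
          have h3 : (3 : ℝ) ≤ Real.exp 2 := by
            have := Real.add_one_le_exp (2 : ℝ); linarith
          gcongr
      _ = Real.exp (11 * L + ((2 : ℕ) * ((m : ℝ) * L / 32) + (2 + -(m * L / 8)))) := by
          rw [← Real.exp_nat_mul, Real.exp_add, Real.exp_add, Real.exp_add]
      _ ≤ Real.exp (-1) := by
          apply Real.exp_le_exp.2
          push_cast
          nlinarith
      _ < 1 / 2 := by
          have := Real.exp_one_gt_d9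
          rw [Real.exp_neg, inv_lt_comm₀ (Real.exp_pos _) (by norm_num)]
          linarith
  rw [mul_add] at hmain
  linarith

end Vale.Agent.P346
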