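import Vale.Agent.P346.Lower
import Vale.Agent.P346.Numeric

/-! # P346: the main theorem -/

namespace Vale.Agent.P346

open MvPolynomial Finset Matrix

theorem sqrt_ratio_le (n L m k k' : ℕ) (hL : 0 < L) (hk : k ≤ n)
    (h : (L : ℝ) ^ k' ≤ ((L : ℝ) + m + 1) ^ k) :
    Real.sqrt ((L : ℝ) ^ k' / ((L : ℝ) + m) ^ k) ≤ Real.exp (n / (2 * L)) := by
  have hL0 : (0 : ℝ) < L := by exact_mod_cast hL
  have hmr : (0 : ℝ) ≤ m := Nat.cast_nonneg m
  have h1 : (L : ℝ) ^ k' / ((L : ℝ) + m) ^ k ≤ Real.exp (n / L) := by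
    calc (L : ℝ) ^ k' / ((L : ℝ) + m) ^ k ≤ ((L : ℝ) + m + 1) ^ k / ((L : ℝ) + m) ^ k := by gcongr
      _ = (1 + 1 / ((L : ℝ) + m)) ^ k := by
          rw [← div_pow]; congr 1; field_simp
      _ ≤ Real.exp (1 / ((L : ℝ) + m)) ^ k := by
          gcongr
          have := Real.add_one_le_exp (1 / ((L : ℝ) + m))
          linarith
      _ = Real.exp (k * (1 / ((L : ℝ) + m))) := by rw [← Real.exp_nat_mul]
      _ ≤ Real.exp (n / L) := by
          apply Real.exp_le_exp.mpr
          rw [mul_one_div]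
          gcongr
          linarith
  calc Real.sqrt ((L : ℝ) ^ k' / ((L : ℝ) + m) ^ k) ≤ Real.sqrt (Real.exp (n / L)) :=
        Real.sqrt_le_sqrt h1
    _ = Real.exp (n / (2 * L)) := by
        rw [← Real.exp_half]
        congr 1
        field_simp

/-- circuits of size `s` computing `IMM` satisfy `exp (m L / 32) ≤ s` -/
theorem size_ge_exp (K : Type*) [Field K] [CharZero K] (n L m : ℕ) [NeZero n] (hm : 400 ≤ m)
    (hL : 32 * 2 ^ m ≤ L) (hn1 : L ^ 2 ≤ n) (hn2 : n ≤ L ^ 2 + 2 * L)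
    (Cc : Circ K (Fin n × Fin n × Fin n)) (hC : Cc.IsSyntHomogeneous)
    (h : Cc.poly = IMM K n n) : Real.exp ((m : ℝ) * L / 32) ≤ Cc.size := by
  obtain ⟨d₁, d₂, d₃, d₄, D, hd⟩ := hC
  have hD : D = n := degree_eq n Cc hd h
  subst hD
  have hL4 : 4 ≤ L := by
    have : 1 ≤ 2 ^ m := Nat.one_le_two_pow
    omega
  have hLr : (4 : ℝ) ≤ L := by exact_mod_cast hL4
  have hL0 : (0 : ℝ) < L := by linarith
  have hmr : (0 : ℝ) ≤ m := Nat.cast_nonneg m
  have : NeZero (L * (L + m + 1)) := ⟨by positivity⟩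
  obtain ⟨word, hword⟩ := exists_word D ((L : ℝ) + m + 1) L (by linarith) (by linarith)
  have hlow := mu_IMM_ge K D L m hL4 word hword
  have hkk := cnt_add D word
  have hsqrtL : 0 < Real.sqrt L := Real.sqrt_pos.mpr hL0
  have hup := circuit_mu_le Cc D hd (emb D word (om D L m)) (iS D L m) (jS D L m)
    (cntT D word D) (cntF D word D) hkk ((L : ℝ) + m) L (by positivity) hL0
    (hdim D L m (by omega)) ((m : ℝ) / (16 * L)) (2 / Real.sqrt L) (L / 2) (by positivity)
    (by
      rw [div_le_one hsqrtL]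
      rw [show (2 : ℝ) = Real.sqrt 4 by rw [show (4 : ℝ) = 2 ^ 2 by norm_num]; simp]
      exact Real.sqrt_le_sqrt hLr)
    (by
      intro d h1 h2
      have := tau_le_exp L m (by omega) hL d h1 (by omega)
      rwa [show (m : ℝ) / (16 * L) * d = (m : ℝ) * d / (16 * L) by ring])
    (tau_le_three L m (by omega)) (tau_one_le L m (by omega))
  rw [h] at hup
  have hDpos : (0 : ℝ) < (Fintype.card (GS D L m)).choose (iS D L m) *
      (Fintype.card (GS D L m)).choose (jS D L m) := by
    have h1 : 0 < (Fintype.card (GS D L m)).choose (iS D L m) := Nat.choose_pos (iS_le D L m)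
    have h2 : 0 < (Fintype.card (GS D L m)).choose (jS D L m) :=
      Nat.choose_pos (jS_le D L m (by omega))
    positivity
  have hcomb := hlow.trans hup
  rw [mul_assoc (((Fintype.card (GS D L m)).choose (iS D L m) : ℝ) *
      (Fintype.card (GS D L m)).choose (jS D L m))] at hcomb
  have hcomb2 := le_of_mul_le_mul_left hcomb hDpos
  apply size_ge D L m Cc.size hm hL hn1 hn2
  refine hcomb2.trans ?_
  have hs4 : (Cc.n₄ : ℝ) ≤ Cc.size := by
    exact_mod_cast (by unfold Circ.size; omega : Cc.n₄ ≤ Cc.size)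
  have hs2 : (Cc.n₂ : ℝ) ≤ Cc.size := by
    exact_mod_cast (by unfold Circ.size; omega : Cc.n₂ ≤ Cc.size)
  have hsq := sqrt_ratio_le D L m (cntT D word D) (cntF D word D) (by omega) (by omega)
    (hword D le_rfl).1
  have hβ : 0 ≤ 3 * (2 / Real.sqrt L) ^ (L / 2) := by positivity
  gcongr
  calc (Cc.n₄ : ℝ) * Cc.n₂ ≤ Cc.size * Cc.size := by gcongr
    _ = (Cc.size : ℝ) ^ 2 := by ring

/-- `IMM` is not zero -/
theorem IMM_ne_zero (K : Type*) [Field K] (n : ℕ) [NeZero n] : IMM K n n ≠ 0 := by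
  intro h
  have h1 := congrArg (MvPolynomial.eval (fun v : Fin n × Fin n × Fin n =>
    if v.2.1 = v.2.2 then (1 : K) else 0)) h
  rw [map_zero, IMM] at h1
  have h2 : (MvPolynomial.eval (fun v : Fin n × Fin n × Fin n =>
      if v.2.1 = v.2.2 then (1 : K) else 0))
      ((List.ofFn fun t : Fin n => (Matrix.of fun a b : Fin n =>
        (X (t, a, b) : MvPolynomial (Fin n × Fin n × Fin n) K))).prod 0 0) =
      ((List.ofFn fun t : Fin n => (Matrix.of fun a b : Fin n =>
        (X (t, a, b) : MvPolynomial (Fin n × Fin n × Fin n) K))).prod.map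
        (MvPolynomial.eval (fun v : Fin n × Fin n × Fin n =>
          if v.2.1 = v.2.2 then (1 : K) else 0))) 0 0 := rfl
  rw [h2] at h1
  have h3 := map_list_prod (RingHom.mapMatrix (m := Fin n)
    (MvPolynomial.eval (fun v : Fin n × Fin n × Fin n =>
          if v.2.1 = v.2.2 then (1 : K) else 0)))
    (List.ofFn fun t : Fin n => (Matrix.of fun a b : Fin n =>
        (X (t, a, b) : MvPolynomial (Fin n × Fin n × Fin n) K)))
  rw [RingHom.mapMatrix_apply] at h3
  rw [h3] at h1
  have h4 : (List.map (RingHom.mapMatrix (m := Fin n)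
    (MvPolynomial.eval (fun v : Fin n × Fin n × Fin n =>
          if v.2.1 = v.2.2 then (1 : K) else 0)))
    (List.ofFn fun t : Fin n => (Matrix.of fun a b : Fin n =>
        (X (t, a, b) : MvPolynomial (Fin n × Fin n × Fin n) K)))).prod = 1 := by
    apply List.prod_eq_one
    intro x hx
    rw [List.mem_map] at hx
    obtain ⟨y, hy, rfl⟩ := hx
    rw [List.mem_ofFn] at hy
    obtain ⟨t, rfl⟩ := hy
    ext a b
    simp [Matrix.one_apply]
  rw [h4] at h1
  simp at h1

theorem two_le_size (K : Type*) [Field K] (n : ℕ) [NeZero n]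
    (Cc : Circ K (Fin n × Fin n × Fin n)) (h : Cc.poly = IMM K n n) : 2 ≤ Cc.size := by
  by_contra hcon
  have h4 : Cc.n₄ = 0 := by unfold Circ.size at hcon; omega
  apply IMM_ne_zero K n
  rw [← h, Circ.poly]
  have : IsEmpty (Fin Cc.n₄) := by rw [h4]; infer_instance
  simp

/-- The main theorem. -/
theorem main_theorem :
    ∃ c : ℝ, 0 < c ∧ ∀ (K : Type*) [Field K] [CharZero K] (n : ℕ) [NeZero n]
      (Cc : Circ K (Fin n × Fin n × Fin n)),
      Cc.IsSyntHomogeneous → Cc.poly = IMM K n n →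
      (n : ℝ) ^ (c * Real.sqrt n) ≤ Cc.size := by
  refine ⟨1 / (2 ^ 406 * 812), by positivity, ?_⟩
  intro K _ _ n _ Cc hC h
  have hn0 : 0 < n := Nat.pos_of_ne_zero (NeZero.ne n)
  have hnr : (0 : ℝ) < n := by exact_mod_cast hn0
  have hlog2 : Real.log 2 ≤ 0.7 := by have := Real.log_two_lt_d9; linarith
  have hlog2' : 0 ≤ Real.log 2 := Real.log_nonneg (by norm_num)
  by_cases hn : n < 2 ^ 812
  · -- small `n`
    have h2 : (2 : ℝ) ≤ Cc.size := by exact_mod_cast two_le_size K n Cc h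
    refine le_trans ?_ h2
    have hsq : Real.sqrt n ≤ 2 ^ 406 := by
      rw [Real.sqrt_le_left (by positivity), ← pow_mul]
      exact_mod_cast hn.le
    have hln : Real.log n ≤ 812 * Real.log 2 := by
      calc Real.log n ≤ Real.log (2 ^ 812) := by
            apply Real.log_le_log hnr
            exact_mod_cast hn.le
        _ = 812 * Real.log 2 := by rw [Real.log_pow]; norm_num
    have hln0 : 0 ≤ Real.log n := Real.log_nonneg (by exact_mod_cast hn0)
    rw [Real.rpow_def_of_pos hnr]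
    calc Real.exp (Real.log n * (1 / (2 ^ 406 * 812) * Real.sqrt n))
        ≤ Real.exp (Real.log 2) := by
          apply Real.exp_le_exp.mpr
          calc Real.log n * (1 / (2 ^ 406 * 812) * Real.sqrt n)
              ≤ (812 * Real.log 2) * (1 / (2 ^ 406 * 812) * 2 ^ 406) := by gcongr
            _ = Real.log 2 := by field_simp
      _ = 2 := Real.exp_log (by norm_num)
  · -- large `n`
    push Not at hn
    set L := Nat.sqrt n with hL
    set m := Nat.log 2 L - 5 with hm
    have hL1 : 2 ^ 406 ≤ L := by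
      rw [hL, Nat.le_sqrt']
      calc (2 ^ 406) ^ 2 = 2 ^ 812 := by rw [← pow_mul]
        _ ≤ n := hn
    have hLne : L ≠ 0 := by
      have : 0 < 2 ^ 406 := by positivity
      omega
    have hlogL : 406 ≤ Nat.log 2 L := Nat.le_log_of_pow_le (by norm_num) hL1
    have hm1 : 401 ≤ m := by omega
    have hLm : 32 * 2 ^ m ≤ L := by
      have h1 : 2 ^ Nat.log 2 L ≤ L := Nat.pow_log_le_self 2 hLne
      have h2 : 32 * 2 ^ m = 2 ^ Nat.log 2 L := by
        rw [show (32 : ℕ) = 2 ^ 5 by norm_num, ← pow_add]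
        congr 1
        omega
      omega
    have hLm2 : L < 2 ^ (m + 6) := by
      have h1 : L < 2 ^ (Nat.log 2 L + 1) := Nat.lt_pow_succ_log_self (by norm_num) L
      have h2 : Nat.log 2 L + 1 = m + 6 := by omega
      rwa [h2] at h1
    have hn1 : L ^ 2 ≤ n := Nat.sqrt_le' n
    have hn2' : n < (L + 1) ^ 2 := Nat.lt_succ_sqrt' n
    have hn2 : n ≤ L ^ 2 + 2 * L := by
      have : (L + 1) ^ 2 = L ^ 2 + 2 * L + 1 := by ring
      omega
    have key := size_ge_exp K n L m (by omega) hLm hn1 hn2 Cc hC h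
    refine le_trans ?_ key
    rw [Real.rpow_def_of_pos hnr]
    apply Real.exp_le_exp.mpr
    have hmr : (401 : ℝ) ≤ m := by exact_mod_cast hm1
    have hLr : (1 : ℝ) ≤ L := by exact_mod_cast Nat.one_le_iff_ne_zero.mpr hLne
    have hsq : Real.sqrt n ≤ 2 * L := by
      rw [Real.sqrt_le_left (by positivity)]
      have h1 : (n : ℝ) ≤ (L : ℝ) ^ 2 + 2 * L := by exact_mod_cast hn2
      nlinarith
    have hln : Real.log n ≤ 2 * m := by
      have h1 : (n : ℝ) ≤ 2 ^ (2 * m + 12) := by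
        have h2 : n ≤ 2 ^ (2 * m + 12) := by
          calc n ≤ (L + 1) ^ 2 := hn2'.le
            _ ≤ (2 ^ (m + 6)) ^ 2 := Nat.pow_le_pow_left hLm2 2
            _ = 2 ^ (2 * m + 12) := by rw [← pow_mul]; congr 1; ring
        exact_mod_cast h2
      calc Real.log n ≤ Real.log (2 ^ (2 * m + 12)) := Real.log_le_log hnr h1
        _ = (2 * m + 12) * Real.log 2 := by rw [Real.log_pow]; push_cast; ring
        _ ≤ (2 * m + 12) * 0.7 := by gcongr
        _ ≤ 2 * m := by linarith
    have hln0 : 0 ≤ Real.log n := Real.log_nonneg (by exact_mod_cast hn0)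
    calc Real.log n * (1 / (2 ^ 406 * 812) * Real.sqrt n)
        ≤ (2 * m) * (1 / 128 * (2 * L)) := by
          have h1 : (1 : ℝ) ≤ 2 ^ 406 := one_le_pow₀ (by norm_num)
          have h2 : (128 : ℝ) ≤ 2 ^ 406 * 812 :=
            calc (128 : ℝ) ≤ 1 * 812 := by norm_num
              _ ≤ 2 ^ 406 * 812 := mul_le_mul_of_nonneg_right h1 (by norm_num)
          gcongr
      _ = (m : ℝ) * L / 32 := by ring

end Vale.Agent.P346
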