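import Vale.Agent.P346.GDefs

/-! # P346, all fields: Abel summation -/

namespace Vale.Agent.P346

open Finset

/-- telescoping -/
theorem abel_telescope (l : ℕ → ℝ) (n a : ℕ) (ha : a < n) :
    l a = l n + ∑ j ∈ range n, (l j - l (j + 1)) * (if a < j + 1 then 1 else 0) := by
  induction n with
  | zero => omega
  | succ n ih =>
    rw [Finset.sum_range_succ, if_pos ha, mul_one]
    rcases Nat.lt_succ_iff_lt_or_eq.1 ha with h | h
    · have := ih h
      linarith
    · subst h
      have : ∑ j ∈ range a, (l j - l (j + 1)) * (if a < j + 1 then (1 : ℝ) else 0) = 0 := by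
        refine Finset.sum_eq_zero fun j hj => ?_
        rw [if_neg (by have := Finset.mem_range.1 hj; omega), mul_zero]
      rw [this]
      ring

theorem abel_sum {n : ℕ} {α : Type*} (Q : Finset α) (f : α → Fin n) (l : ℕ → ℝ) :
    ∑ p ∈ Q, l (f p) = l n * ((Q.filter fun p => (f p).val < n).card : ℝ) +
      ∑ j ∈ range n, (l j - l (j + 1)) * ((Q.filter fun p => (f p).val < j + 1).card : ℝ) := by
  have h1 : ∀ p ∈ Q, l (f p) = l n * (if (f p).val < n then 1 else 0) +
      ∑ j ∈ range n, (l j - l (j + 1)) * (if (f p).val < j + 1 then 1 else 0) := by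
    intro p _
    rw [if_pos (f p).2, mul_one]
    exact abel_telescope l n (f p) (f p).2
  rw [Finset.sum_congr rfl h1, Finset.sum_add_distrib, ← Finset.mul_sum, Finset.sum_boole,
    Finset.sum_comm]
  congr 1
  refine Finset.sum_congr rfl fun j _ => ?_
  rw [← Finset.mul_sum, Finset.sum_boole]

theorem abel_le {n : ℕ} {𝒯 : Type*} (w : 𝒯 → ℝ) (hw : ∀ T, 0 ≤ w T)
    (I P : Finset (Fin n × 𝒯))
    (h : ∀ κ j, (I.filter fun p => w p.2 = κ ∧ p.1.val < j).card ≤
      (P.filter fun p => w p.2 = κ ∧ p.1.val < j).card)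
    (l : ℕ → ℝ) (hl : Antitone l) (hl0 : ∀ j, 0 ≤ l j) :
    ∑ p ∈ I, w p.2 * l p.1 ≤ ∑ p ∈ P, w p.2 * l p.1 := by
  classical
  set K : Finset ℝ := (I ∪ P).image fun p => w p.2 with hK
  have hsplit : ∀ Q : Finset (Fin n × 𝒯), Q ⊆ I ∪ P → ∑ p ∈ Q, w p.2 * l p.1 =
      ∑ κ ∈ K, κ * ∑ p ∈ Q.filter (fun p => w p.2 = κ), l p.1 := by
    intro Q hQ
    rw [← Finset.sum_fiberwise_of_maps_to (s := Q) (t := K) (g := fun p => w p.2)
      (fun p hp => Finset.mem_image_of_mem _ (hQ hp))]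
    refine Finset.sum_congr rfl fun κ _ => ?_
    rw [Finset.mul_sum]
    refine Finset.sum_congr rfl fun p hp => ?_
    rw [(Finset.mem_filter.1 hp).2]
  rw [hsplit I Finset.subset_union_left, hsplit P Finset.subset_union_right]
  refine Finset.sum_le_sum fun κ hκ => ?_
  have hκ0 : 0 ≤ κ := by
    obtain ⟨p, _, rfl⟩ := Finset.mem_image.1 hκ
    exact hw _
  refine mul_le_mul_of_nonneg_left ?_ hκ0
  rw [abel_sum (I.filter fun p => w p.2 = κ) (fun p => p.1) l,
    abel_sum (P.filter fun p => w p.2 = κ) (fun p => p.1) l]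
  simp only [Finset.filter_filter]
  refine add_le_add (mul_le_mul_of_nonneg_left ?_ (hl0 n)) (Finset.sum_le_sum fun j _ =>
    mul_le_mul_of_nonneg_left ?_ (sub_nonneg.2 (hl (Nat.le_succ j))))
  · exact_mod_cast h κ n
  · exact_mod_cast h κ (j + 1)

end Vale.Agent.P346
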