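import Vale.Agent.P346.Circuit

/-!
# P346, all fields: abstract circuit bound with grouping
-/

namespace Vale.Agent.P346

open MvPolynomial Finset

namespace GCircAux

section Hom

variable {K : Type*} [Field K] {σ : Type*} (Cc : Circ K σ) {V : Type*} {F : Type*} [Field F]
  (Φ : MvPolynomial σ K →+* MvPolynomial V F) (ι : K → F) (hΦC : ∀ a, Φ (C a) = C (ι a))
  (hΦX : ∀ v, (Φ (X v)).IsHomogeneous 1)

include hΦC hΦX

theorem homΦ₀ (x : Fin Cc.n₀) : (Φ (Cc.poly₀ x)).IsHomogeneous (Cc.leafDeg x) := by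
  unfold Circ.poly₀ Circ.leafDeg
  rcases Cc.leaf x with v | a
  · exact hΦX v
  · show (Φ (C a)).IsHomogeneous 0
    rw [hΦC]
    exact isHomogeneous_C V (ι a)

variable {d₁ : Fin Cc.n₁ → ℕ} {d₂ : Fin Cc.n₂ → ℕ} {d₃ : Fin Cc.n₃ → ℕ}
  {d₄ : Fin Cc.n₄ → ℕ} {D : ℕ} (hC : Cc.FormalDegrees d₁ d₂ d₃ d₄ D)

include hC

theorem homΦ₁ (l : Fin Cc.n₁) : (Φ (Cc.poly₁ l)).IsHomogeneous (d₁ l) := by
  unfold Circ.poly₁
  rw [map_sum]
  apply MvPolynomial.IsHomogeneous.sum
  intro x _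
  by_cases h : Cc.c₁ l x = 0
  · rw [h, MvPolynomial.C_0, zero_mul, map_zero]
    exact MvPolynomial.isHomogeneous_zero _ _ _
  · rw [← hC.bottom l x h, map_mul, hΦC]
    have := (isHomogeneous_C V (ι (Cc.c₁ l x))).mul (homΦ₀ Cc Φ ι hΦC hΦX x)
    rwa [zero_add] at this

theorem homΦ₂ (k : Fin Cc.n₂) : (Φ (Cc.poly₂ k)).IsHomogeneous (d₂ k) := by
  unfold Circ.poly₂
  rw [hC.lower k, map_prod]
  apply MvPolynomial.IsHomogeneous.prod
  intro l _
  rw [map_pow]
  have := (homΦ₁ Cc Φ ι hΦC hΦX hC l).pow (Cc.e₂ k l)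
  rwa [mul_comm] at this

theorem homΦ₃ (j : Fin Cc.n₃) : (Φ (Cc.poly₃ j)).IsHomogeneous (d₃ j) := by
  unfold Circ.poly₃
  rw [map_sum]
  apply MvPolynomial.IsHomogeneous.sum
  intro k _
  by_cases h : Cc.c₃ j k = 0
  · rw [h, MvPolynomial.C_0, zero_mul, map_zero]
    exact MvPolynomial.isHomogeneous_zero _ _ _
  · rw [← hC.middle j k h, map_mul, hΦC]
    have := (isHomogeneous_C V (ι (Cc.c₃ j k))).mul (homΦ₂ Cc Φ ι hΦC hΦX hC k)
    rwa [zero_add] at this

end Hom

/-- greedy grouping of factors of degree at most `q` -/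
theorem group {V : Type*} {F : Type*} [Field F] (q : ℕ) (hq : 0 < q) {J : Type*}
    (Q : J → MvPolynomial V F) (d : J → ℕ) (s : Finset J)
    (hQ : ∀ x ∈ s, (Q x).IsHomogeneous (d x)) (hd : ∀ x ∈ s, d x ≤ q) :
    ∃ (r : ℕ) (P : Fin r → MvPolynomial V F) (e : Fin r → ℕ) (R : MvPolynomial V F) (e0 : ℕ),
      (∀ x, (P x).IsHomogeneous (e x)) ∧ (∀ x, q ≤ e x ∧ e x < 2 * q) ∧
      R.IsHomogeneous e0 ∧ e0 < q ∧ ∏ x ∈ s, Q x = R * ∏ x, P x ∧
      ∑ x ∈ s, d x = e0 + ∑ x, e x := by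
  classical
  induction s using Finset.induction_on with
  | empty =>
    exact ⟨0, Fin.elim0, Fin.elim0, 1, 0, fun x => x.elim0, fun x => x.elim0,
      isHomogeneous_one V F, hq, by simp, by simp⟩
  | insert a s ha ih =>
    obtain ⟨r, P, e, R, e0, h1, h2, h3, h4, h5, h6⟩ := ih
      (fun x hx => hQ x (Finset.mem_insert_of_mem hx))
      (fun x hx => hd x (Finset.mem_insert_of_mem hx))
    have hQa := hQ a (Finset.mem_insert_self a s)
    have hda := hd a (Finset.mem_insert_self a s)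
    rw [Finset.prod_insert ha, Finset.sum_insert ha, h5, h6]
    by_cases hlt : d a + e0 < q
    · exact ⟨r, P, e, Q a * R, d a + e0, h1, h2, hQa.mul h3, hlt, by ring, by ring⟩
    · refine ⟨r + 1, Fin.cons (Q a * R) P, Fin.cons (d a + e0) e, 1, 0, ?_, ?_,
        isHomogeneous_one V F, hq, ?_, ?_⟩
      · intro x
        refine Fin.cases ?_ (fun x => ?_) x
        · simpa using hQa.mul h3
        · simpa using h1 x
      · intro x
        refine Fin.cases ?_ (fun x => ?_) x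
        · simp only [Fin.cons_zero]
          omega
        · simpa using h2 x
      · rw [Fin.prod_univ_succ]
        simp only [Fin.cons_zero, Fin.cons_succ]
        ring
      · rw [Fin.sum_univ_succ]
        simp only [Fin.cons_zero, Fin.cons_succ]
        ring

end GCircAux

open GCircAux CircAux

theorem circuit_bound {K : Type*} [Field K] {σ : Type*} (Cc : Circ K σ) (n : ℕ) {d₁ d₂ d₃ d₄}
    (hC : Cc.FormalDegrees d₁ d₂ d₃ d₄ n) {V : Type*} {F : Type*} [Field F]
    (Φ : MvPolynomial σ K →+* MvPolynomial V F) (ι : K → F) (hΦC : ∀ a, Φ (C a) = C (ι a))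
    (hΦX : ∀ v, (Φ (X v)).IsHomogeneous 1)
    (μ : MvPolynomial V F → ℝ) (hμ0 : ∀ g, 0 ≤ μ g) (hμz : μ 0 = 0)
    (hμs : ∀ (m : ℕ) (g : Fin m → MvPolynomial V F), μ (∑ x, g x) ≤ ∑ x, μ (g x))
    (hμC : ∀ a g, μ (C a * g) ≤ μ g)
    (τ : ℕ → ℝ) (B : ℝ) (hB : 0 ≤ B)
    (hμp : ∀ (J : Type) [Fintype J] (Q : J → MvPolynomial V F) (d : J → ℕ),
      (∀ x, (Q x).IsHomogeneous (d x)) → ∑ x, d x = n → μ (∏ x, Q x) ≤ B * ∏ x, τ (d x))
    (hτ0 : ∀ d, 0 ≤ τ d) (hτz : τ 0 = 1) (hτ3 : ∀ d, τ d ≤ 3)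
    (β γ : ℝ) (hβ0 : 0 ≤ β) (hβ1 : β ≤ 1) (hγ0 : 0 ≤ γ) (hγ1 : γ ≤ 1) (h1 : τ 1 ≤ β)
    (q : ℕ) (hq : 0 < q) (hτq : ∀ d, q ≤ d → d < 2 * q → τ d ≤ γ)
    (m : ℕ) (hm0 : 0 < m) (hm : (2 * m - 1) * q ≤ n) :
    μ (Φ Cc.poly) ≤ B * (Cc.n₄ * (3 * γ ^ m) + Cc.n₄ * Cc.n₂ * (3 * β ^ q)) := by
  classical
  have hbt : 0 ≤ 3 * β ^ q := by positivity
  have hgt : 0 ≤ 3 * γ ^ m := by positivity
  have e5 : Φ Cc.poly = ∑ x, C (ι (Cc.c₅ x)) * Φ (Cc.poly₄ x) := by
    unfold Circ.poly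
    rw [map_sum]
    exact Finset.sum_congr rfl (fun x _ => by rw [map_mul, hΦC])
  have e4 : ∀ x, Φ (Cc.poly₄ x) = ∏ y, (Φ (Cc.poly₃ y)) ^ Cc.e₄ x y := by
    intro x
    unfold Circ.poly₄
    rw [map_prod]
    exact Finset.prod_congr rfl (fun y _ => by rw [map_pow])
  have e3 : ∀ y, Φ (Cc.poly₃ y) = ∑ z, C (ι (Cc.c₃ y z)) * Φ (Cc.poly₂ z) := by
    intro y
    unfold Circ.poly₃
    rw [map_sum]
    exact Finset.sum_congr rfl (fun x _ => by rw [map_mul, hΦC])
  have e2 : ∀ z, Φ (Cc.poly₂ z) = ∏ l, (Φ (Cc.poly₁ l)) ^ Cc.e₂ z l := by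
    intro x
    unfold Circ.poly₂
    rw [map_prod]
    exact Finset.prod_congr rfl (fun y _ => by rw [map_pow])
  have hι0 : C (ι 0) = (0 : MvPolynomial V F) := by
    rw [← hΦC, C_0, map_zero]
  -- the bound for one upper product gate
  have main : ∀ x, d₄ x = n → μ (Φ (Cc.poly₄ x)) ≤
      B * (3 * γ ^ m + Cc.n₂ * (3 * β ^ q)) := by
    intro x hx
    have hsum : ∑ y, Cc.e₄ x y * d₃ y = n := by rw [← hx, hC.upper x]
    by_cases hlow' : ∀ y, Cc.e₄ x y ≠ 0 → d₃ y ≤ q
    · -- all factors have low degree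
      obtain ⟨r, P, e, R, e0, g1, g2, g3, g4, g5, g6⟩ := group (V := V) (F := F) q hq
        (J := Σ y : Fin Cc.n₃, Fin (Cc.e₄ x y))
        (fun p => Φ (Cc.poly₃ p.1)) (fun p => d₃ p.1) Finset.univ
        (fun p _ => homΦ₃ Cc Φ ι hΦC hΦX hC p.1)
        (fun p _ => hlow' _ (by
          intro h
          have := p.2.2
          omega))
      rw [prod_pow_eq (fun y => Φ (Cc.poly₃ y)) (Cc.e₄ x), ← e4 x] at g5
      rw [sum_mul_eq, hsum] at g6
      have h2 := hμp (Option (Fin r)) (fun p => p.elim R P) (fun p => p.elim e0 e)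
        (by
          intro p
          rcases p with _ | p
          · exact g3
          · exact g1 p)
        (by
          rw [Fintype.sum_option]
          simp only [Option.elim]
          exact g6.symm)
      rw [Fintype.prod_option, Fintype.prod_option] at h2
      simp only [Option.elim] at h2
      rw [← g5] at h2
      refine h2.trans ?_
      apply mul_le_mul_of_nonneg_left _ hB
      have hr : m ≤ r := by
        by_contra hlt
        push Not at hlt
        have h3 : ∑ x, e x ≤ r * (2 * q - 1) := by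
          calc ∑ x, e x ≤ ∑ _x : Fin r, (2 * q - 1) :=
                Finset.sum_le_sum fun x _ => by have := (g2 x).2; omega
            _ = r * (2 * q - 1) := by simp
        obtain ⟨m', rfl⟩ : ∃ m', m = m' + 1 := ⟨m - 1, by omega⟩
        have h4 : r * (2 * q - 1) ≤ m' * (2 * q - 1) := Nat.mul_le_mul_right _ (by omega)
        have h5 : m' * (2 * q - 1) ≤ m' * (2 * q) := Nat.mul_le_mul_left _ (by omega)
        have h6 : (2 * (m' + 1) - 1) * q = m' * (2 * q) + q := by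
          have : 2 * (m' + 1) - 1 = 2 * m' + 1 := by omega
          rw [this]
          ring
        omega
      have h7 : ∏ x, τ (e x) ≤ γ ^ r := by
        calc ∏ x, τ (e x) ≤ ∏ _x : Fin r, γ :=
              Finset.prod_le_prod (fun x _ => hτ0 _) (fun x _ => hτq _ (g2 x).1 (g2 x).2)
          _ = γ ^ r := by simp
      have h8 : γ ^ r ≤ γ ^ m := pow_le_pow_of_le_one hγ0 hγ1 hr
      have h9 : 0 ≤ ∏ x, τ (e x) := Finset.prod_nonneg fun x _ => hτ0 _
      have h10 : τ e0 * ∏ x, τ (e x) ≤ 3 * γ ^ m := by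
        calc τ e0 * ∏ x, τ (e x) ≤ 3 * ∏ x, τ (e x) := mul_le_mul_of_nonneg_right (hτ3 _) h9
          _ ≤ 3 * γ ^ m := by linarith
      have h11 : 0 ≤ (Cc.n₂ : ℝ) * (3 * β ^ q) := by positivity
      linarith
    · -- some factor has high degree
      push Not at hlow'
      obtain ⟨y, hy0, hyt⟩ := hlow'
      -- the remaining factors
      obtain ⟨k, hk⟩ : ∃ k, Cc.e₄ x y = k + 1 := ⟨Cc.e₄ x y - 1, by omega⟩
      set R : MvPolynomial V F := (Φ (Cc.poly₃ y)) ^ k *
        ∏ z ∈ Finset.univ.erase y, (Φ (Cc.poly₃ z)) ^ Cc.e₄ x z with hR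
      have hPR : Φ (Cc.poly₄ x) = Φ (Cc.poly₃ y) * R := by
        rw [e4 x, ← Finset.mul_prod_erase Finset.univ _ (Finset.mem_univ y), hk, hR, pow_succ]
        ring
      have hRh : R.IsHomogeneous (k * d₃ y + ∑ z ∈ Finset.univ.erase y, Cc.e₄ x z * d₃ z) := by
        rw [hR]
        apply MvPolynomial.IsHomogeneous.mul
        · have := (homΦ₃ Cc Φ ι hΦC hΦX hC y).pow k
          rwa [mul_comm] at this
        · apply MvPolynomial.IsHomogeneous.prod
          intro z _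
          have := (homΦ₃ Cc Φ ι hΦC hΦX hC z).pow (Cc.e₄ x z)
          rwa [mul_comm] at this
      have hdeg : d₃ y + (k * d₃ y + ∑ z ∈ Finset.univ.erase y, Cc.e₄ x z * d₃ z) = n := by
        rw [← hsum, ← Finset.add_sum_erase Finset.univ _ (Finset.mem_univ y), hk]
        ring
      set r : ℕ := k * d₃ y + ∑ z ∈ Finset.univ.erase y, Cc.e₄ x z * d₃ z with hr
      have hexp : Φ (Cc.poly₄ x) =
          ∑ z, C (ι (Cc.c₃ y z)) * (Φ (Cc.poly₂ z) * R) := by
        rw [hPR, e3 y, Finset.sum_mul]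
        exact Finset.sum_congr rfl (fun z _ => by ring)
      have hpiece : ∀ z, μ (C (ι (Cc.c₃ y z)) * (Φ (Cc.poly₂ z) * R)) ≤
          B * (3 * β ^ q) := by
        intro z
        have hnn : 0 ≤ B * (3 * β ^ q) := mul_nonneg hB hbt
        by_cases hc : Cc.c₃ y z = 0
        · rw [hc, hι0, zero_mul, hμz]
          exact hnn
        have hd2 : d₂ z = d₃ y := hC.middle y z hc
        refine le_trans (hμC _ _) ?_
        by_cases hz : ∃ l, Cc.e₂ z l ≠ 0 ∧ Cc.poly₁ l = 0
        · obtain ⟨l, hl1, hl2⟩ := hz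
          have : Φ (Cc.poly₂ z) = 0 := by
            rw [e2 z]
            apply Finset.prod_eq_zero (Finset.mem_univ l)
            rw [hl2, map_zero, zero_pow hl1]
          rw [this, zero_mul, hμz]
          exact hnn
        push Not at hz
        -- all bottom gates in use have degree at most one
        have hd1 : ∀ l, Cc.e₂ z l ≠ 0 → d₁ l ≤ 1 := by
          intro l hl
          have h0 := hz l hl
          have : ∃ w, Cc.c₁ l w ≠ 0 := by
            by_contra hcon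
            push Not at hcon
            apply h0
            unfold Circ.poly₁
            apply Finset.sum_eq_zero
            intro w _
            rw [hcon w, MvPolynomial.C_0, zero_mul]
          obtain ⟨w, hw⟩ := this
          rw [← hC.bottom l w hw]
          unfold Circ.leafDeg
          rcases Cc.leaf w with v | a <;> simp
        have h2 := hμp (Option (Σ l : Fin Cc.n₁, Fin (Cc.e₂ z l)))
          (fun p => p.elim R (fun p => Φ (Cc.poly₁ p.1)))
          (fun p => p.elim r (fun p => d₁ p.1))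
          (by
            intro p
            rcases p with _ | p
            · exact hRh
            · exact homΦ₁ Cc Φ ι hΦC hΦX hC p.1)
          (by
            rw [Fintype.sum_option]
            simp only [Option.elim]
            rw [sum_mul_eq, ← hC.lower z, hd2, ← hdeg]
            ring)
        rw [Fintype.prod_option, Fintype.prod_option] at h2
        simp only [Option.elim] at h2
        rw [prod_pow_eq (fun l => Φ (Cc.poly₁ l)) (Cc.e₂ z), ← e2 z, mul_comm R] at h2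
        refine h2.trans ?_
        apply mul_le_mul_of_nonneg_left _ hB
        have h3 : ∏ p : (Σ l : Fin Cc.n₁, Fin (Cc.e₂ z l)), τ (d₁ p.1) ≤
            ∏ p : (Σ l : Fin Cc.n₁, Fin (Cc.e₂ z l)), β ^ (d₁ p.1) := by
          apply Finset.prod_le_prod
          · intro p _
            exact hτ0 _
          · intro p _
            have hp : Cc.e₂ z p.1 ≠ 0 := by
              intro h
              have := p.2.2
              omega
            have hp1 := hd1 _ hp
            have hcase : d₁ p.1 = 0 ∨ d₁ p.1 = 1 := by omega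
            rcases hcase with h0 | h0
            · rw [h0, hτz, pow_zero]
            · rw [h0, pow_one]
              exact h1
        have h4 : ∏ p : (Σ l : Fin Cc.n₁, Fin (Cc.e₂ z l)), β ^ (d₁ p.1) = β ^ (d₃ y) := by
          rw [Finset.prod_pow_eq_pow_sum, sum_mul_eq, ← hC.lower z, hd2]
        have h5 : β ^ (d₃ y) ≤ β ^ q := pow_le_pow_of_le_one hβ0 hβ1 hyt.le
        rw [h4] at h3
        have h6 : 0 ≤ ∏ p : (Σ l : Fin Cc.n₁, Fin (Cc.e₂ z l)), τ (d₁ p.1) :=
          Finset.prod_nonneg (fun p _ => hτ0 _)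
        calc τ r * ∏ p : (Σ l : Fin Cc.n₁, Fin (Cc.e₂ z l)), τ (d₁ p.1)
            ≤ 3 * ∏ p : (Σ l : Fin Cc.n₁, Fin (Cc.e₂ z l)), τ (d₁ p.1) :=
              mul_le_mul_of_nonneg_right (hτ3 r) h6
          _ ≤ 3 * β ^ q := by linarith [h3.trans h5]
      have hsum' : μ (Φ (Cc.poly₄ x)) ≤ Cc.n₂ * (B * (3 * β ^ q)) := by
        rw [hexp]
        calc μ (∑ z, C (ι (Cc.c₃ y z)) * (Φ (Cc.poly₂ z) * R))
            ≤ ∑ z, μ (C (ι (Cc.c₃ y z)) * (Φ (Cc.poly₂ z) * R)) := hμs _ _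
          _ ≤ ∑ _z : Fin Cc.n₂, B * (3 * β ^ q) := Finset.sum_le_sum (fun z _ => hpiece z)
          _ = _ := by simp
      refine hsum'.trans ?_
      have h7 : 0 ≤ B * (3 * γ ^ m) := mul_nonneg hB hgt
      have h8 : B * (3 * γ ^ m + Cc.n₂ * (3 * β ^ q)) =
          B * (3 * γ ^ m) + Cc.n₂ * (B * (3 * β ^ q)) := by ring
      rw [h8]
      linarith
  rw [e5]
  calc μ (∑ x, C (ι (Cc.c₅ x)) * Φ (Cc.poly₄ x))
      ≤ ∑ x, μ (C (ι (Cc.c₅ x)) * Φ (Cc.poly₄ x)) := hμs _ _
    _ ≤ ∑ _x : Fin Cc.n₄, B * (3 * γ ^ m + Cc.n₂ * (3 * β ^ q)) := by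
        apply Finset.sum_le_sum
        intro x _
        by_cases hc : Cc.c₅ x = 0
        · rw [hc, hι0, zero_mul, hμz]
          have : 0 ≤ 3 * γ ^ m + (Cc.n₂ : ℝ) * (3 * β ^ q) := by positivity
          exact mul_nonneg hB this
        · exact le_trans (hμC _ _) (main x (hC.top x hc))
    _ = _ := by
        rw [Finset.sum_const, Finset.card_univ, Fintype.card_fin, nsmul_eq_mul]
        ring

end Vale.Agent.P346
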