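import Vale.Agent.P346.PathDefs

/-! # P346: the word of layers -/

namespace Vale.Agent.P346

theorem wcntT_zero (n : ℕ) (word : Fin n → Bool) : cntT n word 0 = 0 := by
  simp [cntT]

theorem wcntF_zero (n : ℕ) (word : Fin n → Bool) : cntF n word 0 = 0 := by
  simp [cntF]

theorem wcntT_succ (n : ℕ) (word : Fin n → Bool) (t : ℕ) (ht : t < n) :
    cntT n word (t + 1) = cntT n word t + if word ⟨t, ht⟩ = true then 1 else 0 := by
  unfold cntT
  by_cases h : word ⟨t, ht⟩ = true
  · rw [if_pos h]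
    have : (Finset.univ.filter fun s : Fin n => s.val < t + 1 ∧ word s = true) =
        insert ⟨t, ht⟩ (Finset.univ.filter fun s : Fin n => s.val < t ∧ word s = true) := by
      ext s
      simp only [Finset.mem_filter, Finset.mem_univ, true_and, Finset.mem_insert]
      constructor
      · rintro ⟨h1, h2⟩
        rcases Nat.lt_succ_iff_lt_or_eq.1 h1 with h3 | h3
        · exact Or.inr ⟨h3, h2⟩
        · exact Or.inl (Fin.ext h3)
      · rintro (h1 | ⟨h1, h2⟩)
        · subst h1; exact ⟨Nat.lt_succ_self _, h⟩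
        · exact ⟨Nat.lt_succ_of_lt h1, h2⟩
    rw [this, Finset.card_insert_of_notMem]
    simp
  · rw [if_neg h, add_zero]
    congr 1
    ext s
    simp only [Finset.mem_filter, Finset.mem_univ, true_and]
    constructor
    · rintro ⟨h1, h2⟩
      rcases Nat.lt_succ_iff_lt_or_eq.1 h1 with h3 | h3
      · exact ⟨h3, h2⟩
      · exfalso; apply h
        have : s = ⟨t, ht⟩ := Fin.ext h3
        rw [← this]; exact h2
    · rintro ⟨h1, h2⟩
      exact ⟨Nat.lt_succ_of_lt h1, h2⟩

theorem wcntF_succ (n : ℕ) (word : Fin n → Bool) (t : ℕ) (ht : t < n) :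
    cntF n word (t + 1) = cntF n word t + if word ⟨t, ht⟩ = false then 1 else 0 := by
  have key := wcntT_succ n (fun s => !word s) t ht
  have e : ∀ t, cntT n (fun s => !word s) t = cntF n word t := by
    intro t; simp [cntT, cntF]
  rw [e, e] at key
  rw [key]; simp

theorem cntT_add_cntF (n : ℕ) (word : Fin n → Bool) (t : ℕ) (ht : t ≤ n) :
    cntT n word t + cntF n word t = t := by
  induction t with
  | zero => simp [wcntT_zero, wcntF_zero]
  | succ t ih =>
    rw [wcntT_succ n word t (by omega), wcntF_succ n word t (by omega)]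
    have := ih (by omega)
    cases word ⟨t, by omega⟩ <;> simp <;> omega

/-- the greedy state after `t` letters -/
noncomputable def gst (Y L : ℝ) : ℕ → ℕ × ℕ
  | 0 => (0, 0)
  | t + 1 =>
    open Classical in
    if L ^ ((gst Y L t).2 + 1) ≤ Y ^ (gst Y L t).1 then ((gst Y L t).1, (gst Y L t).2 + 1)
    else ((gst Y L t).1 + 1, (gst Y L t).2)

open Classical in
/-- the greedy word -/
noncomputable def gword (Y L : ℝ) (t : ℕ) : Bool :=
  if L ^ ((gst Y L t).2 + 1) ≤ Y ^ (gst Y L t).1 then false else true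

theorem gst_inv (Y L : ℝ) (hL : 1 ≤ L) (hLY : L ≤ Y) (t : ℕ) :
    L ^ (gst Y L t).2 ≤ Y ^ (gst Y L t).1 ∧
      Y ^ (gst Y L t).1 ≤ L ^ (gst Y L t).2 * (L * Y) := by
  have hY : 1 ≤ Y := hL.trans hLY
  have hL0 : 0 < L := by linarith
  have hY0 : 0 < Y := by linarith
  induction t with
  | zero => simp only [gst, pow_zero, le_refl, one_mul, true_and]; nlinarith
  | succ t ih =>
    obtain ⟨h1, h2⟩ := ih
    by_cases h : L ^ ((gst Y L t).2 + 1) ≤ Y ^ (gst Y L t).1
    · have e : gst Y L (t + 1) = ((gst Y L t).1, (gst Y L t).2 + 1) := by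
        simp only [gst, if_pos h]
      rw [e]
      refine ⟨h, h2.trans ?_⟩
      have : L ^ (gst Y L t).2 ≤ L ^ ((gst Y L t).2 + 1) := pow_le_pow_right₀ hL (by omega)
      exact mul_le_mul_of_nonneg_right this (by positivity)
    · have e : gst Y L (t + 1) = ((gst Y L t).1 + 1, (gst Y L t).2) := by
        simp only [gst, if_neg h]
      rw [e]
      push Not at h
      refine ⟨h1.trans (pow_le_pow_right₀ hY (by omega)), ?_⟩
      rw [pow_succ] at h ⊢
      nlinarith

theorem gst_cnt (Y L : ℝ) (n : ℕ) (t : ℕ) (ht : t ≤ n) :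
    cntT n (fun s => gword Y L s.val) t = (gst Y L t).1 ∧
      cntF n (fun s => gword Y L s.val) t = (gst Y L t).2 := by
  induction t with
  | zero => simp [wcntT_zero, wcntF_zero, gst]
  | succ t ih =>
    obtain ⟨h1, h2⟩ := ih (by omega)
    rw [wcntT_succ n _ t (by omega), wcntF_succ n _ t (by omega), h1, h2]
    by_cases h : L ^ ((gst Y L t).2 + 1) ≤ Y ^ (gst Y L t).1
    · simp only [gst, gword, if_pos h]; simp
    · simp only [gst, gword, if_neg h]; simp

/-- [WORD] -/
theorem exists_word (n : ℕ) (Y L : ℝ) (hL : 1 ≤ L) (hLY : L ≤ Y) :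
    ∃ word : Fin n → Bool, ∀ t ≤ n, L ^ cntF n word t ≤ Y ^ cntT n word t ∧
      Y ^ cntT n word t ≤ L ^ cntF n word t * (L * Y) := by
  refine ⟨fun s => gword Y L s.val, fun t ht => ?_⟩
  obtain ⟨h1, h2⟩ := gst_cnt Y L n t ht
  rw [h1, h2]
  exact gst_inv Y L hL hLY t

end Vale.Agent.P346
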