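import Vale.Agent.P346.GDefs
import Vale.Agent.P346.Word

/-! # P346, all fields: [GCONN] the rows of `gPoly` are the rows of the process -/

namespace Vale.Agent.P346

open MvPolynomial Finset

namespace GConnectAux

variable {n M : ℕ}

/-- the layer `i` of a set of variables -/
def slice (T : Finset (Fin n × Fin n × Fin M)) (i : ℕ) : Cfg n M :=
  Finset.univ.filter fun p : Fin n × Fin M => ∃ h : i < n, ((⟨i, h⟩ : Fin n), p.1, p.2) ∈ T

theorem mem_slice {T : Finset (Fin n × Fin n × Fin M)} {i : ℕ} {p : Fin n × Fin M} :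
    p ∈ slice T i ↔ ∃ h : i < n, ((⟨i, h⟩ : Fin n), p.1, p.2) ∈ T := by
  simp [slice]

theorem mem_slice' {T : Finset (Fin n × Fin n × Fin M)} {i : ℕ} (h : i < n) {p : Fin n × Fin M} :
    p ∈ slice T i ↔ ((⟨i, h⟩ : Fin n), p.1, p.2) ∈ T := by
  rw [mem_slice]
  exact ⟨fun ⟨_, h'⟩ => h', fun h' => ⟨h, h'⟩⟩

/-- the history of a set of variables -/
def proj (T : Finset (Fin n × Fin n × Fin M)) : (t : ℕ) → Hist n M t
  | 0 => ()
  | t + 1 => (proj T t, slice T t)

theorem slice_eq_of_proj {T S : Finset (Fin n × Fin n × Fin M)} :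
    ∀ t, proj T t = proj S t → ∀ i < t, slice T i = slice S i := by
  intro t
  induction t with
  | zero => intro _ i hi; omega
  | succ t ih =>
    intro h i hi
    have h' : (proj T t, slice T t) = (proj S t, slice S t) := h
    rw [Prod.mk.injEq] at h'
    rcases Nat.lt_succ_iff_lt_or_eq.1 hi with h1 | h1
    · exact ih h'.1 i h1
    · rw [h1]; exact h'.2

theorem eq_of_slice {T S : Finset (Fin n × Fin n × Fin M)} (h : ∀ i < n, slice T i = slice S i) :
    T = S := by
  ext ⟨i, a, b⟩
  have h1 := h i.val i.isLt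
  have h2 : ((a, b) : Fin n × Fin M) ∈ slice T i.val ↔ (a, b) ∈ slice S i.val := by rw [h1]
  rw [mem_slice' i.isLt, mem_slice' i.isLt] at h2
  exact h2

theorem proj_congr {T S : Finset (Fin n × Fin n × Fin M)} :
    ∀ t, (∀ i < t, slice T i = slice S i) → proj T t = proj S t := by
  intro t
  induction t with
  | zero => intro _; rfl
  | succ t ih =>
    intro h
    show (proj T t, slice T t) = (proj S t, slice S t)
    rw [ih fun i hi => h i (by omega), h t (by omega)]

theorem card_hist (n M t : ℕ) : Nat.card (Hist n M t) = (2 ^ (n * M)) ^ t := by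
  induction t with
  | zero =>
    show Nat.card Unit = _
    simp
  | succ t ih =>
    show Nat.card (Hist n M t × Cfg n M) = _
    rw [Nat.card_prod, ih, pow_succ]
    congr 1
    rw [Nat.card_eq_fintype_card, Fintype.card_finset]
    simp

theorem proj_bijective (n M : ℕ) :
    Function.Bijective (fun T : Finset (Fin n × Fin n × Fin M) => proj T n) := by
  have hinj : Function.Injective (fun T : Finset (Fin n × Fin n × Fin M) => proj T n) :=
    fun T S h => eq_of_slice (slice_eq_of_proj n h)
  have : Finite (Hist n M n) := Finite.of_fintype _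
  refine (Nat.bijective_iff_injective_and_card _).2 ⟨hinj, ?_⟩
  rw [card_hist, Nat.card_eq_fintype_card, Fintype.card_finset]
  simp only [Fintype.card_prod, Fintype.card_fin]
  rw [← pow_mul]
  congr 1
  ring

/-! ### erasing one variable -/

theorem slice_erase_ne {T : Finset (Fin n × Fin n × Fin M)} {t i : ℕ} (ht : t < n) (h : i ≠ t)
    (a : Fin n) (b : Fin M) : slice (T.erase (⟨t, ht⟩, a, b)) i = slice T i := by
  ext p
  rw [mem_slice, mem_slice]
  constructor
  · rintro ⟨h1, h2⟩
    exact ⟨h1, Finset.mem_of_mem_erase h2⟩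
  · rintro ⟨h1, h2⟩
    refine ⟨h1, Finset.mem_erase.2 ⟨?_, h2⟩⟩
    intro h3
    rw [Prod.mk.injEq, Fin.mk.injEq] at h3
    exact h h3.1

theorem slice_erase_eq {T : Finset (Fin n × Fin n × Fin M)} {t : ℕ} (ht : t < n)
    (a : Fin n) (b : Fin M) :
    slice (T.erase (⟨t, ht⟩, a, b)) t = (slice T t).erase (a, b) := by
  ext p
  rw [mem_slice' ht, Finset.mem_erase, Finset.mem_erase, mem_slice' ht]
  constructor
  · rintro ⟨h1, h2⟩
    refine ⟨?_, h2⟩
    intro h3
    apply h1
    rw [h3]
  · rintro ⟨h1, h2⟩
    refine ⟨?_, h2⟩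
    intro h3
    apply h1
    rw [Prod.mk.injEq, Prod.mk.injEq] at h3
    exact Prod.ext h3.2.1 h3.2.2

/-! ### the matrix of a variable -/

section SMX

variable {V : Type*} [Fintype V] [DecidableEq V] {F : Type*} [Field F]

theorem sf_X (p : V) (D : Finset V) :
    sf (X p : MvPolynomial V F) D = if D = {p} then 1 else 0 := by
  show coeff (SFAux.ind D) (X p : MvPolynomial V F) = _
  rw [MvPolynomial.coeff_X]
  have h1 : Finsupp.single p 1 = SFAux.ind ({p} : Finset V) := by
    simp [SFAux.ind]
  rw [h1]
  by_cases h : D = {p}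
  · rw [if_pos h, if_pos (by rw [h])]
  · rw [if_neg h, if_neg]
    intro h2
    exact h (SFAux.ind_injective h2).symm

theorem SM_X_mul (p : V) (g : MvPolynomial V F) (T S : Finset V) :
    SM (X p * g) T S = if p ∈ T then SM g (T.erase p) S else 0 := by
  rw [SM_mul, Matrix.mul_apply]
  have h1 : ∀ R : Finset V, SM (X p : MvPolynomial V F) T R =
      if p ∈ T ∧ R = T.erase p then 1 else 0 := by
    intro R
    simp only [SM, Matrix.of_apply]
    rw [sf_X]
    by_cases h2 : p ∈ T ∧ R = T.erase p
    · rw [if_pos h2, if_pos, if_pos]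
      · rw [h2.2, Finset.sdiff_erase h2.1, Finset.sdiff_self, Finset.insert_empty]
      · rw [h2.2]; exact Finset.erase_subset _ _
    · rw [if_neg h2]
      by_cases h3 : R ⊆ T
      · rw [if_pos h3, if_neg]
        intro h4
        apply h2
        have h5 : p ∈ T \ R := by rw [h4]; simp
        refine ⟨(Finset.mem_sdiff.1 h5).1, ?_⟩
        rw [Finset.erase_eq, ← h4, Finset.sdiff_sdiff_eq_self h3]
      · rw [if_neg h3]
  by_cases h2 : p ∈ T
  · rw [if_pos h2, Finset.sum_eq_single (T.erase p)]
    · rw [h1, if_pos ⟨h2, rfl⟩, one_mul]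
    · intro R _ hR
      rw [h1, if_neg (fun h => hR h.2), zero_mul]
    · intro h; exact absurd (Finset.mem_univ _) h
  · rw [if_neg h2]
    refine Finset.sum_eq_zero fun R _ => ?_
    rw [h1, if_neg (fun h => h2 h.1), zero_mul]

theorem SM_one (T S : Finset V) : SM (1 : MvPolynomial V F) T S = if T = S then 1 else 0 := by
  simp only [SM, Matrix.of_apply]
  have h1 : ∀ D : Finset V, sf (1 : MvPolynomial V F) D = if D = ∅ then 1 else 0 := by
    intro D
    show coeff (SFAux.ind D) (1 : MvPolynomial V F) = _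
    rw [MvPolynomial.coeff_one]
    have h2 : (0 : V →₀ ℕ) = SFAux.ind (∅ : Finset V) := by simp [SFAux.ind]
    rw [h2]
    by_cases h : D = ∅
    · rw [if_pos h, if_pos (by rw [h])]
    · rw [if_neg h, if_neg]
      intro h3
      exact h (SFAux.ind_injective h3).symm
  rw [h1]
  by_cases h : T = S
  · subst h; simp
  · rw [if_neg h]
    by_cases h2 : S ⊆ T
    · rw [if_pos h2, if_neg]
      intro h3
      exact h (Finset.Subset.antisymm (Finset.sdiff_eq_empty_iff_subset.1 h3) h2)
    · rw [if_neg h2]

end SMX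

/-! ### partial products -/

variable {F : Type*} [Field F]

/-- partial products -/
noncomputable def Pt (v : ℕ → Fin n → Fin M → Fin n → F) (t : ℕ) :
    Matrix (Fin n) (Fin n) (MvPolynomial (Fin n × Fin n × Fin M) F) :=
  ((List.ofFn fun t : Fin n => gMat v t).take t).prod

theorem Pt_succ (v : ℕ → Fin n → Fin M → Fin n → F) {t : ℕ} (ht : t < n) :
    Pt v (t + 1) = Pt v t * gMat v ⟨t, ht⟩ := by
  unfold Pt
  rw [List.prod_take_succ _ _ (by simpa using ht)]
  simp

theorem Pt_n [NeZero n] (v : ℕ → Fin n → Fin M → Fin n → F) : Pt v n 0 0 = gPoly v := by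
  unfold Pt gPoly
  rw [List.take_of_length_le (by simp)]

open Classical in
theorem SM_Pt [NeZero n] (v : ℕ → Fin n → Fin M → Fin n → F) :
    ∀ t, t ≤ n → ∀ (c : Fin n) (T S : Finset (Fin n × Fin n × Fin M)),
      SM (Pt v t 0 c) T S =
        if ∀ i, t ≤ i → slice T i = slice S i then rowsA v t c (proj T t) (proj S t) else 0 := by
  intro t
  induction t with
  | zero =>
    intro _ c T S
    have h1 : Pt v 0 0 c = if c = 0 then 1 else 0 := by
      unfold Pt
      rw [List.take_zero, List.prod_nil, Matrix.one_apply]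
      by_cases h : c = 0
      · rw [if_pos h, if_pos h.symm]
      · rw [if_neg h, if_neg (fun h' => h h'.symm)]
    have h2 : (∀ i, 0 ≤ i → slice T i = slice S i) ↔ T = S :=
      ⟨fun h => eq_of_slice fun i _ => h i (Nat.zero_le i), fun h i _ => by rw [h]⟩
    have h3 : rowsA v 0 c (proj T 0) (proj S 0) = if c = 0 then 1 else 0 := rfl
    rw [h1, h3]
    by_cases hc : c = 0
    · rw [if_pos hc, if_pos hc, SM_one]
      by_cases h : T = S
      · rw [if_pos h, if_pos (h2.2 h)]
      · rw [if_neg h, if_neg (fun h' => h (h2.1 h'))]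
    · rw [if_neg hc, if_neg hc, SM_zero]
      simp
  | succ t ih =>
    intro ht c T S
    have ht' : t < n := ht
    have h1 : Pt v (t + 1) 0 c = ∑ a : Fin n, ∑ b : Fin M,
        C (v t a b c) * (X ((⟨t, ht'⟩ : Fin n), a, b) * Pt v t 0 a) := by
      rw [Pt_succ v ht', Matrix.mul_apply]
      refine Finset.sum_congr rfl fun a _ => ?_
      simp only [gMat, Matrix.of_apply]
      rw [Finset.mul_sum]
      refine Finset.sum_congr rfl fun b _ => ?_
      ring
    have h2 : SM (Pt v (t + 1) 0 c) T S = ∑ a : Fin n, ∑ b : Fin M, v t a b c *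
        (if ((⟨t, ht'⟩ : Fin n), a, b) ∈ T then
          SM (Pt v t 0 a) (T.erase ((⟨t, ht'⟩ : Fin n), a, b)) S else 0) := by
      rw [h1, SM_sum, Matrix.sum_apply]
      refine Finset.sum_congr rfl fun a _ => ?_
      rw [SM_sum, Matrix.sum_apply]
      refine Finset.sum_congr rfl fun b _ => ?_
      rw [SM_C_mul, Matrix.smul_apply, smul_eq_mul, SM_X_mul]
    have h3 : rowsA v (t + 1) c (proj T (t + 1)) (proj S (t + 1)) =
        ∑ p ∈ slice T t, if slice S t = (slice T t).erase p then
          v t p.1 p.2 c * rowsA v t p.1 (proj T t) (proj S t) else 0 := rfl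
    rw [h2, h3]
    have h4 : ∀ (a : Fin n) (b : Fin M), (if ((⟨t, ht'⟩ : Fin n), a, b) ∈ T then
          SM (Pt v t 0 a) (T.erase ((⟨t, ht'⟩ : Fin n), a, b)) S else 0) =
        if (a, b) ∈ slice T t then (if ∀ i, t + 1 ≤ i → slice T i = slice S i then
          (if slice S t = (slice T t).erase (a, b) then
            rowsA v t a (proj T t) (proj S t) else 0) else 0) else 0 := by
      intro a b
      by_cases hm : ((⟨t, ht'⟩ : Fin n), a, b) ∈ T
      · rw [if_pos hm, if_pos ((mem_slice' ht').2 hm), ih ht'.le]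
        have h5 : proj (T.erase ((⟨t, ht'⟩ : Fin n), a, b)) t = proj T t :=
          proj_congr t fun i hi => slice_erase_ne ht' (by omega) a b
        rw [h5]
        by_cases h6 : ∀ i, t + 1 ≤ i → slice T i = slice S i
        · rw [if_pos h6]
          by_cases h7 : slice S t = (slice T t).erase (a, b)
          · rw [if_pos h7, if_pos]
            intro i hi
            rcases Nat.eq_or_lt_of_le hi with h8 | h8
            · rw [← h8, slice_erase_eq, h7]
            · rw [slice_erase_ne ht' (by omega), h6 i h8]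
          · rw [if_neg h7, if_neg]
            intro h8
            have h9 := h8 t le_rfl
            rw [slice_erase_eq] at h9
            exact h7 h9.symm
        · rw [if_neg h6, if_neg]
          intro h8
          apply h6
          intro i hi
          have h9 := h8 i (by omega)
          rwa [slice_erase_ne ht' (by omega)] at h9
      · rw [if_neg hm, if_neg (fun h => hm ((mem_slice' ht').1 h))]
    simp only [h4]
    by_cases h6 : ∀ i, t + 1 ≤ i → slice T i = slice S i
    · rw [if_pos h6]
      simp only [if_pos h6]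
      rw [← Finset.univ_inter (slice T t), ← Finset.sum_ite_mem, Fintype.sum_prod_type]
      simp only [Finset.univ_inter]
      refine Finset.sum_congr rfl fun a _ => Finset.sum_congr rfl fun b _ => ?_
      by_cases h7 : (a, b) ∈ slice T t
      · rw [if_pos h7, if_pos h7]
        by_cases h8 : slice S t = (slice T t).erase (a, b)
        · rw [if_pos h8, if_pos h8]
        · rw [if_neg h8, if_neg h8, mul_zero]
      · rw [if_neg h7, if_neg h7, mul_zero]
    · rw [if_neg h6]
      simp only [if_neg h6]
      simp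

/-! ### weights -/

theorem wH_proj (x : ℕ → ℝ) (T : Finset (Fin n × Fin n × Fin M)) :
    ∀ t, wH x t (proj T t) = ∏ i ∈ range t, x i ^ (slice T i).card := by
  intro t
  induction t with
  | zero => rfl
  | succ t ih =>
    have h1 : wH x (t + 1) (proj T (t + 1)) = wH x t (proj T t) * x t ^ (slice T t).card := rfl
    rw [h1, ih, Finset.prod_range_succ]

theorem card_slice (T : Finset (Fin n × Fin n × Fin M)) (i : Fin n) :
    (T.filter fun p => p.1 = i).card = (slice T i.val).card := by
  refine Finset.card_bij (fun p _ => p.2) ?_ ?_ ?_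
  · rintro ⟨j, a, b⟩ hp
    rw [Finset.mem_filter] at hp
    rw [mem_slice' i.isLt]
    obtain ⟨h1, h2⟩ := hp
    simp only at h2
    subst h2
    exact h1
  · rintro ⟨j, a, b⟩ hp ⟨j', a', b'⟩ hp' he
    rw [Finset.mem_filter] at hp hp'
    obtain ⟨h1, h2⟩ := hp
    obtain ⟨h1', h2'⟩ := hp'
    simp only at h2 h2' he
    rw [h2, h2', he]
  · rintro ⟨a, b⟩ hb
    rw [mem_slice' i.isLt] at hb
    exact ⟨(i, a, b), Finset.mem_filter.2 ⟨hb, rfl⟩, rfl⟩

theorem wt_eq_prod {V : Type*} (side : V → Bool) (y L : ℝ) (T : Finset V) :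
    wt side y L T = ∏ p ∈ T, (if side p then y else 1 / L) := by
  unfold wt ldeg rdeg
  rw [Finset.prod_ite, Finset.prod_const, Finset.prod_const, one_div, inv_pow, div_eq_mul_inv]
  congr 3
  simp

theorem wt_eq (word : Fin n → Bool) (y L : ℝ) (T : Finset (Fin n × Fin n × Fin M)) :
    wt (fun p => word p.1) y L T =
      wH (fun t => if h : t < n then (if word ⟨t, h⟩ then y else 1 / L) else 1) n (proj T n) := by
  rw [wH_proj, wt_eq_prod, ← Finset.prod_fiberwise T (fun p => p.1), Finset.prod_range]
  refine Finset.prod_congr rfl fun i _ => ?_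
  rw [← card_slice, ← Finset.prod_const]
  refine Finset.prod_congr rfl fun p hp => ?_
  rw [Finset.mem_filter] at hp
  rw [dif_pos i.isLt, hp.2]

end GConnectAux

open GConnectAux in
/-- histories are sets of variables, and the rows of `gPoly` are the rows of the process -/
theorem gconnect {n M : ℕ} [NeZero n] {F : Type*} [Field F]
    (v : ℕ → Fin n → Fin M → Fin n → F) :
    ∃ e : Finset (Fin n × Fin n × Fin M) ≃ Hist n M n,
      (∀ T S, SM (gPoly v) T S = rowsA v n 0 (e T) (e S)) ∧
      ∀ (word : Fin n → Bool) (y L : ℝ) (T : Finset (Fin n × Fin n × Fin M)),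
        wt (fun p => word p.1) y L T =
          wH (fun t => if h : t < n then (if word ⟨t, h⟩ then y else 1 / L) else 1) n (e T) := by
  classical
  refine ⟨Equiv.ofBijective _ (proj_bijective n M), ?_, ?_⟩
  · intro T S
    rw [← Pt_n, SM_Pt v n le_rfl, if_pos]
    · rfl
    · intro i hi
      ext p
      rw [GConnectAux.mem_slice, GConnectAux.mem_slice]
      constructor
      · rintro ⟨h, -⟩; omega
      · rintro ⟨h, -⟩; omega
  · intro word y L T
    exact wt_eq word y L T

end Vale.Agent.P346
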