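import Vale.Agent.P346.Defs

/-!
# P346: squarefree multiplication matrices
-/

namespace Vale.Agent.P346

open MvPolynomial Finset Matrix

section SF

variable {V : Type*} [Fintype V] [DecidableEq V] {K : Type*} [Field K]

/-- coefficient of the squarefree monomial `x_D` -/
noncomputable def sf (g : MvPolynomial V K) (D : Finset V) : K :=
  g.coeff (∑ v ∈ D, Finsupp.single v 1)

/-- matrix of multiplication by `g` on `K[x]/(x_v^2)` in the basis of squarefree monomials -/
noncomputable def SM (g : MvPolynomial V K) : Matrix (Finset V) (Finset V) K :=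
  Matrix.of fun T S => if S ⊆ T then sf g (T \ S) else 0

namespace SFAux

/-- exponent vector of a squarefree monomial -/
noncomputable def ind (D : Finset V) : V →₀ ℕ := ∑ v ∈ D, Finsupp.single v 1

theorem ind_apply (D : Finset V) (v : V) : ind D v = if v ∈ D then 1 else 0 := by
  simp only [ind, Finsupp.finsetSum_apply, Finsupp.single_apply]
  rw [Finset.sum_ite_eq']

theorem ind_support (D : Finset V) : (ind D).support = D := by
  ext v
  rw [Finsupp.mem_support_iff, ind_apply]
  by_cases h : v ∈ D <;> simp [h]

theorem ind_injective : Function.Injective (ind : Finset V → V →₀ ℕ) := by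
  intro A B h
  rw [← ind_support A, h, ind_support]

theorem ind_add_ind_sdiff {A D : Finset V} (h : A ⊆ D) : ind A + ind (D \ A) = ind D := by
  ext v
  rw [Finsupp.add_apply, ind_apply, ind_apply, ind_apply]
  by_cases h1 : v ∈ A
  · have := h h1; simp [h1, this]
  · by_cases h2 : v ∈ D <;> simp [h1, h2]

theorem sf_mul (g h : MvPolynomial V K) (D : Finset V) :
    sf (g * h) D = ∑ A ∈ D.powerset, sf g A * sf h (D \ A) := by
  show coeff (ind D) (g * h) = ∑ A ∈ D.powerset, coeff (ind A) g * coeff (ind (D \ A)) h
  rw [MvPolynomial.coeff_mul]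
  symm
  refine Finset.sum_bij (fun A _ => (ind A, ind (D \ A))) ?_ ?_ ?_ ?_
  · intro A hA
    rw [Finset.HasAntidiagonal.mem_antidiagonal]
    exact ind_add_ind_sdiff (Finset.mem_powerset.1 hA)
  · intro A _ B _ hAB
    exact ind_injective (Prod.ext_iff.1 hAB).1
  · rintro ⟨a, b⟩ hab
    rw [Finset.HasAntidiagonal.mem_antidiagonal] at hab
    have hab : a + b = ind D := hab
    have hv : ∀ v, a v + b v = if v ∈ D then 1 else 0 := by
      intro v
      rw [← ind_apply, ← hab, Finsupp.add_apply]
    have hsub : a.support ⊆ D := by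
      intro v hv'
      have h1 := hv v
      by_contra h2
      rw [if_neg h2] at h1
      rw [Finsupp.mem_support_iff] at hv'
      omega
    refine ⟨a.support, Finset.mem_powerset.2 hsub, ?_⟩
    refine Prod.ext ?_ ?_
    · ext v
      show ind a.support v = a v
      rw [ind_apply]
      have h1 := hv v
      by_cases h2 : a v = 0
      · rw [if_neg (by rw [Finsupp.mem_support_iff]; exact fun h => h h2), h2]
      · rw [if_pos (Finsupp.mem_support_iff.2 h2)]
        split_ifs at h1 <;> omega
    · ext v
      show ind (D \ a.support) v = b v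
      rw [ind_apply]
      have h1 := hv v
      by_cases h2 : v ∈ D
      · rw [if_pos h2] at h1
        by_cases h3 : a v = 0
        · rw [if_pos (by simp [h2, h3])]; omega
        · rw [if_neg (by simp [h3])]; omega
      · rw [if_neg h2] at h1
        rw [if_neg (by simp [h2])]; omega
  · intro A _
    rfl

end SFAux

open SFAux

theorem SM_mul (g h : MvPolynomial V K) : SM (g * h) = SM g * SM h := by
  ext T S
  rw [Matrix.mul_apply]
  simp only [SM, Matrix.of_apply]
  by_cases hST : S ⊆ T
  · rw [if_pos hST, sf_mul]
    have e1 : ∑ R : Finset V, (if R ⊆ T then sf g (T \ R) else 0) *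
        (if S ⊆ R then sf h (R \ S) else 0)
        = ∑ R ∈ Finset.Icc S T, sf g (T \ R) * sf h (R \ S) := by
      rw [← Finset.sum_subset (Finset.subset_univ (Finset.Icc S T))]
      · refine Finset.sum_congr rfl fun R hR => ?_
        rw [Finset.mem_Icc] at hR
        rw [if_pos hR.2, if_pos hR.1]
      · intro R _ hR
        rw [Finset.mem_Icc, not_and_or] at hR
        rcases hR with hR | hR
        · rw [if_neg (fun h => hR h), mul_zero]
        · rw [if_neg (fun h => hR h), zero_mul]
    rw [e1]
    refine Finset.sum_bij' (fun A _ => T \ A) (fun R _ => T \ R) ?_ ?_ ?_ ?_ ?_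
    · intro A hA
      rw [Finset.mem_powerset] at hA
      rw [Finset.mem_Icc]
      refine ⟨?_, Finset.sdiff_subset⟩
      intro v hv
      rw [Finset.mem_sdiff]
      exact ⟨hST hv, fun h => (Finset.mem_sdiff.1 (hA h)).2 hv⟩
    · intro R hR
      rw [Finset.mem_Icc] at hR
      rw [Finset.mem_powerset]
      exact Finset.sdiff_subset_sdiff le_rfl hR.1
    · intro A hA
      rw [Finset.mem_powerset] at hA
      exact Finset.sdiff_sdiff_eq_self (hA.trans Finset.sdiff_subset)
    · intro R hR
      rw [Finset.mem_Icc] at hR
      exact Finset.sdiff_sdiff_eq_self hR.2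
    · intro A hA
      rw [Finset.mem_powerset] at hA
      have h1 : T \ (T \ A) = A := Finset.sdiff_sdiff_eq_self (hA.trans Finset.sdiff_subset)
      have h2 : (T \ S) \ A = (T \ A) \ S := by
        ext v; simp only [Finset.mem_sdiff]; tauto
      rw [h1, h2]
  · rw [if_neg hST]
    symm
    refine Finset.sum_eq_zero fun R _ => ?_
    by_cases h1 : R ⊆ T
    · by_cases h2 : S ⊆ R
      · exact absurd (h2.trans h1) hST
      · rw [if_neg h2, mul_zero]
    · rw [if_neg h1, zero_mul]

theorem SM_add (g h : MvPolynomial V K) : SM (g + h) = SM g + SM h := by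
  ext T S
  simp only [SM, Matrix.of_apply, Matrix.add_apply, sf, MvPolynomial.coeff_add]
  split_ifs <;> simp

theorem SM_zero : SM (0 : MvPolynomial V K) = 0 := by
  ext T S
  simp [SM, sf]

theorem SM_C_mul (a : K) (g : MvPolynomial V K) : SM (C a * g) = a • SM g := by
  ext T S
  simp only [SM, Matrix.of_apply, Matrix.smul_apply, sf, MvPolynomial.coeff_C_mul, smul_eq_mul]
  split_ifs <;> simp

theorem SM_sum {ι : Type*} (s : Finset ι) (g : ι → MvPolynomial V K) :
    SM (∑ i ∈ s, g i) = ∑ i ∈ s, SM (g i) := by
  classical
  induction s using Finset.induction_on with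
  | empty => simp [SM_zero]
  | insert x s hx ih => rw [Finset.sum_insert hx, Finset.sum_insert hx, SM_add, ih]

end SF

end Vale.Agent.P346
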