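import Vale.Agent.P346.Defs
import Vale.Agent.P346.SF
import Vale.Agent.P346.TauDef

/-! # P346, all fields: definitions used in the proof -/

namespace Vale.Agent.P346

open MvPolynomial Finset

/-! ## the weighted measure -/

section Measure

variable {V : Type*} [Fintype V] [DecidableEq V]

/-- number of left variables -/
def ldeg (side : V → Bool) (T : Finset V) : ℕ := (T.filter fun v => side v = true).card

/-- number of right variables -/
def rdeg (side : V → Bool) (T : Finset V) : ℕ := (T.filter fun v => side v = false).card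

/-- the weight `y ^ left / L ^ right` of a set of variables -/
noncomputable def wt (side : V → Bool) (y L : ℝ) (T : Finset V) : ℝ :=
  y ^ ldeg side T / L ^ rdeg side T

/-- total weight -/
noncomputable def totW (side : V → Bool) (y L : ℝ) : ℝ := ∑ T : Finset V, wt side y L T

/-- projection onto the squarefree monomials of bidegree `(i, j)` -/
noncomputable def PrG (F : Type*) [Field F] (side : V → Bool) (i j : ℕ) :
    Matrix (Finset V) (Finset V) F :=
  Matrix.diagonal fun S => if ldeg side S = i ∧ rdeg side S = j then 1 else 0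

/-- the measure: weighted sum of the ranks of multiplication by `g` from bidegree `(i, j)` to
`(i + k, j + k')` -/
noncomputable def muW {F : Type*} [Field F] (side : V → Bool) (y L : ℝ) (k k' : ℕ)
    (g : MvPolynomial V F) : ℝ :=
  ∑ i ∈ range (Fintype.card V + 1), ∑ j ∈ range (Fintype.card V + 1),
    y ^ i / L ^ j * ((PrG F side (i + k) (j + k') * SM g * PrG F side i j).rank : ℝ)

end Measure

/-! ## histories -/

/-- configurations of one layer: sets of pairs (site, index) -/
abbrev Cfg (n M : ℕ) : Type := Finset (Fin n × Fin M)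

/-- length of the initial run at the site `a` -/
def run {n M : ℕ} (τ : Cfg n M) (a : Fin n) : ℕ :=
  (Finset.univ.filter fun b : Fin M => ∀ b' ≤ b, (a, b') ∈ τ).card

/-- new rows from old rows -/
def nextRow {n M : ℕ} {F : Type*} [Field F] {𝒯 𝒮 : Type*} (A : Fin n → 𝒯 → 𝒮 → F)
    (v : Fin n → Fin M → Fin n → F) (c : Fin n) (T : 𝒯 × Cfg n M) (S : 𝒮 × Cfg n M) : F :=
  ∑ p ∈ T.2, if S.2 = T.2.erase p then v p.1 p.2 c * A p.1 T.1 S.1 else 0

/-- histories of length `t` -/
def Hist (n M : ℕ) : ℕ → Type
  | 0 => Unit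
  | t + 1 => Hist n M t × Cfg n M

noncomputable instance Hist.instFintype {n M : ℕ} : (t : ℕ) → Fintype (Hist n M t)
  | 0 => inferInstanceAs (Fintype Unit)
  | t + 1 =>
    have := Hist.instFintype (n := n) (M := M) t
    inferInstanceAs (Fintype (Hist n M t × Cfg n M))

/-- the rows after `t` layers -/
def rowsA {n M : ℕ} [NeZero n] {F : Type*} [Field F] (v : ℕ → Fin n → Fin M → Fin n → F) :
    (t : ℕ) → Fin n → Hist n M t → Hist n M t → F
  | 0 => fun a _ _ => if a = 0 then 1 else 0
  | t + 1 => nextRow (rowsA v t) (v t)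

/-- the weight of a history -/
def wH {n M : ℕ} (x : ℕ → ℝ) : (t : ℕ) → Hist n M t → ℝ
  | 0 => fun _ => 1
  | t + 1 => fun T => wH x t T.1 * x t ^ T.2.card

/-- pivot structure: for every `T` a set `R T` of labels such that the rows `A a T`, `a ∈ R T`,
are linearly independent, and every row is in the span of the pivot rows before it (the label
first, then the order `ord` of `T`) -/
structure IsPivot {n : ℕ} {F : Type*} [Field F] {𝒯 𝒮 : Type*} (ord : 𝒯 → ℕ)
    (A : Fin n → 𝒯 → 𝒮 → F) (R : 𝒯 → Finset (Fin n)) : Prop where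
  indep : LinearIndependent F fun p : {p : Fin n × 𝒯 // p.1 ∈ R p.2} => A p.1.1 p.1.2
  span : ∀ a T, A a T ∈ Submodule.span F
    {r | ∃ a' T', a' ∈ R T' ∧ (a' < a ∨ a' = a ∧ ord T' ≤ ord T) ∧ r = A a' T'}

/-- the generic substitution: `X (t, a, c) ↦ ∑ b, v t a b c • X (t, a, b)`, matrix form -/
noncomputable def gMat {n M : ℕ} {F : Type*} [Field F] (v : ℕ → Fin n → Fin M → Fin n → F)
    (t : Fin n) : Matrix (Fin n) (Fin n) (MvPolynomial (Fin n × Fin n × Fin M) F) :=
  Matrix.of fun a c => ∑ b, C (v t a b c) * X (t, a, b)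

/-- `IMM` after the substitution -/
noncomputable def gPoly {n M : ℕ} [NeZero n] {F : Type*} [Field F]
    (v : ℕ → Fin n → Fin M → Fin n → F) : MvPolynomial (Fin n × Fin n × Fin M) F :=
  (List.ofFn fun t : Fin n => gMat v t).prod 0 0

end Vale.Agent.P346
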