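import Vale.Agent.P346.GConnect

/-! # P346, all fields: [GMISC] -/

namespace Vale.Agent.P346

open MvPolynomial Finset

namespace GMiscAux

open GConnectAux

variable {n M : ℕ} {F : Type*} [Field F]

theorem card_of_rowsA [NeZero n] (v : ℕ → Fin n → Fin M → Fin n → F)
    (T S : Finset (Fin n × Fin n × Fin M)) :
    ∀ t (c : Fin n), rowsA v t c (proj T t) (proj S t) ≠ 0 →
      ∀ i < t, (slice T i).card = (slice S i).card + 1 := by
  intro t
  induction t with
  | zero => intro _ _ i hi; omega
  | succ t ih =>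
    intro c h i hi
    have h3 : rowsA v (t + 1) c (proj T (t + 1)) (proj S (t + 1)) =
        ∑ p ∈ slice T t, if slice S t = (slice T t).erase p then
          v t p.1 p.2 c * rowsA v t p.1 (proj T t) (proj S t) else 0 := rfl
    rw [h3] at h
    obtain ⟨p, hp, h4⟩ := Finset.exists_ne_zero_of_sum_ne_zero h
    by_cases h5 : slice S t = (slice T t).erase p
    · rw [if_pos h5] at h4
      rcases Nat.lt_succ_iff_lt_or_eq.1 hi with h6 | h6
      · exact ih p.1 (right_ne_zero_of_mul h4) i h6
      · rw [h6, h5, Finset.card_erase_of_mem hp]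
        have := Finset.card_pos.2 ⟨p, hp⟩
        omega
    · rw [if_neg h5] at h4
      exact absurd rfl h4

theorem ldeg_eq (word : Fin n → Bool) (D : Finset (Fin n × Fin n × Fin M)) (β : Bool) :
    (D.filter fun p => word p.1 = β).card =
      ∑ i : Fin n, if word i = β then (slice D i.val).card else 0 := by
  rw [Finset.card_eq_sum_card_fiberwise (f := fun p => p.1) (t := Finset.univ)
    (fun _ _ => Finset.mem_univ _)]
  refine Finset.sum_congr rfl fun i _ => ?_
  rw [← card_slice]
  by_cases h : word i = β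
  · rw [if_pos h]
    congr 1
    ext p
    rw [Finset.mem_filter, Finset.mem_filter, Finset.mem_filter]
    constructor
    · rintro ⟨⟨h1, _⟩, h2⟩; exact ⟨h1, h2⟩
    · rintro ⟨h1, h2⟩; exact ⟨⟨h1, by rw [h2]; exact h⟩, h2⟩
  · rw [if_neg h, Finset.card_eq_zero, Finset.eq_empty_iff_forall_notMem]
    intro p hp
    rw [Finset.mem_filter, Finset.mem_filter] at hp
    apply h
    rw [← hp.2]; exact hp.1.2

end GMiscAux

open GConnectAux GMiscAux in
/-- `gPoly` is bihomogeneous -/
theorem gPoly_bihom {n M : ℕ} [NeZero n] {F : Type*} [Field F]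
    (v : ℕ → Fin n → Fin M → Fin n → F) (word : Fin n → Bool)
    (D : Finset (Fin n × Fin n × Fin M)) (hD : sf (gPoly v) D ≠ 0) :
    ldeg (fun p => word p.1) D = cntT n word n ∧ rdeg (fun p => word p.1) D = cntF n word n := by
  classical
  have h1 : SM (gPoly v) D ∅ = sf (gPoly v) D := by
    simp [SM]
  have h2 : SM (gPoly v) D ∅ = rowsA v n 0 (proj D n) (proj ∅ n) := by
    rw [← Pt_n, SM_Pt v n le_rfl, if_pos]
    intro i hi
    ext p
    rw [GConnectAux.mem_slice, GConnectAux.mem_slice]
    constructor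
    · rintro ⟨h, -⟩; omega
    · rintro ⟨h, -⟩; omega
  rw [← h1, h2] at hD
  have h3 := card_of_rowsA v D ∅ n 0 hD
  have h4 : ∀ i : Fin n, (GConnectAux.slice D i.val).card = 1 := by
    intro i
    rw [h3 i.val i.isLt]
    have : GConnectAux.slice (∅ : Finset (Fin n × Fin n × Fin M)) i.val = ∅ := by
      rw [Finset.eq_empty_iff_forall_notMem]
      intro p hp
      rw [GConnectAux.mem_slice] at hp
      obtain ⟨_, h⟩ := hp
      simp at h
    rw [this, Finset.card_empty]
  constructor
  · show (D.filter fun p => word p.1 = true).card = _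
    rw [ldeg_eq]
    simp only [h4]
    unfold cntT
    rw [Finset.card_filter]
    refine Finset.sum_congr rfl fun i _ => ?_
    simp [i.isLt]
  · show (D.filter fun p => word p.1 = false).card = _
    rw [ldeg_eq]
    simp only [h4]
    unfold cntF
    rw [Finset.card_filter]
    refine Finset.sum_congr rfl fun i _ => ?_
    simp [i.isLt]

open GConnectAux GMiscAux in
theorem totW_eq {n M : ℕ} (word : Fin n → Bool) (y L : ℝ) (hy : 0 < y) (hL : 0 < L) :
    totW (fun p : Fin n × Fin n × Fin M => word p.1) y L =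
      ∏ i ∈ range n, (1 + (if h : i < n then (if word ⟨i, h⟩ then y else 1 / L) else 1)) ^
        (n * M) := by
  unfold totW
  have h1 : ∀ T : Finset (Fin n × Fin n × Fin M), wt (fun p => word p.1) y L T =
      ∏ p ∈ T, (if word p.1 then y else 1 / L) := fun T => wt_eq_prod _ y L T
  simp only [h1]
  rw [← Finset.powerset_univ, ← Finset.prod_one_add, Fintype.prod_prod_type, Finset.prod_range]
  refine Finset.prod_congr rfl fun i _ => ?_
  show ∏ _y : Fin n × Fin M, (1 + if word i = true then y else 1 / L) = _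
  rw [Finset.prod_const, Finset.card_univ, dif_pos i.isLt]
  simp

/-- the substitution maps `IMM` to `gPoly` -/
theorem gsubst {K : Type*} [Field K] {F : Type*} [Field F] [Algebra K F] {n : ℕ} [NeZero n]
    (v : ℕ → Fin n → Fin n → Fin n → F) :
    (eval₂Hom (C.comp (algebraMap K F)) fun p : Fin n × Fin n × Fin n =>
      (∑ b, C (v p.1 p.2.1 b p.2.2) * X (p.1, p.2.1, b) :
        MvPolynomial (Fin n × Fin n × Fin n) F)) (IMM K n n) = gPoly v := by
  set φ := (eval₂Hom (C.comp (algebraMap K F)) fun p : Fin n × Fin n × Fin n =>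
      (∑ b, C (v p.1 p.2.1 b p.2.2) * X (p.1, p.2.1, b) :
        MvPolynomial (Fin n × Fin n × Fin n) F)) with hφ
  unfold IMM gPoly
  have h1 : ∀ A : Matrix (Fin n) (Fin n) (MvPolynomial (Fin n × Fin n × Fin n) K),
      φ (A 0 0) = (φ.mapMatrix A) 0 0 := fun A => rfl
  have h2 : (φ.mapMatrix ∘ fun t : Fin n => (Matrix.of fun a b : Fin n =>
      (X (t, a, b) : MvPolynomial (Fin n × Fin n × Fin n) K))) = fun t => gMat v t := by
    funext t
    ext1 a b
    show φ (X (t, a, b)) = gMat v t a b
    rw [hφ, eval₂Hom_X']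
    rfl
  rw [h1, map_list_prod, List.map_ofFn, h2]

end Vale.Agent.P346
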