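import Mathlib

/-! # P346, all fields: the final numerical estimate -/

namespace Vale.Agent.P346

open Real

theorem gnum_pow4_le_exp (x : ℝ) (hx : 0 ≤ x) : x ^ 4 / 24 ≤ Real.exp x := by
  have := Real.pow_div_factorial_le_exp x hx 4
  simpa [Nat.factorial] using this

theorem gnum_pow5_le_exp (x : ℝ) (hx : 0 ≤ x) : x ^ 5 / 120 ≤ Real.exp x := by
  have := Real.pow_div_factorial_le_exp x hx 5
  simpa [Nat.factorial] using this

/-- `(1 - δ)^n ≥ 1/2` if `δ ≤ 1/(2n)` -/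
theorem gnum_half (n : ℕ) (hn : 0 < n) (δ : ℝ) (_h0 : 0 ≤ δ) (h : δ ≤ 1 / (2 * n)) :
    1 / 2 ≤ (1 - δ) ^ n := by
  have hn' : (0 : ℝ) < n := by exact_mod_cast hn
  have hn1 : (1 : ℝ) ≤ n := by exact_mod_cast hn
  have h1 : δ ≤ 1 := by
    refine h.trans ?_
    rw [div_le_one (by positivity)]
    linarith
  have h2 := one_add_mul_le_pow (a := -δ) (by linarith) n
  have h3 : n * δ ≤ 1 / 2 := by
    calc n * δ ≤ n * (1 / (2 * n)) := mul_le_mul_of_nonneg_left h hn'.le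
      _ = 1 / 2 := by field_simp
  have h4 : 1 + (n : ℝ) * -δ = 1 - n * δ := by ring
  rw [h4] at h2
  rw [sub_eq_add_neg 1 δ]
  linarith

theorem gnum_q4 (q : ℝ) (hq : 65536 ≤ q) : 24 * q ^ 2 < Real.exp q := by
  have h5 := gnum_pow4_le_exp q (by linarith)
  have h7 : (577 : ℝ) ≤ q ^ 2 := by nlinarith
  have h8 : q ^ 4 = q ^ 2 * q ^ 2 := by ring
  rw [h8] at h5
  have h9 : 577 * q ^ 2 ≤ q ^ 2 * q ^ 2 := mul_le_mul_of_nonneg_right h7 (by linarith)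
  linarith

theorem gnum_u5 (u : ℝ) (hu : 65536 ≤ u) : 3 * u ^ 4 ≤ Real.exp u := by
  have h5 := gnum_pow5_le_exp u (by linarith)
  have h7 : u ^ 5 = u ^ 4 * u := by ring
  rw [h7] at h5
  have h8 : u ^ 4 * 65536 ≤ u ^ 4 * u := mul_le_mul_of_nonneg_left hu (by positivity)
  have h9 : 0 ≤ u ^ 4 := by positivity
  linarith

theorem gnum_s2 (n : ℕ) (q : ℝ) (hq0 : 0 < q) (hn : (n : ℝ) ≤ q ^ 2 + 2 * q) :
    Real.exp (-(q + 2)) ≤ (q / (q + 1)) ^ n := by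
  have h1 : Real.exp (-(1 / q)) ≤ q / (q + 1) := by
    rw [Real.exp_neg, inv_eq_one_div, div_le_div_iff₀ (Real.exp_pos _) (by positivity), one_mul]
    have := Real.add_one_le_exp (1 / q)
    calc q + 1 = q * (1 / q + 1) := by field_simp; ring
      _ ≤ q * Real.exp (1 / q) := mul_le_mul_of_nonneg_left this hq0.le
  have h2 : Real.exp (-(1 / q)) ^ n ≤ (q / (q + 1)) ^ n :=
    pow_le_pow_left₀ (Real.exp_pos _).le h1 n
  refine le_trans ?_ h2
  rw [← Real.exp_nat_mul]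
  refine Real.exp_le_exp.2 ?_
  have h3 : (n : ℝ) / q ≤ q + 2 := by
    rw [div_le_iff₀ hq0]
    linarith [hn, sq q]
  have h4 : (n : ℝ) * -(1 / q) = -(n / q) := by ring
  rw [h4]
  linarith

theorem gnum_s3 (n : ℕ) (hn : 0 < n) (q y : ℝ) (hq : 65536 ≤ q) (hy0 : 0 < y)
    (hy : 1 + y ≤ q) (hn1 : q ^ 2 ≤ n) (hn2 : 2 * (n : ℝ) ≤ 3 * q ^ 2) :
    1 / 2 ≤ (1 - (y / (1 + y)) ^ n) ^ n := by
  have hq0 : 0 < q := by linarith
  have hn' : (0 : ℝ) < n := by exact_mod_cast hn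
  refine gnum_half n hn _ (by positivity) ?_
  have h1 : y / (1 + y) ≤ Real.exp (-(1 / (1 + y))) := by
    have := Real.add_one_le_exp (-(1 / (1 + y)))
    have h2 : y / (1 + y) = -(1 / (1 + y)) + 1 := by field_simp; ring
    rw [h2]
    exact this
  have h2 : (y / (1 + y)) ^ n ≤ Real.exp (-q) := by
    refine (pow_le_pow_left₀ (by positivity) h1 n).trans ?_
    rw [← Real.exp_nat_mul]
    refine Real.exp_le_exp.2 ?_
    have h3 : q ≤ n / (1 + y) := by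
      rw [le_div_iff₀ (by positivity)]
      calc q * (1 + y) ≤ q * q := mul_le_mul_of_nonneg_left hy hq0.le
        _ = q ^ 2 := (sq q).symm
        _ ≤ n := hn1
    have h4 : (n : ℝ) * -(1 / (1 + y)) = -(n / (1 + y)) := by ring
    rw [h4]
    linarith
  refine h2.trans ?_
  rw [Real.exp_neg, inv_eq_one_div]
  refine one_div_le_one_div_of_le (by positivity) ?_
  have h5 := gnum_q4 q hq
  have : 0 ≤ q ^ 2 := by positivity
  linarith

theorem gnum_s4 (n : ℕ) (hn : 0 < n) (q T A : ℝ) (hT : 65536 ≤ T) (hqT : T ^ 64 ≤ q)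
    (hA0 : 0 < A) (hA : A ≤ T ^ 17) (hn1 : q ^ 2 ≤ n) (hn2 : 2 * (n : ℝ) ≤ 3 * q ^ 2) :
    1 / 2 ≤ (1 - Real.exp (-(n / (q * A)))) ^ n := by
  have hT1 : 1 ≤ T := by linarith
  have hT0 : 0 < T := by linarith
  have hn' : (0 : ℝ) < n := by exact_mod_cast hn
  refine gnum_half n hn _ (Real.exp_pos _).le ?_
  obtain ⟨u, hu⟩ : ∃ u : ℝ, u = q / T ^ 17 := ⟨_, rfl⟩
  have hu47 : T ^ 47 ≤ u := by
    rw [hu, le_div_iff₀ (by positivity)]
    calc T ^ 47 * T ^ 17 = T ^ 64 := by rw [← pow_add]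
      _ ≤ q := hqT
  have hq0 : 0 < q := lt_of_lt_of_le (by positivity) hqT
  have hu0 : 0 < u := lt_of_lt_of_le (by positivity) hu47
  have hquT : q = u * T ^ 17 := by rw [hu, div_mul_cancel₀ _ (by positivity)]
  have hqu : q ≤ u ^ 2 := by
    have h1 : T ^ 17 ≤ u := (pow_le_pow_right₀ hT1 (by norm_num)).trans hu47
    calc q = u * T ^ 17 := hquT
      _ ≤ u * u := mul_le_mul_of_nonneg_left h1 hu0.le
      _ = u ^ 2 := (sq u).symm
  have hu65 : (65536 : ℝ) ≤ u :=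
    hT.trans ((le_self_pow₀ hT1 (by norm_num)).trans hu47)
  have h1 : Real.exp (-(n / (q * A))) ≤ Real.exp (-u) := by
    refine Real.exp_le_exp.2 (neg_le_neg ?_)
    rw [le_div_iff₀ (by positivity)]
    calc u * (q * A) = q * (u * A) := by ring
      _ ≤ q * (u * T ^ 17) :=
          mul_le_mul_of_nonneg_left (mul_le_mul_of_nonneg_left hA hu0.le) hq0.le
      _ = q ^ 2 := by rw [← hquT, sq]
      _ ≤ n := hn1
  refine h1.trans ?_
  rw [Real.exp_neg, inv_eq_one_div]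
  refine one_div_le_one_div_of_le (by positivity) ?_
  have h5 := gnum_u5 u hu65
  have h8 : q ^ 2 ≤ u ^ 4 := by
    calc q ^ 2 ≤ (u ^ 2) ^ 2 := pow_le_pow_left₀ hq0.le hqu 2
      _ = u ^ 4 := by rw [← pow_mul]
  linarith

/-- the comparison of the two sides -/
theorem gnum_s7 (q : ℝ) (hq : 65536 ≤ q)
    (h : 1 / q * (1 / q * (Real.exp (-(q + 2)) * (1 / 2) * (1 / 2))) ≤
      6 * Real.exp (-(3 * q))) : False := by
  have hq0 : 0 < q := by linarith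
  have e3 : Real.exp (-(q + 2)) ≤ 24 * q ^ 2 * Real.exp (-(3 * q)) := by
    have := mul_le_mul_of_nonneg_left h (by positivity : (0 : ℝ) ≤ 4 * q ^ 2)
    calc Real.exp (-(q + 2)) = 4 * q ^ 2 *
          (1 / q * (1 / q * (Real.exp (-(q + 2)) * (1 / 2) * (1 / 2)))) := by
          field_simp
          ring
      _ ≤ _ := this
      _ = _ := by ring
  have h1 : Real.exp (2 * q) ≤ 24 * q ^ 2 * Real.exp 2 := by
    have e1 : Real.exp (2 * q) = Real.exp (-(q + 2)) * Real.exp (3 * q + 2) := by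
      rw [← Real.exp_add]; ring_nf
    have e2 : Real.exp (-(3 * q)) * Real.exp (3 * q + 2) = Real.exp 2 := by
      rw [← Real.exp_add]; ring_nf
    rw [e1]
    calc Real.exp (-(q + 2)) * Real.exp (3 * q + 2)
        ≤ 24 * q ^ 2 * Real.exp (-(3 * q)) * Real.exp (3 * q + 2) :=
          mul_le_mul_of_nonneg_right e3 (Real.exp_pos _).le
      _ = 24 * q ^ 2 * (Real.exp (-(3 * q)) * Real.exp (3 * q + 2)) := by ring
      _ = 24 * q ^ 2 * Real.exp 2 := by rw [e2]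
  have h2 := gnum_q4 q hq
  have h3 : Real.exp 2 ≤ Real.exp q := Real.exp_le_exp.2 (by linarith)
  have h4 : 24 * q ^ 2 * Real.exp 2 < Real.exp (2 * q) := by
    calc 24 * q ^ 2 * Real.exp 2 < Real.exp q * Real.exp 2 :=
          mul_lt_mul_of_pos_right h2 (Real.exp_pos _)
      _ ≤ Real.exp q * Real.exp q := mul_le_mul_of_nonneg_left h3 (Real.exp_pos _).le
      _ = Real.exp (2 * q) := by rw [← Real.exp_add]; ring_nf
  linarith

theorem gnum_T (μ : ℕ) (hμ : (16 : ℝ) ≤ μ) :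
    3 / (2 : ℝ) ^ μ ≤ Real.exp (-((μ : ℝ) / 2)) := by
  have hlog : (0.69 : ℝ) < Real.log 2 := by
    have := Real.log_two_gt_d9
    linarith
  have hTexp : 3 * Real.exp ((μ : ℝ) / 2) ≤ (2 : ℝ) ^ μ := by
    have h1 : (2 : ℝ) ^ μ = Real.exp (μ * Real.log 2) := by
      rw [mul_comm, Real.exp_mul, Real.exp_log (by norm_num), Real.rpow_natCast]
    have h2 : (3 : ℝ) ≤ Real.exp (0.19 * μ) := by
      have := Real.add_one_le_exp (0.19 * (μ : ℝ))
      linarith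
    calc 3 * Real.exp ((μ : ℝ) / 2) ≤ Real.exp (0.19 * μ) * Real.exp ((μ : ℝ) / 2) :=
          mul_le_mul_of_nonneg_right h2 (Real.exp_pos _).le
      _ = Real.exp (0.69 * μ) := by rw [← Real.exp_add]; ring_nf
      _ ≤ Real.exp (μ * Real.log 2) := by
          refine Real.exp_le_exp.2 ?_
          rw [mul_comm]
          exact mul_le_mul_of_nonneg_left hlog.le (by linarith)
      _ = (2 : ℝ) ^ μ := h1.symm
  rw [Real.exp_neg, inv_eq_one_div, div_le_div_iff₀ (by positivity) (Real.exp_pos _), one_mul]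
  exact hTexp

theorem gnum_up1 (s q μ : ℝ) (hs : s ≤ Real.exp (μ * q / 16)) (X : ℝ)
    (hX0 : 0 ≤ X) (hX : X ≤ Real.exp (-(μ * q / 4))) (hμq : 16 * q ≤ μ * q) :
    s * (3 * X) ≤ 3 * Real.exp (-(3 * q)) := by
  calc s * (3 * X) ≤ Real.exp (μ * q / 16) * (3 * Real.exp (-(μ * q / 4))) :=
        mul_le_mul hs (mul_le_mul_of_nonneg_left hX (by norm_num)) (by positivity)
          (Real.exp_pos _).le
    _ = 3 * Real.exp (μ * q / 16 + -(μ * q / 4)) := by rw [Real.exp_add]; ring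
    _ ≤ 3 * Real.exp (-(3 * q)) := by
        refine mul_le_mul_of_nonneg_left (Real.exp_le_exp.2 ?_) (by norm_num)
        linarith

theorem gnum_up2 (s q μ : ℝ) (hq : 0 ≤ q) (hs0 : 0 ≤ s) (hs : s ≤ Real.exp (μ * q / 16)) (X : ℝ)
    (hX0 : 0 ≤ X) (hX : X ≤ Real.exp (-(μ * q / 2))) (hμq : 16 * q ≤ μ * q) :
    s ^ 2 * (3 * X) ≤ 3 * Real.exp (-(3 * q)) := by
  have h1 : s ^ 2 ≤ Real.exp (μ * q / 8) := by
    calc s ^ 2 ≤ Real.exp (μ * q / 16) ^ 2 := pow_le_pow_left₀ hs0 hs 2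
      _ = Real.exp (μ * q / 8) := by
          rw [← Real.exp_nat_mul]
          push_cast
          ring_nf
  calc s ^ 2 * (3 * X) ≤ Real.exp (μ * q / 8) * (3 * Real.exp (-(μ * q / 2))) :=
        mul_le_mul h1 (mul_le_mul_of_nonneg_left hX (by norm_num)) (by positivity)
          (Real.exp_pos _).le
    _ = 3 * Real.exp (μ * q / 8 + -(μ * q / 2)) := by rw [Real.exp_add]; ring
    _ ≤ 3 * Real.exp (-(3 * q)) := by
        refine mul_le_mul_of_nonneg_left (Real.exp_le_exp.2 ?_) (by norm_num)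
        linarith

theorem size_ge_G (n q μ m s : ℕ) (ρ : ℝ) (hμ : 16 ≤ μ) (hq : 2 ^ (64 * μ) ≤ q)
    (hn1 : q ^ 2 ≤ n) (hn2 : n ≤ q ^ 2 + 2 * q) (hρ1 : 1 < ρ) (hρ : ρ ^ q = 2 ^ μ)
    (hm : q ≤ 2 * m)
    (h : 1 / Real.sqrt (ρ ^ (8 * q) * ρ ^ (8 * q + 4)) *
        (1 / q * (((q : ℝ) / (q + 1)) * (1 - (ρ ^ (8 * q + 4) / (1 + ρ ^ (8 * q + 4))) ^ n) *
          (1 - Real.exp (-(n / (q * (ρ ^ (8 * q) * ρ ^ (8 * q + 4))))))) ^ n) ≤
      s * (3 * (3 / ρ ^ q) ^ m) + (s : ℝ) ^ 2 * (3 * (2 / Real.sqrt (ρ ^ (8 * q))) ^ q)) :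
    Real.exp ((μ : ℝ) * q / 16) ≤ s := by
  by_contra hcon
  push Not at hcon
  have hμ' : (16 : ℝ) ≤ μ := by exact_mod_cast hμ
  obtain ⟨T, hT⟩ : ∃ T : ℝ, T = 2 ^ μ := ⟨_, rfl⟩
  rw [← hT] at hρ
  have hT16 : (65536 : ℝ) ≤ T := by
    rw [hT]
    calc (65536 : ℝ) = 2 ^ 16 := by norm_num
      _ ≤ 2 ^ μ := pow_le_pow_right₀ (by norm_num) hμ
  have hT0 : 0 < T := by linarith
  have hT1 : 1 ≤ T := by linarith
  have hqT : T ^ 64 ≤ q := by
    have : (2 : ℝ) ^ (64 * μ) ≤ q := by exact_mod_cast hq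
    rwa [mul_comm, pow_mul, ← hT] at this
  have hTq : T ≤ q := (le_self_pow₀ hT1 (by norm_num)).trans hqT
  have hq0 : (0 : ℝ) < q := hT0.trans_le hTq
  have hq65 : (65536 : ℝ) ≤ q := hT16.trans hTq
  have hqn4 : 4 ≤ q := by
    have : (4 : ℝ) ≤ q := by linarith
    exact_mod_cast this
  have hn1' : (q : ℝ) ^ 2 ≤ n := by exact_mod_cast hn1
  have hn2' : (n : ℝ) ≤ q ^ 2 + 2 * q := by exact_mod_cast hn2
  have hn0 : (0 : ℝ) < n := lt_of_lt_of_le (by positivity) hn1'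
  have hnn : 0 < n := by exact_mod_cast hn0
  -- the parameters `L` and `y`
  have hL : ρ ^ (8 * q) = T ^ 8 := by rw [mul_comm, pow_mul, hρ]
  obtain ⟨y, hy⟩ : ∃ y : ℝ, y = ρ ^ (8 * q + 4) := ⟨_, rfl⟩
  rw [← hy, hL, hρ] at h
  have hρ4 : ρ ^ 4 ≤ T := by
    rw [← hρ]
    exact pow_le_pow_right₀ hρ1.le hqn4
  have hρ4' : 1 ≤ ρ ^ 4 := one_le_pow₀ hρ1.le
  have hyeq : y = T ^ 8 * ρ ^ 4 := by rw [hy, pow_add, hL]
  have hy9 : y ≤ T ^ 9 := by
    rw [hyeq]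
    calc T ^ 8 * ρ ^ 4 ≤ T ^ 8 * T := mul_le_mul_of_nonneg_left hρ4 (by positivity)
      _ = T ^ 9 := (pow_succ T 8).symm
  have hy1 : 1 ≤ y := by
    rw [hyeq]
    exact one_le_mul_of_one_le_of_one_le (one_le_pow₀ hT1) hρ4'
  have hy0 : 0 < y := by linarith
  have hLy : T ^ 8 * y ≤ T ^ 17 := by
    calc T ^ 8 * y ≤ T ^ 8 * T ^ 9 := mul_le_mul_of_nonneg_left hy9 (by positivity)
      _ = T ^ 17 := by rw [← pow_add]
  have hLy0 : 0 < T ^ 8 * y := by positivity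
  have h9q : T ^ 9 ≤ q := (pow_le_pow_right₀ hT1 (by norm_num)).trans hqT
  have hsq : Real.sqrt (T ^ 8 * y) ≤ q := by
    have h1 : T ^ 8 * y ≤ (T ^ 9) ^ 2 := by
      calc T ^ 8 * y ≤ T ^ 17 := hLy
        _ ≤ T ^ 18 := pow_le_pow_right₀ hT1 (by norm_num)
        _ = (T ^ 9) ^ 2 := by rw [← pow_mul]
    calc Real.sqrt (T ^ 8 * y) ≤ Real.sqrt ((T ^ 9) ^ 2) := Real.sqrt_le_sqrt h1
      _ = T ^ 9 := Real.sqrt_sq (by positivity)
      _ ≤ (q : ℝ) := h9q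
  have hs1 : 1 / (q : ℝ) ≤ 1 / Real.sqrt (T ^ 8 * y) :=
    one_div_le_one_div_of_le (Real.sqrt_pos.2 hLy0) hsq
  have hs2 := gnum_s2 n q hq0 hn2'
  have h2n : 2 * (n : ℝ) ≤ 3 * (q : ℝ) ^ 2 := by
    have : 4 * (q : ℝ) ≤ q * q := mul_le_mul_of_nonneg_right (by linarith) hq0.le
    rw [sq] at hn2' ⊢
    linarith
  have h1y : 1 + y ≤ q := by
    calc 1 + y ≤ 2 * T ^ 9 := by linarith [one_le_pow₀ hT1 (n := 9)]
      _ ≤ T * T ^ 9 := mul_le_mul_of_nonneg_right (by linarith) (by positivity)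
      _ = T ^ 10 := (pow_succ' T 9).symm
      _ ≤ T ^ 64 := pow_le_pow_right₀ hT1 (by norm_num)
      _ ≤ (q : ℝ) := hqT
  have hs3 := gnum_s3 n hnn q y hq65 hy0 h1y hn1' h2n
  have hs4 := gnum_s4 n hnn q T (T ^ 8 * y) hT16 hqT hLy0 hLy hn1' h2n
  -- lower bound of the left hand side
  have hlow : 1 / (q : ℝ) * (1 / q * (Real.exp (-(q + 2)) * (1 / 2) * (1 / 2))) ≤
      s * (3 * (3 / T) ^ m) + (s : ℝ) ^ 2 * (3 * (2 / Real.sqrt (T ^ 8)) ^ q) := by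
    refine le_trans ?_ h
    rw [mul_pow, mul_pow]
    have he := Real.exp_pos (-((q : ℝ) + 2))
    refine mul_le_mul hs1 (mul_le_mul_of_nonneg_left ?_ (by positivity)) (by positivity)
      (by positivity)
    refine mul_le_mul (mul_le_mul hs2 hs3 (by norm_num) (by positivity)) hs4 (by norm_num) ?_
    exact mul_nonneg (by positivity) (by linarith)
  have h3T : 3 / T ≤ Real.exp (-((μ : ℝ) / 2)) := by
    rw [hT]
    exact gnum_T μ hμ'
  have hm' : (q : ℝ) ≤ 2 * m := by exact_mod_cast hm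
  have hr1 : (3 / T) ^ m ≤ Real.exp (-(μ * q / 4)) := by
    refine (pow_le_pow_left₀ (by positivity) h3T m).trans ?_
    rw [← Real.exp_nat_mul]
    refine Real.exp_le_exp.2 ?_
    have : (μ : ℝ) * q ≤ μ * (2 * m) := mul_le_mul_of_nonneg_left hm' (by linarith)
    linarith
  have hr2 : (2 / Real.sqrt (T ^ 8)) ^ q ≤ Real.exp (-(μ * q / 2)) := by
    have h1 : Real.sqrt (T ^ 8) = T ^ 4 := by
      have : T ^ 8 = (T ^ 4) ^ 2 := by rw [← pow_mul]
      rw [this, Real.sqrt_sq (by positivity)]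
    have h2 : 2 / T ^ 4 ≤ 3 / T := by
      rw [div_le_div_iff₀ (by positivity) hT0]
      have h3 : T ≤ T ^ 4 := le_self_pow₀ hT1 (by norm_num)
      linarith
    rw [h1]
    refine (pow_le_pow_left₀ (by positivity) (h2.trans h3T) q).trans ?_
    rw [← Real.exp_nat_mul]
    refine Real.exp_le_exp.2 ?_
    linarith
  have hs0 : (0 : ℝ) ≤ s := Nat.cast_nonneg s
  have hμq : (16 : ℝ) * q ≤ μ * q := mul_le_mul_of_nonneg_right hμ' hq0.le
  have hup1 := gnum_up1 s q μ hcon.le ((3 / T) ^ m) (by positivity) hr1 hμq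
  have hup2 := gnum_up2 s q μ hq0.le hs0 hcon.le ((2 / Real.sqrt (T ^ 8)) ^ q) (by positivity)
    hr2 hμq
  refine gnum_s7 q hq65 ?_
  linarith

end Vale.Agent.P346
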