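import Vale.Agent.P346.GDefs
import Vale.Agent.P346.Rank

/-!
# P346, all fields: the weighted measure and products
-/

namespace Vale.Agent.P346

open MvPolynomial Finset

section GRANK

variable {V : Type*} [Fintype V] [DecidableEq V] {F : Type*} [Field F] (side : V → Bool)
  {y L : ℝ} (hy : 0 < y) (hL : 0 < L)

namespace GRankAux

/-- weight counting the left variables -/
def wl (side : V → Bool) : V → ℕ := fun v => if side v = true then 1 else 0
/-- weight counting the right variables -/
def wr (side : V → Bool) : V → ℕ := fun v => if side v = false then 1 else 0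

omit [Fintype V] [DecidableEq V] in
theorem weight_ind (w : V → ℕ) (D : Finset V) :
    Finsupp.weight w (SFAux.ind D) = ∑ v ∈ D, w v := by
  unfold SFAux.ind
  rw [map_sum]
  refine Finset.sum_congr rfl fun v _ => ?_
  rw [Finsupp.weight_apply, Finsupp.sum_single_index] <;> simp

omit [Fintype V] [DecidableEq V] in
theorem weight_wl (D : Finset V) : Finsupp.weight (wl side) (SFAux.ind D) = ldeg side D := by
  rw [weight_ind, ldeg, Finset.card_filter]
  rfl

omit [Fintype V] [DecidableEq V] in
theorem weight_wr (D : Finset V) : Finsupp.weight (wr side) (SFAux.ind D) = rdeg side D := by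
  rw [weight_ind, rdeg, Finset.card_filter]
  rfl

/-- bihomogeneous polynomials -/
def BH (g : MvPolynomial V F) (a b : ℕ) : Prop :=
  IsWeightedHomogeneous (wl side) g a ∧ IsWeightedHomogeneous (wr side) g b

omit [Fintype V] [DecidableEq V] in
theorem BH.prod {ι : Type*} (s : Finset ι) (q : ι → MvPolynomial V F) (a b : ι → ℕ)
    (h : ∀ x ∈ s, BH side (q x) (a x) (b x)) :
    BH side (∏ x ∈ s, q x) (∑ x ∈ s, a x) (∑ x ∈ s, b x) :=
  ⟨IsWeightedHomogeneous.prod s q a fun x hx => (h x hx).1,
    IsWeightedHomogeneous.prod s q b fun x hx => (h x hx).2⟩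

omit [Fintype V] [DecidableEq V] in
theorem BH.sf_ne {g : MvPolynomial V F} {a b : ℕ} (h : BH side g a b) {D : Finset V}
    (hD : sf g D ≠ 0) : ldeg side D = a ∧ rdeg side D = b := by
  have hD' : coeff (SFAux.ind D) g ≠ 0 := hD
  refine ⟨?_, ?_⟩
  · rw [← weight_wl]; exact h.1 hD'
  · rw [← weight_wr]; exact h.2 hD'

omit [Fintype V] in
theorem ldeg_sdiff {S T : Finset V} (h : S ⊆ T) :
    ldeg side T = ldeg side S + ldeg side (T \ S) := by
  unfold ldeg
  rw [Finset.card_filter, Finset.card_filter, Finset.card_filter, add_comm,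
    Finset.sum_sdiff h]

omit [Fintype V] in
theorem rdeg_sdiff {S T : Finset V} (h : S ⊆ T) :
    rdeg side T = rdeg side S + rdeg side (T \ S) := by
  unfold rdeg
  rw [Finset.card_filter, Finset.card_filter, Finset.card_filter, add_comm,
    Finset.sum_sdiff h]

/-- a bihomogeneous polynomial shifts the bidegree -/
theorem BH.shift {g : MvPolynomial V F} {a b : ℕ} (h : BH side g a b) (i j : ℕ) :
    SM g * PrG F side i j = PrG F side (i + a) (j + b) * (SM g * PrG F side i j) := by
  ext T S
  simp only [PrG, Matrix.diagonal_mul, Matrix.mul_diagonal, SM, Matrix.of_apply]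
  by_cases hS : ldeg side S = i ∧ rdeg side S = j
  · by_cases hST : S ⊆ T
    · by_cases h0 : sf g (T \ S) = 0
      · simp [h0]
      · have h1 := h.sf_ne side h0
        have h2 := ldeg_sdiff side hST
        have h3 := rdeg_sdiff side hST
        rw [if_pos (show ldeg side T = i + a ∧ rdeg side T = j + b by omega), one_mul]
    · simp [hST]
  · simp [hS]

theorem PrG_mul_PrG_of_ne {i j i' j' : ℕ} (h : ¬ (i = i' ∧ j = j')) :
    PrG F side i j * PrG F side i' j' = 0 := by
  unfold PrG
  rw [Matrix.diagonal_mul_diagonal]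
  ext T S
  rw [Matrix.diagonal_apply]
  by_cases hTS : T = S
  · rw [if_pos hTS]
    by_cases h1 : ldeg side T = i ∧ rdeg side T = j
    · have h2 : ¬ (ldeg side T = i' ∧ rdeg side T = j') := fun h3 => h (by omega)
      rw [if_neg h2, mul_zero]; rfl
    · rw [if_neg h1, zero_mul]; rfl
  · rw [if_neg hTS]; rfl

/-- vanishing in the wrong bidegree -/
theorem BH.rank_eq_zero {g : MvPolynomial V F} {a b : ℕ} (h : BH side g a b) (i j k k' : ℕ)
    (hne : ¬ (k = a ∧ k' = b)) :
    (PrG F side (i + k) (j + k') * SM g * PrG F side i j).rank = 0 := by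
  rw [Matrix.mul_assoc, h.shift, ← Matrix.mul_assoc, PrG_mul_PrG_of_ne side (by omega),
    Matrix.zero_mul]
  exact Matrix.rank_zero

theorem rank_PrG_le (i j : ℕ) : (PrG F side i j).rank ≤
    (univ.filter fun S : Finset V => ldeg side S = i ∧ rdeg side S = j).card := by
  classical
  unfold PrG
  rw [Matrix.rank_diagonal, Fintype.card_subtype]
  refine Finset.card_le_card fun S hS => ?_
  rw [Finset.mem_filter] at hS ⊢
  refine ⟨Finset.mem_univ _, ?_⟩
  by_contra h
  exact hS.2 (if_neg h)

/-- the rank for a product of bihomogeneous polynomials, bounded through any subproduct -/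
theorem rank_prod_sub_le {J : Type*} [Fintype J] [DecidableEq J]
    (q : J → MvPolynomial V F) (a b : J → ℕ) (h : ∀ x, BH side (q x) (a x) (b x))
    (i j k k' : ℕ) (S : Finset J) :
    (PrG F side (i + k) (j + k') * SM (∏ x, q x) * PrG F side i j).rank ≤
      (univ.filter fun T : Finset V => ldeg side T = i + ∑ x ∈ S, a x ∧
        rdeg side T = j + ∑ x ∈ S, b x).card := by
  have hS : BH side (∏ x ∈ S, q x) (∑ x ∈ S, a x) (∑ x ∈ S, b x) :=
    BH.prod side S q a b fun x _ => h x
  rw [← Finset.prod_compl_mul_prod S, SM_mul, Matrix.mul_assoc, Matrix.mul_assoc, hS.shift side i j,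
    ← Matrix.mul_assoc, ← Matrix.mul_assoc]
  exact (Matrix.rank_mul_le_left _ _).trans ((Matrix.rank_mul_le_right _ _).trans
    (rank_PrG_le side _ _))

/-- the part of left degree `a` -/
noncomputable def lp (g : MvPolynomial V F) (a : ℕ) : MvPolynomial V F :=
  weightedHomogeneousComponent (wl side) a g

omit [Fintype V] [DecidableEq V] in
theorem weight_add (m : V →₀ ℕ) :
    Finsupp.weight (wl side) m + Finsupp.weight (wr side) m =
      Finsupp.weight (1 : V → ℕ) m := by
  simp only [Finsupp.weight_apply, Finsupp.sum]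
  rw [← Finset.sum_add_distrib]
  refine Finset.sum_congr rfl fun v _ => ?_
  cases hv : side v <;> simp [wl, wr, hv]

omit [Fintype V] [DecidableEq V] in
theorem lp_BH {g : MvPolynomial V F} {d : ℕ} (hg : g.IsHomogeneous d) (a : ℕ)
    (ha : a ≤ d) : BH side (lp side g a) a (d - a) := by
  refine ⟨weightedHomogeneousComponent_isWeightedHomogeneous a g, ?_⟩
  intro m hm
  unfold lp at hm
  rw [coeff_weightedHomogeneousComponent] at hm
  split_ifs at hm with h1
  · have h2 : Finsupp.weight (1 : V → ℕ) m = d := hg hm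
    have h3 := weight_add side m
    omega
  · exact absurd rfl hm

omit [Fintype V] [DecidableEq V] in
theorem sum_lp {g : MvPolynomial V F} {d : ℕ} (hg : g.IsHomogeneous d) :
    ∑ a ∈ Finset.range (d + 1), lp side g a = g := by
  ext m
  rw [MvPolynomial.coeff_sum]
  simp only [lp, coeff_weightedHomogeneousComponent]
  by_cases h0 : coeff m g = 0
  · simp [h0]
  · have h2 : Finsupp.weight (1 : V → ℕ) m = d := hg h0
    have h3 := weight_add side m
    rw [Finset.sum_ite_eq, if_pos]
    rw [Finset.mem_range]; omega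

include hy hL

omit [DecidableEq V] in
/-- summing the dimensions of shifted bidegrees -/
theorem sum_card_le (N a b : ℕ) :
    ∑ i ∈ range N, ∑ j ∈ range N, y ^ i / L ^ j *
      ((univ.filter fun T : Finset V => ldeg side T = i + a ∧ rdeg side T = j + b).card : ℝ) ≤
      totW side y L * (L ^ b / y ^ a) := by
  classical
  have h1 : ∀ i j : ℕ, y ^ i / L ^ j *
      ((univ.filter fun T : Finset V => ldeg side T = i + a ∧ rdeg side T = j + b).card : ℝ) =
      ∑ T : Finset V, if i = ldeg side T - a ∧ j = rdeg side T - b ∧ a ≤ ldeg side T ∧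
        b ≤ rdeg side T then wt side y L T * (L ^ b / y ^ a) else 0 := by
    intro i j
    rw [Finset.card_filter]
    push_cast
    rw [Finset.mul_sum]
    refine Finset.sum_congr rfl fun T _ => ?_
    by_cases h : ldeg side T = i + a ∧ rdeg side T = j + b
    · rw [if_pos h, if_pos (by omega), mul_one, wt, h.1, h.2, pow_add, pow_add]
      field_simp
    · rw [if_neg h, if_neg (by omega), mul_zero]
  rw [Finset.sum_congr rfl fun i _ => Finset.sum_congr rfl fun j _ => h1 i j]
  have h2 : ∀ i : ℕ, ∑ j ∈ range N, ∑ T : Finset V, (if i = ldeg side T - a ∧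
      j = rdeg side T - b ∧ a ≤ ldeg side T ∧
        b ≤ rdeg side T then wt side y L T * (L ^ b / y ^ a) else 0) =
      ∑ T : Finset V, ∑ j ∈ range N, (if i = ldeg side T - a ∧
      j = rdeg side T - b ∧ a ≤ ldeg side T ∧
        b ≤ rdeg side T then wt side y L T * (L ^ b / y ^ a) else 0) :=
    fun i => Finset.sum_comm
  rw [Finset.sum_congr rfl fun i _ => h2 i, Finset.sum_comm, totW, Finset.sum_mul]
  refine Finset.sum_le_sum fun T _ => ?_
  have hc : 0 ≤ wt side y L T * (L ^ b / y ^ a) := by unfold wt; positivity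
  calc ∑ i ∈ range N, ∑ j ∈ range N, (if i = ldeg side T - a ∧
      j = rdeg side T - b ∧ a ≤ ldeg side T ∧
        b ≤ rdeg side T then wt side y L T * (L ^ b / y ^ a) else 0)
      ≤ ∑ i ∈ range N, ∑ j ∈ range N, (if i = ldeg side T - a then
        (if j = rdeg side T - b then wt side y L T * (L ^ b / y ^ a) else 0) else 0) := by
        refine Finset.sum_le_sum fun i _ => Finset.sum_le_sum fun j _ => ?_
        by_cases hi : i = ldeg side T - a
        · by_cases hj : j = rdeg side T - b
          · rw [if_pos hi, if_pos hj]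
            split_ifs
            · exact le_rfl
            · exact hc
          · rw [if_neg (fun h => hj h.2.1), if_pos hi, if_neg hj]
        · rw [if_neg (fun h => hi h.1), if_neg hi]
    _ ≤ ∑ i ∈ range N, (if i = ldeg side T - a then wt side y L T * (L ^ b / y ^ a) else 0) := by
        refine Finset.sum_le_sum fun i _ => ?_
        split_ifs with hi
        · rw [Finset.sum_ite_eq']
          split_ifs
          · exact le_rfl
          · exact hc
        · simp
    _ ≤ wt side y L T * (L ^ b / y ^ a) := by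
        rw [Finset.sum_ite_eq']
        split_ifs
        · exact le_rfl
        · exact hc

end GRankAux

open GRankAux

include hy hL

theorem muW_nonneg (k k' : ℕ) (g : MvPolynomial V F) : 0 ≤ muW side y L k k' g := by
  unfold muW
  exact Finset.sum_nonneg fun i _ => Finset.sum_nonneg fun j _ => by positivity

omit hy hL in
theorem muW_zero (k k' : ℕ) : muW side y L k k' (0 : MvPolynomial V F) = 0 := by
  unfold muW
  refine Finset.sum_eq_zero fun i _ => Finset.sum_eq_zero fun j _ => ?_
  rw [SM_zero, Matrix.mul_zero, Matrix.zero_mul, Matrix.rank_zero]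
  simp

theorem muW_sum_le (k k' : ℕ) {ι : Type*} (s : Finset ι) (g : ι → MvPolynomial V F) :
    muW side y L k k' (∑ x ∈ s, g x) ≤ ∑ x ∈ s, muW side y L k k' (g x) := by
  unfold muW
  have h : ∑ x ∈ s, ∑ i ∈ range (Fintype.card V + 1), ∑ j ∈ range (Fintype.card V + 1),
      y ^ i / L ^ j * ((PrG F side (i + k) (j + k') * SM (g x) * PrG F side i j).rank : ℝ) =
      ∑ i ∈ range (Fintype.card V + 1), ∑ j ∈ range (Fintype.card V + 1), ∑ x ∈ s,
      y ^ i / L ^ j * ((PrG F side (i + k) (j + k') * SM (g x) * PrG F side i j).rank : ℝ) := by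
    rw [Finset.sum_comm]
    exact Finset.sum_congr rfl fun i _ => Finset.sum_comm
  rw [h]
  refine Finset.sum_le_sum fun i _ => Finset.sum_le_sum fun j _ => ?_
  rw [← Finset.mul_sum]
  refine mul_le_mul_of_nonneg_left ?_ (by positivity)
  rw [SM_sum, Matrix.mul_sum, Matrix.sum_mul]
  exact_mod_cast RankAux.rank_sum_le _ _

theorem muW_C_mul_le (k k' : ℕ) (a : F) (g : MvPolynomial V F) :
    muW side y L k k' (C a * g) ≤ muW side y L k k' g := by
  unfold muW
  refine Finset.sum_le_sum fun i _ => Finset.sum_le_sum fun j _ => ?_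
  refine mul_le_mul_of_nonneg_left ?_ (by positivity)
  rw [SM_C_mul, Matrix.mul_smul, Matrix.smul_mul]
  have h : a • (PrG F side (i + k) (j + k') * SM g * PrG F side i j)
      = (a • (1 : Matrix (Finset V) (Finset V) F)) *
        (PrG F side (i + k) (j + k') * SM g * PrG F side i j) := by
    rw [Matrix.smul_mul, Matrix.one_mul]
  rw [h]
  exact_mod_cast Matrix.rank_mul_le_right _ _

/-- same proof as `mu_prod_le`: expand in bidegrees, take the subproduct of the factors with
`L ^ b / y ^ a < 1`, and `∑_{i,j} y^i L^{-j} rank (PrG (i + a) (j + b)) ≤ y^{-a} L^b totW`. -/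
theorem muW_prod_le {J : Type*} [Fintype J] (Q : J → MvPolynomial V F) (d : J → ℕ)
    (hQ : ∀ x, (Q x).IsHomogeneous (d x)) (k k' : ℕ) (hd : ∑ x, d x = k + k') :
    muW side y L k k' (∏ x, Q x) ≤
      totW side y L * Real.sqrt (L ^ k' / y ^ k) * ∏ x, tau y L (d x) := by
  classical
  have hD0 : 0 ≤ totW side y L := by
    unfold totW wt
    exact Finset.sum_nonneg fun T _ => by positivity
  -- the weights
  set wz : (x : J) → ℕ → ℝ := fun x a => min (Real.sqrt (L ^ (d x - a) / y ^ a))
    (Real.sqrt (y ^ a / L ^ (d x - a))) with hwz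
  have hwz0 : ∀ x a, 0 ≤ wz x a := fun x a => le_min (Real.sqrt_nonneg _) (Real.sqrt_nonneg _)
  have hprod : ∏ x, tau y L (d x) =
      ∑ f ∈ Fintype.piFinset (fun x => Finset.range (d x + 1)), ∏ x, wz x (f x) := by
    unfold tau
    rw [Finset.prod_univ_sum]
  have hQprod : ∏ x, Q x =
      ∑ f ∈ Fintype.piFinset (fun x => Finset.range (d x + 1)), ∏ x, lp side (Q x) (f x) := by
    rw [← Finset.prod_univ_sum]
    exact Finset.prod_congr rfl fun x _ => (sum_lp side (hQ x)).symm
  rw [hQprod, hprod, Finset.mul_sum]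
  refine (muW_sum_le side hy hL k k' _ _).trans ?_
  refine Finset.sum_le_sum fun f hf => ?_
  have hf' : ∀ x, f x ≤ d x := by
    intro x
    have := Fintype.mem_piFinset.1 hf x
    rw [Finset.mem_range] at this
    omega
  have hBH : ∀ x, BH side (lp side (Q x) (f x)) (f x) (d x - f x) :=
    fun x => lp_BH side (hQ x) _ (hf' x)
  by_cases hk : ∑ x, f x = k
  swap
  · have hB := BH.prod side univ (fun x => lp side (Q x) (f x)) f (fun x => d x - f x)
      fun x _ => hBH x
    have h0 : muW side y L k k' (∏ x, lp side (Q x) (f x)) = 0 := by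
      unfold muW
      refine Finset.sum_eq_zero fun i _ => Finset.sum_eq_zero fun j _ => ?_
      rw [hB.rank_eq_zero side i j k k' (fun h => hk h.1.symm), Nat.cast_zero, mul_zero]
    rw [h0]
    exact mul_nonneg (mul_nonneg hD0 (Real.sqrt_nonneg _)) (Finset.prod_nonneg fun x _ => hwz0 x _)
  have hk' : ∑ x, (d x - f x) = k' := by
    have h1 : ∑ x, (d x - f x) + ∑ x, f x = ∑ x, d x := by
      rw [← Finset.sum_add_distrib]
      exact Finset.sum_congr rfl fun x _ => Nat.sub_add_cancel (hf' x)
    omega
  set X : J → ℝ := fun x => L ^ (d x - f x) / y ^ (f x) with hX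
  have hX0 : ∀ x, 0 < X x := fun x => by positivity
  set S : Finset J := univ.filter fun x => X x < 1 with hS
  have h2 : muW side y L k k' (∏ x, lp side (Q x) (f x)) ≤
      totW side y L * (L ^ (∑ x ∈ S, (d x - f x)) / y ^ (∑ x ∈ S, f x)) := by
    refine le_trans ?_ (sum_card_le side hy hL (Fintype.card V + 1) (∑ x ∈ S, f x)
      (∑ x ∈ S, (d x - f x)))
    unfold muW
    refine Finset.sum_le_sum fun i _ => Finset.sum_le_sum fun j _ => ?_
    refine mul_le_mul_of_nonneg_left ?_ (by positivity)
    exact_mod_cast rank_prod_sub_le side (fun x => lp side (Q x) (f x)) f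
      (fun x => d x - f x) hBH i j k k' S
  have h3 : L ^ (∑ x ∈ S, (d x - f x)) / y ^ (∑ x ∈ S, f x) = ∏ x ∈ S, X x := by
    rw [Finset.prod_div_distrib, Finset.prod_pow_eq_pow_sum, Finset.prod_pow_eq_pow_sum]
  have h4 : ∏ x ∈ S, X x = ∏ x, (if X x < 1 then X x else 1) := by
    rw [hS, Finset.prod_filter]
  have h5 : ∏ x, (if X x < 1 then X x else 1) = Real.sqrt (L ^ k' / y ^ k) * ∏ x, wz x (f x) := by
    have h6 : ∀ x, (if X x < 1 then X x else 1) = Real.sqrt (X x) * wz x (f x) := by
      intro x
      rw [RankAux.min_eq (hX0 x)]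
      have : 1 / X x = y ^ (f x) / L ^ (d x - f x) := by
        simp only [hX]; rw [one_div_div]
      rw [this]
    rw [Finset.prod_congr rfl fun x _ => h6 x, Finset.prod_mul_distrib]
    congr 1
    have h7 : ∏ x, X x = L ^ k' / y ^ k := by
      simp only [hX]
      rw [Finset.prod_div_distrib, Finset.prod_pow_eq_pow_sum, Finset.prod_pow_eq_pow_sum, hk, hk']
    rw [← h7, Real.sqrt_prod _ fun x _ => (hX0 x).le]
  rw [h3, h4, h5] at h2
  calc _ ≤ _ := h2
    _ = _ := by ring

/-- lower bound: rows of `SM g` in different bidegrees live in different blocks -/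
theorem le_muW (g : MvPolynomial V F) (k k' : ℕ)
    (hg : ∀ D, sf g D ≠ 0 → ldeg side D = k ∧ rdeg side D = k') (I : Finset (Finset V))
    (hI : LinearIndependent F fun T : {T // T ∈ I} => SM g T.1) :
    L ^ k' / y ^ k * ∑ T ∈ I, wt side y L T ≤ muW side y L k k' g := by
  classical
  -- entries
  have hent : ∀ T S : Finset V, SM g T S ≠ 0 →
      ldeg side T = ldeg side S + k ∧ rdeg side T = rdeg side S + k' := by
    intro T S h
    have h0 : S ⊆ T := by
      by_contra hn
      apply h
      simp [SM, hn]
    have h1 : sf g (T \ S) ≠ 0 := by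
      intro hn
      apply h
      simp [SM, hn]
    have h2 := hg _ h1
    have h3 := ldeg_sdiff side h0
    have h4 := rdeg_sdiff side h0
    omega
  -- every row in `I` is non-zero
  have hrow : ∀ T ∈ I, ∃ S, SM g T S ≠ 0 := by
    intro T hT
    have h1 := hI.ne_zero ⟨T, hT⟩
    by_contra hn
    push Not at hn
    exact h1 (funext hn)
  -- blocks
  have hblock : ∀ i j : ℕ, (((I.filter fun T => ldeg side T = i + k ∧ rdeg side T = j + k').card :
      ℕ) : ℝ) ≤ ((PrG F side (i + k) (j + k') * SM g * PrG F side i j).rank : ℝ) := by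
    intro i j
    have hrows : ∀ T : Finset V, ldeg side T = i + k ∧ rdeg side T = j + k' →
        (PrG F side (i + k) (j + k') * SM g * PrG F side i j) T = SM g T := by
      intro T hT
      funext S
      simp only [PrG, Matrix.diagonal_mul, Matrix.mul_diagonal]
      rw [if_pos hT, one_mul]
      by_cases h : SM g T S = 0
      · rw [h, zero_mul]
      · have := hent T S h
        rw [if_pos (by omega), mul_one]
    rw [Matrix.rank_eq_finrank_span_row]
    set I' := I.filter fun T => ldeg side T = i + k ∧ rdeg side T = j + k' with hI'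
    have hind : LinearIndependent F fun T : {T // T ∈ I'} => SM g T.1 := by
      exact hI.comp (fun T : {T // T ∈ I'} => (⟨T.1, (Finset.mem_filter.1 T.2).1⟩ : {T // T ∈ I}))
        (fun a b hab => Subtype.ext (congrArg (fun t : {T // T ∈ I} => t.1) hab))
    have hcard := finrank_span_eq_card hind
    rw [Fintype.card_coe] at hcard
    rw [← hcard]
    have hle : Submodule.span F (Set.range fun T : {T // T ∈ I'} => SM g T.1) ≤
        Submodule.span F (Set.range
          (PrG F side (i + k) (j + k') * SM g * PrG F side i j).row) := by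
      refine Submodule.span_mono ?_
      rintro _ ⟨T, rfl⟩
      exact ⟨T.1, hrows T.1 (Finset.mem_filter.1 T.2).2⟩
    exact_mod_cast Submodule.finrank_mono hle
  -- summation
  unfold muW
  have h1 : ∑ i ∈ range (Fintype.card V + 1), ∑ j ∈ range (Fintype.card V + 1),
      y ^ i / L ^ j * (((I.filter fun T => ldeg side T = i + k ∧ rdeg side T = j + k').card :
      ℕ) : ℝ) ≤ ∑ i ∈ range (Fintype.card V + 1), ∑ j ∈ range (Fintype.card V + 1),
      y ^ i / L ^ j * ((PrG F side (i + k) (j + k') * SM g * PrG F side i j).rank : ℝ) :=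
    Finset.sum_le_sum fun i _ => Finset.sum_le_sum fun j _ =>
      mul_le_mul_of_nonneg_left (hblock i j) (by positivity)
  refine le_trans (le_of_eq ?_) h1
  have h2 : ∀ i j : ℕ, y ^ i / L ^ j *
      (((I.filter fun T => ldeg side T = i + k ∧ rdeg side T = j + k').card : ℕ) : ℝ) =
      ∑ T ∈ I, if i + k = ldeg side T ∧ j + k' = rdeg side T then
        L ^ k' / y ^ k * wt side y L T else 0 := by
    intro i j
    rw [Finset.card_filter]
    push_cast
    rw [Finset.mul_sum]
    refine Finset.sum_congr rfl fun T _ => ?_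
    by_cases h : ldeg side T = i + k ∧ rdeg side T = j + k'
    · rw [if_pos h, if_pos (by omega), mul_one, wt, h.1, h.2, pow_add, pow_add]
      field_simp
    · rw [if_neg h, if_neg (by omega), mul_zero]
  rw [Finset.sum_congr rfl fun i _ => Finset.sum_congr rfl fun j _ => h2 i j]
  rw [Finset.sum_congr rfl fun i _ => Finset.sum_comm, Finset.sum_comm, Finset.mul_sum]
  refine Finset.sum_congr rfl fun T hT => ?_
  obtain ⟨S, hS⟩ := hrow T hT
  obtain ⟨hl, hr⟩ := hent T S hS
  have hlS : ldeg side S ≤ Fintype.card V := Finset.card_le_univ _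
  have hrS : rdeg side S ≤ Fintype.card V := Finset.card_le_univ _
  rw [Finset.sum_eq_single (ldeg side S), Finset.sum_eq_single (rdeg side S), if_pos (by omega)]
  · intro j _ hj
    rw [if_neg (by omega)]
  · intro h
    exact absurd (Finset.mem_range.2 (by omega)) h
  · intro i _ hi
    refine Finset.sum_eq_zero fun j _ => ?_
    rw [if_neg (by omega)]
  · intro h
    exact absurd (Finset.mem_range.2 (by omega)) h

end GRANK

end Vale.Agent.P346
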