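import Vale.Agent.P346.Tau

/-!
# P346, all fields: estimates of the weight `tau`
-/

namespace Vale.Agent.P346

open Finset TauAux

theorem tauG_le_three {y L : ℝ} (hL : 9 ≤ L) (hy : L ≤ y) (d : ℕ) : tau y L d ≤ 3 := by
  have hL0 : (0 : ℝ) < L := by linarith
  have hY0 : (0 : ℝ) < y := by linarith
  have h := sum_min_le (d + 1) (fun a => Real.sqrt (L ^ (d - a) / y ^ a))
    (fun a => Real.sqrt_pos.2 (by positivity)) (by
      intro a ha
      have e : L ^ (d - a) = L ^ (d - (a + 1)) * L := by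
        rw [← pow_succ]
        congr 1
        omega
      have h1 : L ^ (d - (a + 1)) / y ^ (a + 1) ≤ (L ^ (d - a) / y ^ a) / 3 ^ 2 := by
        rw [e, pow_succ, div_div, div_le_div_iff₀ (by positivity) (by positivity)]
        have h2 : (3 : ℝ) ^ 2 ≤ L * y := by nlinarith
        have h3 : 0 ≤ L ^ (d - (a + 1)) * y ^ a := by positivity
        nlinarith [mul_le_mul_of_nonneg_left h2 h3]
      calc Real.sqrt (L ^ (d - (a + 1)) / y ^ (a + 1))
          ≤ Real.sqrt ((L ^ (d - a) / y ^ a) / 3 ^ 2) := Real.sqrt_le_sqrt h1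
        _ = _ := by
          rw [Real.sqrt_div' _ (by positivity), Real.sqrt_sq (by norm_num)])
  have e : tau y L d = ∑ a ∈ Finset.range (d + 1),
      min (Real.sqrt (L ^ (d - a) / y ^ a)) (1 / Real.sqrt (L ^ (d - a) / y ^ a)) := by
    unfold tau
    refine Finset.sum_congr rfl (fun a _ => ?_)
    congr 1
    rw [one_div, ← Real.sqrt_inv, inv_div]
  rw [e]
  exact h.trans (phi_le_three (Real.sqrt_pos.2 (by positivity)))

theorem tauG_one {y L : ℝ} (hL : 9 ≤ L) (hy : L ≤ y) : tau y L 1 ≤ 2 / Real.sqrt L := by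
  have hL0 : (0 : ℝ) < L := by linarith
  have hY0 : (0 : ℝ) < y := by linarith
  unfold tau
  rw [Finset.sum_range_succ, Finset.sum_range_one]
  have h1 : min (Real.sqrt (L ^ (1 - 0) / y ^ 0))
      (Real.sqrt (y ^ 0 / L ^ (1 - 0))) ≤ 1 / Real.sqrt L := by
    refine (min_le_right _ _).trans (le_of_eq ?_)
    simp
  have h2 : min (Real.sqrt (L ^ (1 - 1) / y ^ 1))
      (Real.sqrt (y ^ 1 / L ^ (1 - 1))) ≤ 1 / Real.sqrt L := by
    refine (min_le_left _ _).trans ?_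
    have e : (1 : ℝ) / Real.sqrt L = Real.sqrt (1 / L) := by
      simp
    rw [e]
    apply Real.sqrt_le_sqrt
    simp only [Nat.sub_self, pow_zero, pow_one]
    gcongr
  have e : 2 / Real.sqrt L = 1 / Real.sqrt L + 1 / Real.sqrt L := by ring
  rw [e]
  exact add_le_add h1 h2

/-- all exponents `8 q (d - a) - (8 q + 4) a` have absolute value `≥ 2 q` -/
theorem tauG_mid (ρ : ℝ) (q : ℕ) (hρ : 1 < ρ) (hL : 9 ≤ ρ ^ (8 * q)) (d : ℕ) (h1 : q ≤ d)
    (h2 : d < 2 * q) : tau (ρ ^ (8 * q + 4)) (ρ ^ (8 * q)) d ≤ 3 / ρ ^ q := by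
  have hρ0 : 0 < ρ := by linarith
  set σ : ℝ := Real.sqrt ρ with hσ
  have hσ0 : 0 < σ := Real.sqrt_pos.2 hρ0
  have hσ1 : 1 ≤ σ := Real.one_le_sqrt.2 hρ.le
  have hσρ : σ ^ 2 = ρ := Real.sq_sqrt hρ0.le
  -- exponents
  let e : ℕ → ℤ := fun a => 8 * q * ((d - a : ℕ) : ℤ) - (8 * q + 4) * a
  let e' : ℕ → ℤ := fun a => if 0 < e a then e a - 2 * q else e a + 2 * q
  have hq0 : 0 < q := by omega
  have hbase : (1 : ℝ) / 3 ≥ σ ^ (-(12 * q + 4 : ℤ)) := by
    have hp : (3 : ℝ) ≤ σ ^ (12 * q + 4) := by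
      have h3 : (3 : ℝ) ≤ σ ^ (8 * q) := by
        have h4 : (3 : ℝ) ^ 2 ≤ (σ ^ (8 * q)) ^ 2 := by
          rw [← pow_mul, mul_comm (8 * q) 2, pow_mul, hσρ]
          linarith
        exact le_of_sq_le_sq h4 (by positivity)
      exact h3.trans (pow_le_pow_right₀ hσ1 (by omega))
    rw [zpow_neg, ge_iff_le, one_div]
    have : σ ^ (12 * (q : ℤ) + 4) = σ ^ (12 * q + 4) := by
      rw [← zpow_natCast]
      push_cast
      rfl
    rw [this]
    exact inv_anti₀ (by norm_num) hp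
  have h := sum_min_le (d + 1) (fun a => σ ^ (e' a)) (fun a => zpow_pos hσ0 _) (by
    intro a ha
    have had : a + 1 ≤ d := by omega
    have he : e (a + 1) = e a - (16 * q + 4) := by
      simp only [e]
      have : ((d - a : ℕ) : ℤ) = ((d - (a + 1) : ℕ) : ℤ) + 1 := by omega
      rw [this]
      push_cast
      ring
    have he' : e' (a + 1) ≤ e' a + (-(12 * q + 4 : ℤ)) := by
      simp only [e', he]
      split_ifs <;> omega
    calc σ ^ (e' (a + 1)) ≤ σ ^ (e' a + (-(12 * q + 4 : ℤ))) := zpow_le_zpow_right₀ hσ1 he'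
      _ = σ ^ (e' a) * σ ^ (-(12 * q + 4 : ℤ)) := zpow_add₀ hσ0.ne' _ _
      _ ≤ σ ^ (e' a) * (1 / 3) := by
        exact mul_le_mul_of_nonneg_left hbase (zpow_pos hσ0 _).le
      _ = _ := by ring)
  have hphi := h.trans (phi_le_three (zpow_pos hσ0 (e' 0)))
  have hρq : σ ^ (2 * q) = ρ ^ q := by rw [pow_mul, hσρ]
  have hsq : ∀ a ≤ d, Real.sqrt ((ρ ^ (8 * q)) ^ (d - a) / (ρ ^ (8 * q + 4)) ^ a) = σ ^ (e a) ∧
      Real.sqrt ((ρ ^ (8 * q + 4)) ^ a / (ρ ^ (8 * q)) ^ (d - a)) = σ ^ (-(e a)) := by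
    intro a ha
    have h3 : (ρ ^ (8 * q)) ^ (d - a) / (ρ ^ (8 * q + 4)) ^ a = (σ ^ (e a)) ^ 2 := by
      rw [← pow_mul, ← pow_mul, ← hσρ, ← pow_mul, ← pow_mul, ← zpow_natCast σ, ← zpow_natCast σ,
        ← zpow_sub₀ hσ0.ne', ← zpow_natCast (σ ^ (e a)), ← zpow_mul]
      congr 1
      simp only [e]
      push_cast
      ring
    constructor
    · rw [h3, Real.sqrt_sq (zpow_pos hσ0 _).le]
    · rw [← inv_div, h3, zpow_neg, ← inv_pow, Real.sqrt_sq (inv_pos.2 (zpow_pos hσ0 _)).le]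
  have hterm : ∀ a ∈ Finset.range (d + 1),
      min (Real.sqrt ((ρ ^ (8 * q)) ^ (d - a) / (ρ ^ (8 * q + 4)) ^ a))
        (Real.sqrt ((ρ ^ (8 * q + 4)) ^ a / (ρ ^ (8 * q)) ^ (d - a))) ≤
      min (σ ^ (e' a)) (1 / σ ^ (e' a)) * (1 / ρ ^ q) := by
    intro a ha
    have had : a ≤ d := by
      rw [Finset.mem_range] at ha; omega
    rw [(hsq a had).1, (hsq a had).2, one_div (σ ^ (e' a)), ← zpow_neg]
    have hq1 : (1 : ℝ) / ρ ^ q = σ ^ (-(2 * q : ℤ)) := by
      rw [← hρq, one_div, zpow_neg]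
      congr 1
    -- the exponent is far from zero
    have hfar : 2 * (q : ℤ) ≤ e a ∨ e a ≤ -(2 * q : ℤ) := by
      rcases Nat.lt_or_ge (2 * a) d with hc | hc
      · left
        simp only [e]
        have h5 : (1 : ℤ) ≤ ((d - a : ℕ) : ℤ) - a := by omega
        have h6 : (8 * (q : ℤ)) * 1 ≤ 8 * q * (((d - a : ℕ) : ℤ) - a) :=
          mul_le_mul_of_nonneg_left h5 (by positivity)
        have h7 : 8 * (q : ℤ) * ((d - a : ℕ) : ℤ) - (8 * q + 4) * a =
            8 * q * (((d - a : ℕ) : ℤ) - a) - 4 * a := by ring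
        rw [h7]
        omega
      · right
        simp only [e]
        have h5 : ((d - a : ℕ) : ℤ) - a ≤ 0 := by omega
        have h6 : 8 * (q : ℤ) * (((d - a : ℕ) : ℤ) - a) ≤ 0 :=
          mul_nonpos_of_nonneg_of_nonpos (by positivity) h5
        have h7 : 8 * (q : ℤ) * ((d - a : ℕ) : ℤ) - (8 * q + 4) * a =
            8 * q * (((d - a : ℕ) : ℤ) - a) - 4 * a := by ring
        rw [h7]
        omega
    rw [hq1]
    rcases hfar with hf | hf
    · have he' : e' a = e a - 2 * q := by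
        simp only [e']
        rw [if_pos (by omega)]
      have h8 : min (σ ^ (e a)) (σ ^ (-(e a))) = σ ^ (-(e a)) :=
        min_eq_right (zpow_le_zpow_right₀ hσ1 (by omega))
      have h9 : min (σ ^ (e' a)) (σ ^ (-(e' a))) = σ ^ (-(e' a)) :=
        min_eq_right (zpow_le_zpow_right₀ hσ1 (by omega))
      rw [h8, h9, ← zpow_add₀ hσ0.ne', he']
      apply le_of_eq
      congr 1
      ring
    · have he' : e' a = e a + 2 * q := by
        simp only [e']
        rw [if_neg (by omega)]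
      have h8 : min (σ ^ (e a)) (σ ^ (-(e a))) = σ ^ (e a) :=
        min_eq_left (zpow_le_zpow_right₀ hσ1 (by omega))
      have h9 : min (σ ^ (e' a)) (σ ^ (-(e' a))) = σ ^ (e' a) :=
        min_eq_left (zpow_le_zpow_right₀ hσ1 (by omega))
      rw [h8, h9, ← zpow_add₀ hσ0.ne', he']
      apply le_of_eq
      congr 1
      ring
  unfold tau
  refine (Finset.sum_le_sum hterm).trans ?_
  rw [← Finset.sum_mul]
  calc (∑ a ∈ Finset.range (d + 1), min (σ ^ (e' a)) (1 / σ ^ (e' a))) * (1 / ρ ^ q)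
      ≤ 3 * (1 / ρ ^ q) := mul_le_mul_of_nonneg_right hphi (by positivity)
    _ = 3 / ρ ^ q := by ring

end Vale.Agent.P346
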