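import Vale.Agent.P346.GProc
import Vale.Agent.P346.GRank
import Vale.Agent.P346.GCircuit
import Vale.Agent.P346.GTau
import Vale.Agent.P346.GConnect
import Vale.Agent.P346.GMisc
import Vale.Agent.P346.GNum
import Vale.Agent.P346.Word
import Vale.Agent.P346.DegreeEq
import Vale.Agent.P346.Final

/-! # P346: the main theorem over every field -/

namespace Vale.Agent.P346

open MvPolynomial Finset

namespace GFinalAux

/-- the layer weights -/
noncomputable def xw (n : ℕ) (word : Fin n → Bool) (y L : ℝ) (t : ℕ) : ℝ :=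
  if h : t < n then (if word ⟨t, h⟩ then y else 1 / L) else 1

theorem xw_pos (n : ℕ) (word : Fin n → Bool) {y L : ℝ} (hy : 0 < y) (hL : 0 < L) (t : ℕ) :
    0 < xw n word y L t := by
  unfold xw
  split_ifs
  · exact hy
  · positivity
  · norm_num

theorem prod_xw (n : ℕ) (word : Fin n → Bool) {y L : ℝ} (hL : 0 < L) (t : ℕ)
    (ht : t ≤ n) : ∏ i ∈ range t, xw n word y L i = y ^ cntT n word t / L ^ cntF n word t := by
  induction t with
  | zero => simp [wcntT_zero, wcntF_zero]
  | succ t ih =>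
    rw [Finset.prod_range_succ, ih (by omega), wcntT_succ n word t (by omega),
      wcntF_succ n word t (by omega)]
    unfold xw
    rw [dif_pos (show t < n by omega)]
    by_cases h : word ⟨t, by omega⟩ = true
    · simp only [h, if_true]
      simp only [Bool.true_eq_false, if_false, add_zero, pow_succ]
      ring
    · have h' : word ⟨t, by omega⟩ = false := by simpa using h
      simp only [h', if_true]
      simp only [Bool.false_eq_true, if_false, add_zero, pow_succ]
      field_simp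

theorem exists_rho (q μ : ℕ) (hq : 0 < q) (hμ : 0 < μ) :
    ∃ ρ : ℝ, 1 < ρ ∧ ρ ^ q = 2 ^ μ := by
  have h2 : (1 : ℝ) < 2 ^ μ := one_lt_pow₀ (by norm_num) (by omega)
  refine ⟨((2 : ℝ) ^ μ) ^ ((1 : ℝ) / q), ?_, ?_⟩
  · exact Real.one_lt_rpow h2 (by positivity)
  · rw [← Real.rpow_natCast, ← Real.rpow_mul (by positivity)]
    have hq' : (q : ℝ) ≠ 0 := by exact_mod_cast hq.ne'
    rw [one_div, inv_mul_cancel₀ hq', Real.rpow_one]

end GFinalAux

open GFinalAux

/-- the lower bound for the measure of a suitable substitution of `IMM` -/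
theorem exists_measure_ge (F : Type*) [Field F] [Infinite F] (n : ℕ) [NeZero n] (y L : ℝ)
    (hL : 1 ≤ L) (hy : L ≤ y) (Z : ℝ) (hZ : 1 ≤ Z) :
    ∃ (word : Fin n → Bool) (v : ℕ → Fin n → Fin n → Fin n → F),
      y ^ cntT n word n ≤ L ^ cntF n word n * (L * y) ∧ cntT n word n + cntF n word n = n ∧
      L ^ cntF n word n / y ^ cntT n word n *
        (1 / Z * ((Z / (Z + 1)) * (1 - (y / (1 + y)) ^ n) *
          (1 - Real.exp (-(n / (Z * (L * y)))))) ^ n *
          totW (fun p : Fin n × Fin n × Fin n => word p.1) y L) ≤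
      muW (fun p : Fin n × Fin n × Fin n => word p.1) y L (cntT n word n) (cntF n word n)
        (gPoly v) := by
  classical
  have hL0 : 0 < L := by linarith
  have hy0 : 0 < y := by linarith
  obtain ⟨word, hword⟩ := exists_word n y L hL hy
  set x := xw n word y L with hx
  have hxpos : ∀ t, 0 < x t := xw_pos n word hy0 hL0
  have hprod : ∀ t ≤ n, ∏ i ∈ range t, x i = y ^ cntT n word t / L ^ cntF n word t :=
    fun t ht => prod_xw n word hL0 t ht
  have hxy : ∀ t < n, x t ≤ y := by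
    intro t ht
    rw [hx]; unfold xw
    rw [dif_pos ht]
    split_ifs
    · exact le_rfl
    · rw [div_le_iff₀ hL0]; nlinarith
  obtain ⟨v, I, hI, hIw⟩ := gproc (n := n) (M := n) (F := F) x hxpos Z (L * y)
    ((y / (1 + y)) ^ n) hZ n
    (by
      intro t ht
      rw [hprod t ht, le_div_iff₀ (by positivity), one_mul]
      exact (hword t ht).1)
    (by
      intro t ht
      rw [hprod t ht, div_le_iff₀ (by positivity), mul_comm]
      exact (hword t ht).2)
    (by
      intro t ht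
      have h1 := hxpos t
      have h2 := hxy t ht
      refine pow_le_pow_left₀ (by positivity) ?_ n
      rw [div_le_div_iff₀ (by positivity) (by positivity)]
      nlinarith)
    (by
      refine pow_le_one₀ (by positivity) ?_
      rw [div_le_one (by positivity)]
      linarith)
  obtain ⟨e, he1, he2⟩ := gconnect (n := n) (M := n) (F := F) v
  refine ⟨word, v, (hword n le_rfl).2, cntT_add_cntF n word n le_rfl, ?_⟩
  have hind : LinearIndependent F
      fun T : {T // T ∈ I.map e.symm.toEmbedding} => SM (gPoly v) T.1 := by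
    have hmem : ∀ T ∈ I.map e.symm.toEmbedding, e T ∈ I := by
      intro T hT
      rw [Finset.mem_map] at hT
      obtain ⟨T', hT', rfl⟩ := hT
      simpa using hT'
    have h1 : LinearIndependent F
        (fun T : {T // T ∈ I.map e.symm.toEmbedding} => rowsA v n 0 (e T.1)) := by
      refine hI.comp (fun T : {T // T ∈ I.map e.symm.toEmbedding} =>
        (⟨e T.1, hmem T.1 T.2⟩ : {T // T ∈ I})) ?_
      intro T T' hTT
      exact Subtype.ext (e.injective (Subtype.mk.inj hTT))
    have h2 := h1.map' (LinearMap.funLeft F F e)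
      (LinearMap.ker_eq_bot.2 (LinearMap.funLeft_injective_of_surjective F F _ e.surjective))
    have e3 : (fun T : {T // T ∈ I.map e.symm.toEmbedding} => SM (gPoly v) T.1) =
        (LinearMap.funLeft F F e) ∘ (fun T => rowsA v n 0 (e T.1)) := by
      funext T S
      exact he1 T.1 S
    rw [e3]
    exact h2
  have h3 := le_muW (fun p : Fin n × Fin n × Fin n => word p.1) hy0 hL0 (gPoly v)
    (cntT n word n) (cntF n word n) (fun D hD => gPoly_bihom v word D hD)
    (I.map e.symm.toEmbedding) hind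
  refine le_trans ?_ h3
  refine mul_le_mul_of_nonneg_left ?_ (by positivity)
  rw [Finset.sum_map]
  have h4 : ∑ T ∈ I, wt (fun p : Fin n × Fin n × Fin n => word p.1) y L
      (e.symm.toEmbedding T) = ∑ T ∈ I, wH x n T := by
    refine Finset.sum_congr rfl fun T _ => ?_
    rw [he2 word y L]
    simp only [Equiv.coe_toEmbedding, Equiv.apply_symm_apply]
    rfl
  rw [h4, totW_eq word y L hy0 hL0]
  exact hIw

/-- circuits of size `s` computing `IMM` satisfy `exp (μ q / 16) ≤ s` -/
theorem size_ge_exp_all (K : Type*) [Field K] (n q μ : ℕ) [NeZero n] (hμ : 16 ≤ μ)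
    (hq : 2 ^ (64 * μ) ≤ q) (hn1 : q ^ 2 ≤ n) (hn2 : n ≤ q ^ 2 + 2 * q)
    (Cc : Circ K (Fin n × Fin n × Fin n)) (hC : Cc.IsSyntHomogeneous)
    (h : Cc.poly = IMM K n n) : Real.exp ((μ : ℝ) * q / 16) ≤ Cc.size := by
  obtain ⟨d₁, d₂, d₃, d₄, D, hd⟩ := hC
  have hD : D = n := degree_eq n Cc hd h
  subst hD
  have hq1 : 1 ≤ q := Nat.one_le_two_pow.trans hq
  obtain ⟨ρ, hρ1, hρ⟩ := exists_rho q μ (by omega) (by omega)
  have hρ0 : 0 < ρ := by linarith
  set L : ℝ := ρ ^ (8 * q) with hLdef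
  set y : ℝ := ρ ^ (8 * q + 4) with hydef
  have hu : (65536 : ℝ) ≤ 2 ^ μ := by
    calc (65536 : ℝ) = 2 ^ 16 := by norm_num
      _ ≤ 2 ^ μ := pow_le_pow_right₀ (by norm_num) hμ
  have hL8 : L = (2 ^ μ) ^ 8 := by
    rw [hLdef, mul_comm, pow_mul, hρ]
  have hL9 : 65536 ≤ L := by
    rw [hL8]
    calc (65536 : ℝ) ≤ 2 ^ μ := hu
      _ = (2 ^ μ) ^ 1 := (pow_one _).symm
      _ ≤ (2 ^ μ) ^ 8 := pow_le_pow_right₀ (by linarith) (by norm_num)
  have hLy : L ≤ y := pow_le_pow_right₀ hρ1.le (by omega)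
  have hL0 : 0 < L := by linarith
  have hy0 : 0 < y := by linarith
  have hq0 : (1 : ℝ) ≤ q := by exact_mod_cast hq1
  obtain ⟨word, v, hw1, hw2, hmu⟩ := exists_measure_ge (AlgebraicClosure K) D y L (by linarith)
    hLy q hq0
  set k := cntT D word D with hk
  set k' := cntF D word D with hk'
  set side : Fin D × Fin D × Fin D → Bool := fun p => word p.1 with hside
  set W := totW side y L with hW
  have hWpos : 0 < W := by
    rw [hW, totW_eq word y L hy0 hL0]
    refine Finset.prod_pos fun i _ => ?_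
    have := xw_pos D word hy0 hL0 i
    unfold xw at this
    positivity
  -- the circuit bound
  have hsqL : 0 < Real.sqrt L := Real.sqrt_pos.2 hL0
  have hup := circuit_bound Cc D hd
    (eval₂Hom (C.comp (algebraMap K (AlgebraicClosure K))) fun p : Fin D × Fin D × Fin D =>
      (∑ b, C (v p.1 p.2.1 b p.2.2) * X (p.1, p.2.1, b) :
        MvPolynomial (Fin D × Fin D × Fin D) (AlgebraicClosure K)))
    (algebraMap K (AlgebraicClosure K)) (fun a => by simp)
    (fun p => by
      simp only [coe_eval₂Hom, eval₂_X]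
      refine MvPolynomial.IsHomogeneous.sum _ _ _ fun b _ => ?_
      have := (isHomogeneous_C (Fin D × Fin D × Fin D) (v p.1 p.2.1 b p.2.2)).mul
        (isHomogeneous_X (AlgebraicClosure K) (p.1, p.2.1, b))
      rwa [zero_add] at this)
    (muW side y L k k') (muW_nonneg side hy0 hL0 k k') (muW_zero side k k')
    (fun m g => muW_sum_le side hy0 hL0 k k' Finset.univ g)
    (fun a g => muW_C_mul_le side hy0 hL0 k k' a g)
    (tau y L) (W * Real.sqrt (L ^ k' / y ^ k)) (by positivity)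
    (fun J _ Q d hQ hsum => muW_prod_le side hy0 hL0 Q d hQ k k' (by rw [hsum, hw2]))
    (tau_nonneg y L) tau_zero (tauG_le_three (by linarith) hLy)
    (2 / Real.sqrt L) (3 / ρ ^ q) (by positivity)
    (by
      rw [div_le_one hsqL]
      rw [show (2 : ℝ) = Real.sqrt 4 by rw [show (4 : ℝ) = 2 ^ 2 by norm_num]; simp]
      exact Real.sqrt_le_sqrt (by linarith))
    (by positivity)
    (by rw [hρ, div_le_one (by positivity)]; linarith)
    (tauG_one (by linarith) hLy) q (by omega)
    (fun d h1 h2 => tauG_mid ρ q hρ1 (by linarith) d h1 h2)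
    ((q + 1) / 2) (by omega)
    (by
      have h1 : 2 * ((q + 1) / 2) - 1 ≤ q := by omega
      calc (2 * ((q + 1) / 2) - 1) * q ≤ q * q := Nat.mul_le_mul_right _ h1
        _ = q ^ 2 := by ring
        _ ≤ D := hn1)
  rw [h, gsubst v] at hup
  have hcomb := hmu.trans hup
  -- divide by W and the square root
  set A : ℝ := L ^ k' / y ^ k with hA
  have hA0 : 0 < A := by positivity
  have hsA : 0 < Real.sqrt A := Real.sqrt_pos.2 hA0
  set cn : ℝ := 1 / (q : ℝ) * (((q : ℝ) / (q + 1)) * (1 - (y / (1 + y)) ^ D) *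
          (1 - Real.exp (-(D / (q * (L * y)))))) ^ D with hcn
  have hcn0 : 0 ≤ cn := by
    have h1 : (y / (1 + y)) ^ D ≤ 1 := by
      refine pow_le_one₀ (by positivity) ?_
      rw [div_le_one (by positivity)]; linarith
    have h2 : Real.exp (-(D / (q * (L * y)))) ≤ 1 := by
      rw [Real.exp_le_one_iff]
      have : 0 ≤ D / (q * (L * y)) := by positivity
      linarith
    have h3 : 0 ≤ 1 - (y / (1 + y)) ^ D := by linarith
    have h4 : 0 ≤ 1 - Real.exp (-(D / (q * (L * y)))) := by linarith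
    positivity
  have hdiv : Real.sqrt A * cn ≤ (Cc.n₄ * (3 * (3 / ρ ^ q) ^ ((q + 1) / 2)) +
      Cc.n₄ * Cc.n₂ * (3 * (2 / Real.sqrt L) ^ q)) := by
    have h1 : (W * Real.sqrt A) * (Real.sqrt A * cn) ≤ (W * Real.sqrt A) *
        (Cc.n₄ * (3 * (3 / ρ ^ q) ^ ((q + 1) / 2)) +
          Cc.n₄ * Cc.n₂ * (3 * (2 / Real.sqrt L) ^ q)) := by
      calc (W * Real.sqrt A) * (Real.sqrt A * cn) = (Real.sqrt A * Real.sqrt A) * (cn * W) := by
            ring
        _ = A * (cn * W) := by rw [Real.mul_self_sqrt hA0.le]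
        _ ≤ _ := hcomb
    exact le_of_mul_le_mul_left h1 (by positivity)
  have hsq : 1 / Real.sqrt (L * y) ≤ Real.sqrt A := by
    rw [one_div, ← Real.sqrt_inv]
    refine Real.sqrt_le_sqrt ?_
    rw [hA, le_div_iff₀ (by positivity), inv_mul_le_iff₀ (by positivity)]
    linarith
  apply size_ge_G D q μ ((q + 1) / 2) Cc.size ρ hμ hq hn1 hn2 hρ1 hρ (by omega)
  refine le_trans (mul_le_mul_of_nonneg_right hsq hcn0) (hdiv.trans ?_)
  have hs4 : (Cc.n₄ : ℝ) ≤ Cc.size := by
    exact_mod_cast (by unfold Circ.size; omega : Cc.n₄ ≤ Cc.size)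
  have hs2 : (Cc.n₂ : ℝ) ≤ Cc.size := by
    exact_mod_cast (by unfold Circ.size; omega : Cc.n₂ ≤ Cc.size)
  have h42 : (Cc.n₄ : ℝ) * Cc.n₂ ≤ (Cc.size : ℝ) ^ 2 := by
    calc (Cc.n₄ : ℝ) * Cc.n₂ ≤ Cc.size * Cc.size := by gcongr
      _ = (Cc.size : ℝ) ^ 2 := by ring
  gcongr

theorem exists_threshold (k : ℕ) : ∃ b : ℕ, 1 ≤ b ∧ Real.log b = k * Real.log 2 ∧
    ∀ q, b ≤ q → k ≤ Nat.log 2 q := by
  refine ⟨2 ^ k, Nat.one_le_two_pow, ?_, ?_⟩
  · rw [Nat.cast_pow, Real.log_pow]
    norm_num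
  · intro q hq
    exact Nat.le_log_of_pow_le (by norm_num) hq

theorem sqrt_le_two_mul (n q : ℕ) (hq : 1 ≤ q) (hn2 : n ≤ q ^ 2 + 2 * q) :
    Real.sqrt n ≤ 2 * q := by
  rw [Real.sqrt_le_left (by positivity)]
  have h1 : (n : ℝ) ≤ (q : ℝ) ^ 2 + 2 * q := by exact_mod_cast hn2
  have h2 : (1 : ℝ) ≤ q := by exact_mod_cast hq
  nlinarith

theorem final_compare (ln b sq μ q : ℝ) (hln0 : 0 ≤ ln) (hln : ln ≤ 256 * μ) (hb : 1 ≤ b)
    (hsq0 : 0 ≤ sq) (hsq : sq ≤ 2 * q) : ln * (1 / (b * 8192) * sq) ≤ μ * q / 16 := by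
  have h1 : 1 / (b * 8192) ≤ 1 / 8192 := by
    apply one_div_le_one_div_of_le (by norm_num)
    linarith
  have h2 : 1 / (b * 8192) * sq ≤ 1 / 8192 * (2 * q) := by
    have h3 : 0 ≤ 1 / (b * 8192) := by positivity
    calc 1 / (b * 8192) * sq ≤ 1 / 8192 * sq := mul_le_mul_of_nonneg_right h1 hsq0
      _ ≤ 1 / 8192 * (2 * q) := mul_le_mul_of_nonneg_left hsq (by norm_num)
  have h4 : 0 ≤ 1 / (b * 8192) * sq := by positivity
  calc ln * (1 / (b * 8192) * sq) ≤ (256 * μ) * (1 / (b * 8192) * sq) :=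
        mul_le_mul_of_nonneg_right hln h4
    _ ≤ (256 * μ) * (1 / 8192 * (2 * q)) := mul_le_mul_of_nonneg_left h2 (hln0.trans hln)
    _ = μ * q / 16 := by ring

/-- The main theorem over every field. -/
theorem main_theorem_all :
    ∃ c : ℝ, 0 < c ∧ ∀ (K : Type*) [Field K] (n : ℕ) [NeZero n]
      (Cc : Circ K (Fin n × Fin n × Fin n)),
      Cc.IsSyntHomogeneous → Cc.poly = IMM K n n →
      (n : ℝ) ^ (c * Real.sqrt n) ≤ Cc.size := by
  obtain ⟨b, hb1, hblog, hbq⟩ := exists_threshold 1024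
  have hb1r : (1 : ℝ) ≤ b := by exact_mod_cast hb1
  refine ⟨1 / (b * 8192), by positivity, ?_⟩
  intro K _ n _ Cc hC h
  have hn0 : 0 < n := Nat.pos_of_ne_zero (NeZero.ne n)
  have hnr : (0 : ℝ) < n := by exact_mod_cast hn0
  have hlog2 : Real.log 2 ≤ 0.7 := by have := Real.log_two_lt_d9; linarith
  have hlog2' : 0 ≤ Real.log 2 := Real.log_nonneg (by norm_num)
  have hln0 : 0 ≤ Real.log n := Real.log_nonneg (by exact_mod_cast hn0)
  by_cases hn : n < b ^ 2
  · -- small `n`
    have h2 : (2 : ℝ) ≤ Cc.size := by exact_mod_cast two_le_size K n Cc h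
    refine le_trans ?_ h2
    have hsq : Real.sqrt n ≤ b := by
      rw [Real.sqrt_le_left (by positivity)]
      exact_mod_cast hn.le
    have hln : Real.log n ≤ 2048 * Real.log 2 := by
      calc Real.log n ≤ Real.log ((b : ℝ) ^ 2) := by
            apply Real.log_le_log hnr
            exact_mod_cast hn.le
        _ = 2 * Real.log b := by rw [Real.log_pow]; norm_num
        _ = 2 * (1024 * Real.log 2) := by
            rw [hblog]
            norm_num
        _ = 2048 * Real.log 2 := by ring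
    rw [Real.rpow_def_of_pos hnr]
    calc Real.exp (Real.log n * (1 / (b * 8192) * Real.sqrt n))
        ≤ Real.exp (Real.log 2) := by
          apply Real.exp_le_exp.mpr
          calc Real.log n * (1 / (b * 8192) * Real.sqrt n)
              ≤ (2048 * Real.log 2) * (1 / (b * 8192) * b) := by gcongr
            _ = Real.log 2 / 4 := by field_simp; norm_num
            _ ≤ Real.log 2 := by linarith
      _ = 2 := Real.exp_log (by norm_num)
  · -- large `n`
    push Not at hn
    obtain ⟨q, hqdef⟩ : ∃ q, q = Nat.sqrt n := ⟨_, rfl⟩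
    obtain ⟨μ, hμdef⟩ : ∃ μ, μ = Nat.log 2 q / 64 := ⟨_, rfl⟩
    have hq1 : b ≤ q := by
      rw [hqdef, Nat.le_sqrt']
      exact hn
    have hqne : q ≠ 0 := by omega
    have hlogq : 1024 ≤ Nat.log 2 q := hbq q hq1
    have hμ1 : 16 ≤ μ := by omega
    have hqμ : 2 ^ (64 * μ) ≤ q := by
      calc 2 ^ (64 * μ) ≤ 2 ^ Nat.log 2 q := Nat.pow_le_pow_right (by norm_num) (by omega)
        _ ≤ q := Nat.pow_log_le_self 2 hqne
    have hqμ2 : q < 2 ^ (64 * μ + 64) := by
      have h1 : q < 2 ^ (Nat.log 2 q + 1) := Nat.lt_pow_succ_log_self (by norm_num) q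
      exact h1.trans_le (Nat.pow_le_pow_right (by norm_num) (by omega))
    have hn1 : q ^ 2 ≤ n := by rw [hqdef]; exact Nat.sqrt_le' n
    have hn2' : n < (q + 1) ^ 2 := by rw [hqdef]; exact Nat.lt_succ_sqrt' n
    have hn2 : n ≤ q ^ 2 + 2 * q := by
      have : (q + 1) ^ 2 = q ^ 2 + 2 * q + 1 := by ring
      omega
    have key := size_ge_exp_all K n q μ hμ1 hqμ hn1 hn2 Cc hC h
    refine le_trans ?_ key
    rw [Real.rpow_def_of_pos hnr]
    apply Real.exp_le_exp.mpr
    have hμr : (16 : ℝ) ≤ μ := by exact_mod_cast hμ1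
    have hqr : (1 : ℝ) ≤ q := by exact_mod_cast Nat.one_le_iff_ne_zero.mpr hqne
    have hsq : Real.sqrt n ≤ 2 * q :=
      sqrt_le_two_mul n q (Nat.one_le_iff_ne_zero.mpr hqne) hn2
    have hln : Real.log n ≤ 256 * μ := by
      have h1 : (n : ℝ) ≤ 2 ^ (128 * μ + 128) := by
        have h2 : n ≤ 2 ^ (128 * μ + 128) := by
          calc n ≤ (q + 1) ^ 2 := hn2'.le
            _ ≤ (2 ^ (64 * μ + 64)) ^ 2 := Nat.pow_le_pow_left hqμ2 2
            _ = 2 ^ (128 * μ + 128) := by rw [← pow_mul]; congr 1; ring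
        exact_mod_cast h2
      calc Real.log n ≤ Real.log (2 ^ (128 * μ + 128)) := Real.log_le_log hnr h1
        _ = (128 * μ + 128) * Real.log 2 := by rw [Real.log_pow]; push_cast; ring
        _ ≤ (128 * μ + 128) * 0.7 := by gcongr
        _ ≤ 256 * μ := by linarith
    exact final_compare _ _ _ _ _ hln0 hln hb1r (Real.sqrt_nonneg _) hsq

end Vale.Agent.P346
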