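import Vale.Agent.P346.GDefs

/-! # P346, all fields: greedy pivots -/

namespace Vale.Agent.P346

open Finset

section general

variable {F W ι γ : Type*} [Field F] [AddCommGroup W] [Module F W]
  [LinearOrder γ] [WellFoundedLT γ]

/-- greedy pivots span -/
theorem greedy_span (key : ι → γ) (v : ι → W) (i : ι) :
    v i ∈ Submodule.span F {r | ∃ j, v j ∉ Submodule.span F {r | ∃ k, key k < key j ∧ r = v k} ∧
      key j ≤ key i ∧ r = v j} := by
  have key' : ∀ g : γ, ∀ i, key i = g → v i ∈ Submodule.span F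
      {r | ∃ j, v j ∉ Submodule.span F {r | ∃ k, key k < key j ∧ r = v k} ∧
        key j ≤ key i ∧ r = v j} := by
    intro g
    induction g using WellFoundedLT.induction with
    | ind g ih =>
      intro i hi
      by_cases h : v i ∈ Submodule.span F {r | ∃ k, key k < key i ∧ r = v k}
      · refine Submodule.span_le.2 ?_ h
        rintro r ⟨k, hk, rfl⟩
        have h1 := ih (key k) (hi ▸ hk) k rfl
        refine Submodule.span_mono ?_ h1
        rintro r ⟨j, hj1, hj2, rfl⟩
        exact ⟨j, hj1, hj2.trans hk.le, rfl⟩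
      · exact Submodule.subset_span ⟨i, h, le_rfl, rfl⟩
  exact key' (key i) i rfl

omit [WellFoundedLT γ] in
/-- greedy pivots are linearly independent -/
theorem greedy_indep (key : ι → γ) (hkey : Function.Injective key) (v : ι → W) :
    LinearIndependent F fun i : {i // v i ∉ Submodule.span F {r | ∃ k, key k < key i ∧ r = v k}} =>
      v i.1 := by
  classical
  rw [linearIndependent_iff']
  intro s g hs
  by_contra hcon
  push Not at hcon
  obtain ⟨i0, hi0, hgi0⟩ := hcon
  obtain ⟨i, hi, hmax⟩ := Finset.exists_max_image (s.filter fun i => g i ≠ 0)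
    (fun i => key i.1) ⟨i0, Finset.mem_filter.2 ⟨hi0, hgi0⟩⟩
  rw [Finset.mem_filter] at hi
  refine i.2 ?_
  have h1 : g i • v i.1 = - ∑ j ∈ s.erase i, g j • v j.1 := by
    rw [← Finset.add_sum_erase _ _ hi.1] at hs
    exact eq_neg_of_add_eq_zero_left hs
  have h2 : g i • v i.1 ∈ Submodule.span F {r | ∃ k, key k < key i.1 ∧ r = v k} := by
    rw [h1]
    refine Submodule.neg_mem _ (Submodule.sum_mem _ fun j hj => ?_)
    by_cases hgj : g j = 0
    · rw [hgj, zero_smul]; exact Submodule.zero_mem _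
    · rw [Finset.mem_erase] at hj
      have h3 := hmax j (Finset.mem_filter.2 ⟨hj.2, hgj⟩)
      have h4 : key j.1 ≠ key i.1 := fun h => hj.1 (Subtype.ext (hkey h))
      exact Submodule.smul_mem _ _ (Submodule.subset_span ⟨j.1, lt_of_le_of_ne h3 h4, rfl⟩)
  exact (Submodule.smul_mem_iff _ hi.2).1 h2

end general

theorem exists_pivot {n : ℕ} {F : Type*} [Field F] {𝒯 𝒮 : Type*} [Fintype 𝒯] (ord : 𝒯 → ℕ)
    (hord : Function.Injective ord) (A : Fin n → 𝒯 → 𝒮 → F) : ∃ R, IsPivot ord A R := by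
  classical
  set key : Fin n × 𝒯 → ℕ ×ₗ ℕ := fun p => toLex (p.1.val, ord p.2) with hkeydef
  have hkey : Function.Injective key := by
    rintro ⟨a, T⟩ ⟨a', T'⟩ h
    have h1 := congrArg ofLex h
    simp only [hkeydef, ofLex_toLex, Prod.mk.injEq] at h1
    exact Prod.ext (Fin.ext h1.1) (hord h1.2)
  set v : Fin n × 𝒯 → 𝒮 → F := fun p => A p.1 p.2 with hv
  have hle : ∀ p q : Fin n × 𝒯, key p ≤ key q → (p.1 < q.1 ∨ p.1 = q.1 ∧ ord p.2 ≤ ord q.2) := by
    rintro ⟨a, T⟩ ⟨a', T'⟩ h
    rcases (Prod.Lex.toLex_le_toLex.1 h) with h1 | ⟨h1, h2⟩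
    · exact Or.inl h1
    · exact Or.inr ⟨Fin.ext h1, h2⟩
  refine ⟨fun T => Finset.univ.filter fun a =>
    v (a, T) ∉ Submodule.span F {r | ∃ k, key k < key (a, T) ∧ r = v k}, ?_, ?_⟩
  · have h1 := greedy_indep (F := F) key hkey v
    have h2 := h1.comp (fun p : {p : Fin n × 𝒯 // p.1 ∈ (Finset.univ.filter fun a =>
        v (a, p.2) ∉ Submodule.span F {r | ∃ k, key k < key (a, p.2) ∧ r = v k})} =>
      ⟨p.1, by have := p.2; simpa using this⟩) (fun p q h => by
        have := congrArg Subtype.val h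
        exact Subtype.ext this)
    exact h2
  · intro a T
    have h1 := greedy_span (F := F) key v (a, T)
    refine Submodule.span_mono ?_ h1
    rintro r ⟨⟨a', T'⟩, h2, h3, rfl⟩
    exact ⟨a', T', by simpa using h2, hle _ _ h3, rfl⟩

/-- project to the columns `S` with `u S = κ`: the pivots of class `κ` and label `< j` span the
rows of class `κ` and label `< j` -/
theorem pivot_count {n : ℕ} {F : Type*} [Field F] {𝒯 𝒮 : Type*} [Fintype 𝒯] (ord : 𝒯 → ℕ)
    (A : Fin n → 𝒯 → 𝒮 → F) (R : 𝒯 → Finset (Fin n)) (h : IsPivot ord A R)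
    (w : 𝒯 → ℝ) (u : 𝒮 → ℝ) (hw : ∀ a T S, A a T S ≠ 0 → u S = w T)
    (I : Finset (Fin n × 𝒯)) (hI : LinearIndependent F fun p : {p // p ∈ I} => A p.1.1 p.1.2)
    (κ : ℝ) (j : ℕ) :
    (I.filter fun p => w p.2 = κ ∧ p.1.val < j).card ≤
      (Finset.univ.filter fun p : Fin n × 𝒯 => p.1 ∈ R p.2 ∧ w p.2 = κ ∧ p.1.val < j).card := by
  classical
  set J : Finset (Fin n × 𝒯) :=
    Finset.univ.filter fun p : Fin n × 𝒯 => p.1 ∈ R p.2 ∧ w p.2 = κ ∧ p.1.val < j with hJ
  set v : Fin n × 𝒯 → 𝒮 → F := fun p => A p.1 p.2 with hv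
  set U : Submodule F (𝒮 → F) := Submodule.span F ((J.image v : Finset (𝒮 → F)) : Set (𝒮 → F))
    with hU
  -- projection to the columns of class `κ`
  let π : (𝒮 → F) →ₗ[F] (𝒮 → F) :=
    { toFun := fun r S => if u S = κ then r S else 0
      map_add' := fun r s => by
        funext S
        by_cases hS : u S = κ <;> simp [hS]
      map_smul' := fun c r => by
        funext S
        by_cases hS : u S = κ <;> simp [hS] }
  have hπ1 : ∀ a T, w T = κ → π (A a T) = A a T := by
    intro a T hT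
    funext S
    change (if u S = κ then A a T S else 0) = A a T S
    split_ifs with hS
    · rfl
    · by_contra hne
      exact hS ((hw a T S (Ne.symm hne)).trans hT)
  have hπ2 : ∀ a T, w T ≠ κ → π (A a T) = 0 := by
    intro a T hT
    funext S
    change (if u S = κ then A a T S else 0) = 0
    split_ifs with hS
    · by_contra hne
      exact hT ((hw a T S hne).symm.trans hS)
    · rfl
  have hmem : ∀ p : Fin n × 𝒯, w p.2 = κ → p.1.val < j → v p ∈ U := by
    rintro ⟨a, T⟩ hT haj
    have h1 := Submodule.mem_map_of_mem (f := π) (h.span a T)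
    rw [hπ1 a T hT, Submodule.map_span] at h1
    refine Submodule.span_le.2 ?_ h1
    rintro _ ⟨_, ⟨a', T', ha', hlt, rfl⟩, rfl⟩
    by_cases hT' : w T' = κ
    · rw [hπ1 a' T' hT']
      refine Submodule.subset_span ?_
      rw [Finset.mem_coe, Finset.mem_image]
      refine ⟨(a', T'), ?_, rfl⟩
      rw [hJ, Finset.mem_filter]
      refine ⟨Finset.mem_univ _, ha', hT', ?_⟩
      rcases hlt with h2 | ⟨h2, _⟩
      · exact lt_trans (show a'.val < a.val from h2) haj
      · rw [h2]; exact haj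
    · rw [hπ2 a' T' hT']
      exact Submodule.zero_mem _
  have hfin : Module.finrank F U ≤ J.card :=
    (finrank_span_finset_le_card _).trans Finset.card_image_le
  -- the independent family inside `U`
  set I' := I.filter fun p => w p.2 = κ ∧ p.1.val < j with hI'
  have hmem' : ∀ p : {p // p ∈ I'}, v p.1 ∈ U := fun p =>
    hmem _ (Finset.mem_filter.1 p.2).2.1 (Finset.mem_filter.1 p.2).2.2
  have hI2 : LinearIndependent F fun p : {p // p ∈ I'} => (⟨v p.1, hmem' p⟩ : U) := by
    refine LinearIndependent.of_comp U.subtype ?_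
    have h3 := hI.comp (fun p : {p // p ∈ I'} => (⟨p.1, (Finset.mem_filter.1 p.2).1⟩ : {p // p ∈ I}))
      (fun p q hpq => Subtype.ext (by simpa using hpq))
    exact h3
  have h4 := hI2.fintype_card_le_finrank
  rw [Fintype.card_coe] at h4
  exact h4.trans hfin

end Vale.Agent.P346
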