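import Vale.Agent.P346.GDefs

/-!
# P346, all fields: generating function of the initial runs
-/

namespace Vale.Agent.P346

open Finset

namespace GRunAux

/-- length of the initial run of a 0-1 word -/
def run1 {M : ℕ} (h : Fin M → Bool) : ℕ := (Finset.univ.filter fun b : Fin M => ∀ b' ≤ b, h b' = true).card

/-- number of ones -/
def ones {M : ℕ} (h : Fin M → Bool) : ℕ := (Finset.univ.filter fun b : Fin M => h b = true).card

theorem ones_cons {M : ℕ} (c : Bool) (h : Fin M → Bool) :
    ones (Fin.cons c h : Fin (M + 1) → Bool) = (if c = true then 1 else 0) + ones h := by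
  unfold ones
  rw [Fin.univ_succ, Finset.filter_cons]
  cases c
  · simp [Finset.filter_map]
  · simp [Finset.filter_map, add_comm]

theorem run1_cons_false {M : ℕ} (h : Fin M → Bool) :
    run1 (Fin.cons false h : Fin (M + 1) → Bool) = 0 := by
  unfold run1
  rw [Finset.card_eq_zero, Finset.filter_eq_empty_iff]
  intro b _ hb
  have := hb 0 (Fin.zero_le b)
  simp at this

theorem run1_cons_true {M : ℕ} (h : Fin M → Bool) :
    run1 (Fin.cons true h : Fin (M + 1) → Bool) = 1 + run1 h := by
  unfold run1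
  rw [Fin.univ_succ, Finset.filter_cons]
  have h0 : ∀ b' ≤ (0 : Fin (M + 1)), (Fin.cons true h : Fin (M + 1) → Bool) b' = true := by
    intro b' hb'
    have : b' = 0 := nonpos_iff_eq_zero.mp hb'
    subst this
    simp
  rw [if_pos h0, Finset.card_cons, Finset.filter_map, Finset.card_map, add_comm]
  congr 2
  ext b
  simp only [Function.comp_apply, Finset.mem_filter, Finset.mem_univ, true_and,
    Function.Embedding.coeFn_mk]
  constructor
  · intro hb b' hb'
    have := hb b'.succ (Fin.succ_le_succ_iff.mpr hb')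
    simpa using this
  · intro hb b' hb'
    induction b' using Fin.cases with
    | zero => simp
    | succ b' =>
      simp only [Fin.cons_succ]
      exact hb b' (Fin.succ_le_succ_iff.mp hb')

/-- one-site generating function -/
noncomputable def gf (M : ℕ) (x u : ℝ) : ℝ := ∑ h : Fin M → Bool, x ^ ones h * u ^ run1 h

theorem gf_zero (x u : ℝ) : gf 0 x u = 1 := by
  unfold gf ones run1
  simp

theorem sum_cons (M : ℕ) (G : (Fin (M + 1) → Bool) → ℝ) :
    ∑ h, G h = (∑ h : Fin M → Bool, G (Fin.cons true h)) +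
      ∑ h : Fin M → Bool, G (Fin.cons false h) := by
  rw [← (Fin.consEquiv (fun _ : Fin (M + 1) => Bool)).sum_comp, Fintype.sum_prod_type,
    Fintype.sum_bool]
  rfl

theorem gf_one (M : ℕ) (x : ℝ) : gf M x 1 = (1 + x) ^ M := by
  induction M with
  | zero => rw [gf_zero, pow_zero]
  | succ M ih =>
    have h1 : gf (M + 1) x 1 = gf M x 1 + x * gf M x 1 := by
      unfold gf
      rw [sum_cons]
      simp only [one_pow, mul_one, ones_cons]
      simp only [if_true, Bool.false_eq_true, if_false, zero_add, pow_add, pow_one]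
      rw [← Finset.mul_sum]
      ring
    rw [h1, ih]
    ring

theorem gf_succ (M : ℕ) (x u : ℝ) : gf (M + 1) x u = (1 + x) ^ M + x * u * gf M x u := by
  have h1 : gf (M + 1) x u = gf M x 1 + x * u * gf M x u := by
    unfold gf
    rw [sum_cons]
    simp only [one_pow, mul_one, ones_cons, run1_cons_true, run1_cons_false, pow_zero]
    simp only [if_true, Bool.false_eq_true, if_false, zero_add, pow_add, pow_one]
    rw [Finset.mul_sum, add_comm]
    congr 1
    refine Finset.sum_congr rfl fun h _ => ?_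
    ring
  rw [h1, gf_one]

theorem gf_nonneg (M : ℕ) {x u : ℝ} (hx : 0 ≤ x) (hu : 0 ≤ u) : 0 ≤ gf M x u := by
  unfold gf
  positivity

theorem gf_le (M : ℕ) {x s : ℝ} (hx : 0 < x) (hs0 : 0 < s) (hs1 : s ≤ 1) :
    gf M x (1 - s) ≤ (1 + x) ^ M * (1 - (1 - (x / (1 + x)) ^ M) * (x * s / (1 + x * s))) := by
  have h1x : 0 < 1 + x := by linarith
  have h1xs : 0 < 1 + x * s := by positivity
  -- exact formula
  have key : gf M x (1 - s) = (1 + x) ^ M * (1 - (1 - (x * (1 - s) / (1 + x)) ^ M) *
      (x * s / (1 + x * s))) := by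
    induction M with
    | zero => rw [gf_zero]; simp
    | succ M ih =>
      rw [gf_succ, ih, pow_succ (x * (1 - s) / (1 + x)) M]
      generalize (x * (1 - s) / (1 + x)) ^ M = z
      field_simp
      ring
  rw [key]
  have h2 : (x * (1 - s) / (1 + x)) ^ M ≤ (x / (1 + x)) ^ M := by
    apply pow_le_pow_left₀
    · exact div_nonneg (mul_nonneg hx.le (by linarith)) h1x.le
    · gcongr
      nlinarith
  gcongr

/-- 0-1 arrays and configurations -/
def cfgEquiv (n M : ℕ) : (Fin n → Fin M → Bool) ≃ Cfg n M where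
  toFun f := Finset.univ.filter fun p => f p.1 p.2 = true
  invFun τ := fun a b => decide ((a, b) ∈ τ)
  left_inv f := by
    funext a b
    simp
  right_inv τ := by
    ext p
    simp

theorem card_cfgEquiv {n M : ℕ} (f : Fin n → Fin M → Bool) :
    (cfgEquiv n M f).card = ∑ a, ones (f a) := by
  unfold ones
  show (Finset.univ.filter fun p : Fin n × Fin M => f p.1 p.2 = true).card = _
  rw [Finset.card_filter, Fintype.sum_prod_type]
  refine Finset.sum_congr rfl fun a _ => ?_
  rw [Finset.card_filter]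

theorem run_cfgEquiv {n M : ℕ} (f : Fin n → Fin M → Bool) (a : Fin n) :
    run (cfgEquiv n M f) a = run1 (f a) := by
  unfold run run1
  congr 1
  ext b
  simp [cfgEquiv]

theorem sum_cfg {n M : ℕ} (x u : ℝ) (R : Finset (Fin n)) :
    ∑ τ : Cfg n M, x ^ τ.card * u ^ (∑ a ∈ R, run τ a) =
      gf M x u ^ R.card * gf M x 1 ^ (n - R.card) := by
  rw [← (cfgEquiv n M).sum_comp]
  have h1 : ∀ f : Fin n → Fin M → Bool, x ^ (cfgEquiv n M f).card *
      u ^ (∑ a ∈ R, run (cfgEquiv n M f) a) =
      ∏ a : Fin n, (x ^ ones (f a) * (if a ∈ R then u ^ run1 (f a) else 1)) := by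
    intro f
    rw [Finset.prod_mul_distrib, card_cfgEquiv, ← Finset.prod_pow_eq_pow_sum,
      ← Finset.prod_pow_eq_pow_sum]
    congr 1
    rw [Finset.prod_ite_mem, Finset.univ_inter]
    exact Finset.prod_congr rfl fun a _ => by rw [run_cfgEquiv]
  rw [Finset.sum_congr rfl fun f _ => h1 f]
  have h2 := Finset.prod_univ_sum (fun _ : Fin n => (Finset.univ : Finset (Fin M → Bool)))
    (fun a h => x ^ ones h * (if a ∈ R then u ^ run1 h else 1))
  rw [Fintype.piFinset_univ] at h2
  rw [← h2]
  have h3 : ∀ a : Fin n, (∑ h : Fin M → Bool, x ^ ones h * (if a ∈ R then u ^ run1 h else 1)) =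
      if a ∈ R then gf M x u else gf M x 1 := by
    intro a
    unfold gf
    split_ifs <;> simp
  rw [Finset.prod_congr rfl fun a _ => h3 a, Finset.prod_ite, Finset.prod_const,
    Finset.prod_const]
  congr 2
  · congr 1
    ext a
    simp
  · have : (Finset.univ.filter fun a : Fin n => a ∉ R) = Rᶜ := by
      ext a
      simp
    rw [this, Finset.card_compl, Fintype.card_fin]

end GRunAux

open GRunAux

/-- `E_M = 1/(1+x) + (x u/(1+x)) E_{M-1}`, `u = 1 - s`, for the average of `u ^ run` at one site -/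
theorem run_sum_ge {n M : ℕ} (x s : ℝ) (hx : 0 < x) (hs0 : 0 < s) (hs1 : s ≤ 1)
    (R : Finset (Fin n)) :
    (1 + x) ^ (n * M) *
        (1 - (1 - (1 - (x / (1 + x)) ^ M) * (x * s / (1 + x * s))) ^ R.card) ≤
      ∑ τ : Cfg n M, x ^ τ.card * (1 - (1 - s) ^ (∑ a ∈ R, run τ a)) := by
  have h1x : 0 < 1 + x := by linarith
  have hR : R.card ≤ n := by simpa using Finset.card_le_univ R
  have h1 := sum_cfg (M := M) x (1 - s) R
  have h2 := sum_cfg (M := M) x 1 R
  simp only [one_pow, mul_one] at h2
  have h3 : gf M x 1 ^ R.card * gf M x 1 ^ (n - R.card) = (1 + x) ^ (n * M) := by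
    rw [← pow_add, Nat.add_sub_cancel' hR, gf_one, ← pow_mul, mul_comm]
  rw [h3] at h2
  have h4 : ∑ τ : Cfg n M, x ^ τ.card * (1 - (1 - s) ^ (∑ a ∈ R, run τ a)) =
      (1 + x) ^ (n * M) - gf M x (1 - s) ^ R.card * gf M x 1 ^ (n - R.card) := by
    rw [← h1, ← h2, ← Finset.sum_sub_distrib]
    exact Finset.sum_congr rfl fun τ _ => by ring
  rw [h4]
  have h5 : gf M x (1 - s) ^ R.card * gf M x 1 ^ (n - R.card) ≤
      (1 + x) ^ (n * M) * (1 - (1 - (x / (1 + x)) ^ M) * (x * s / (1 + x * s))) ^ R.card := by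
    have h6 := pow_le_pow_left₀ (gf_nonneg M hx.le (by linarith : (0 : ℝ) ≤ 1 - s))
      (gf_le M hx hs0 hs1) R.card
    rw [mul_pow] at h6
    calc gf M x (1 - s) ^ R.card * gf M x 1 ^ (n - R.card)
        ≤ (((1 + x) ^ M) ^ R.card *
          (1 - (1 - (x / (1 + x)) ^ M) * (x * s / (1 + x * s))) ^ R.card) *
          gf M x 1 ^ (n - R.card) := by
          apply mul_le_mul_of_nonneg_right h6
          exact pow_nonneg (gf_nonneg M hx.le zero_le_one) _
      _ = (gf M x 1 ^ R.card * gf M x 1 ^ (n - R.card)) *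
          (1 - (1 - (x / (1 + x)) ^ M) * (x * s / (1 + x * s))) ^ R.card := by
          rw [gf_one]; ring
      _ = _ := by rw [h3]
  linarith

end Vale.Agent.P346
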