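import Vale.Agent.P346.GStep
import Vale.Agent.P346.GPivot
import Vale.Agent.P346.GAbel
import Vale.Agent.P346.GRun

/-! # P346, all fields: the process of pivot sets -/

namespace Vale.Agent.P346

open MvPolynomial Finset

namespace GProcAux

/-- geometric sum -/
theorem sum_geom_min (n m : ℕ) (s : ℝ) :
    ∑ c : Fin n, (if c.val < m then s * (1 - s) ^ c.val else 0) = 1 - (1 - s) ^ (min n m) := by
  rw [Fin.sum_univ_eq_sum_range (fun c => if c < m then s * (1 - s) ^ c else 0) n,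
    ← Finset.sum_filter]
  have h : (range n).filter (fun c => c < m) = range (min n m) := by
    ext c; simp
  rw [h, ← Finset.mul_sum]
  have h2 := mul_neg_geom_sum (1 - s) (min n m)
  have h3 : 1 - (1 - s) = s := by ring
  rw [h3] at h2
  exact h2

theorem g_min_ge (n m : ℕ) (s : ℝ) (hs0 : 0 < s) (hs1 : s ≤ 1) :
    (1 - (1 - s) ^ n) * (1 - (1 - s) ^ m) ≤ 1 - (1 - s) ^ (min n m) := by
  have h0 : 0 ≤ 1 - s := by linarith
  have h1 : 1 - s ≤ 1 := by linarith
  have hn : (1 - s) ^ n ≤ 1 := pow_le_one₀ h0 h1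
  have hm : (1 - s) ^ m ≤ 1 := pow_le_one₀ h0 h1
  have hn' : 0 ≤ (1 - s) ^ n := pow_nonneg h0 _
  have hm' : 0 ≤ (1 - s) ^ m := pow_nonneg h0 _
  rcases le_total n m with h | h
  · rw [min_eq_left h]; nlinarith
  · rw [min_eq_right h]; nlinarith

/-- the sum over a set of labels is at most the sum over the first labels -/
theorem sum_label_le {n : ℕ} (R : Finset (Fin n)) (ψ : ℝ) (h0 : 0 < ψ) (h1 : ψ ≤ 1) :
    ∑ a ∈ R, ψ * (1 - ψ) ^ a.val ≤ 1 - (1 - ψ) ^ R.card := by
  have h2 := mul_neg_geom_sum (1 - ψ) R.card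
  have h3 : 1 - (1 - ψ) = ψ := by ring
  rw [h3] at h2
  rw [← h2, ← Finset.mul_sum]
  refine mul_le_mul_of_nonneg_left ?_ h0.le
  -- use the order embedding of R
  have e := R.orderEmbOfFin rfl
  have h4 : ∑ a ∈ R, (1 - ψ) ^ a.val = ∑ i : Fin R.card, (1 - ψ) ^ (R.orderEmbOfFin rfl i).val := by
    rw [← Finset.sum_coe_sort R (fun a => (1 - ψ) ^ a.val)]
    rw [← Equiv.sum_comp (R.orderIsoOfFin rfl).toEquiv]
    rfl
  rw [h4, ← Fin.sum_univ_eq_sum_range (fun i => (1 - ψ) ^ i)]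
  refine Finset.sum_le_sum fun i _ => ?_
  refine pow_le_pow_of_le_one (by linarith) (by linarith) ?_
  -- i ≤ value of the i-th element
  have : ∀ j : ℕ, ∀ hj : j < R.card, j ≤ (R.orderEmbOfFin rfl ⟨j, hj⟩).val := by
    intro j
    induction j with
    | zero => intro _; exact Nat.zero_le _
    | succ j ih =>
      intro hj
      have h5 := ih (by omega)
      have h6 : (R.orderEmbOfFin rfl ⟨j, by omega⟩) < (R.orderEmbOfFin rfl ⟨j + 1, hj⟩) := by
        rw [OrderEmbedding.lt_iff_lt]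
        simp
      have h7 : (R.orderEmbOfFin rfl ⟨j, by omega⟩).val < (R.orderEmbOfFin rfl ⟨j + 1, hj⟩).val := h6
      omega
  exact this i.val i.isLt

end GProcAux

open GProcAux

/-- one step of the process -/
theorem proc_step {n M : ℕ} {F : Type*} [Field F] [Infinite F] {𝒯 𝒮 : Type*} [Fintype 𝒯]
    [Fintype 𝒮] (ord : 𝒯 → ℕ) (hord : Function.Injective ord) (A : Fin n → 𝒯 → 𝒮 → F)
    (R : 𝒯 → Finset (Fin n)) (h : IsPivot ord A R) (w : 𝒯 → ℝ) (hw0 : ∀ T, 0 ≤ w T)
    (u : 𝒮 → ℝ) (hw : ∀ a T S, A a T S ≠ 0 → u S = w T) (x : ℝ) (hx : 0 < x) :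
    ∃ (v : Fin n → Fin M → Fin n → F) (ord' : 𝒯 × Cfg n M → ℕ)
      (R' : 𝒯 × Cfg n M → Finset (Fin n)), Function.Injective ord' ∧
      IsPivot ord' (nextRow A v) R' ∧ ∀ s : ℝ, 0 < s → s ≤ 1 →
        (1 - (1 - s) ^ n) * ((1 + x) ^ (n * M) * ∑ T, w T *
          ∑ a ∈ R T, ((1 - (x / (1 + x)) ^ M) * (x * s / (1 + x * s))) *
            (1 - (1 - (x / (1 + x)) ^ M) * (x * s / (1 + x * s))) ^ a.val) ≤
        ∑ T : 𝒯 × Cfg n M, (w T.1 * x ^ T.2.card) * ∑ c ∈ R' T, s * (1 - s) ^ c.val := by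
  classical
  obtain ⟨v, hv⟩ := gstep (M := M) ord hord A R h
  let ord' : 𝒯 × Cfg n M → ℕ := fun T => (Fintype.equivFin (𝒯 × Cfg n M) T).val
  have hord' : Function.Injective ord' := fun T T' hTT => by
    exact (Fintype.equivFin (𝒯 × Cfg n M)).injective (Fin.ext hTT)
  obtain ⟨R', hR'⟩ := exists_pivot ord' hord' (nextRow A v)
  refine ⟨v, ord', R', hord', hR', ?_⟩
  intro s hs0 hs1
  set ψ : ℝ := (1 - (x / (1 + x)) ^ M) * (x * s / (1 + x * s)) with hψ
  have h1x : 0 < 1 + x := by linarith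
  have hxs : 0 < x * s := mul_pos hx hs0
  have hψ0 : 0 ≤ ψ := by
    have : (x / (1 + x)) ^ M ≤ 1 := by
      refine pow_le_one₀ (by positivity) ?_
      rw [div_le_one h1x]; linarith
    have h2 : 0 ≤ x * s / (1 + x * s) := by positivity
    exact mul_nonneg (by linarith) h2
  have hψ1 : ψ ≤ 1 := by
    have h0 : 0 ≤ (x / (1 + x)) ^ M := by positivity
    have h2 : x * s / (1 + x * s) ≤ 1 := by rw [div_le_one (by linarith)]; linarith
    have h3 : 0 ≤ x * s / (1 + x * s) := by positivity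
    calc ψ ≤ 1 * (x * s / (1 + x * s)) := by
          rw [hψ]; exact mul_le_mul_of_nonneg_right (by linarith) h3
      _ ≤ 1 := by linarith
  -- the classes
  have hcl : ∀ a (T : 𝒯 × Cfg n M) (S : 𝒮 × Cfg n M), nextRow A v a T S ≠ 0 →
      u S.1 * (x ^ (S.2.card + 1)) = w T.1 * x ^ T.2.card := by
    intro a T S hne
    unfold nextRow at hne
    obtain ⟨p, hp, hpne⟩ := Finset.exists_ne_zero_of_sum_ne_zero hne
    split_ifs at hpne with hS
    · rw [hS, Finset.card_erase_add_one hp, hw p.1 T.1 S.1 (right_ne_zero_of_mul hpne)]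
    · exact absurd rfl hpne
  set I : Finset (Fin n × (𝒯 × Cfg n M)) :=
    univ.filter fun p => p.1.val < ∑ a ∈ R p.2.1, run p.2.2 a with hI
  set P : Finset (Fin n × (𝒯 × Cfg n M)) := univ.filter fun p => p.1 ∈ R' p.2 with hP
  have hmemI : ∀ p ∈ I, p.1.val < ∑ a ∈ R p.2.1, run p.2.2 a := fun p hp =>
    (Finset.mem_filter.1 hp).2
  have hIind : LinearIndependent F fun p : {p // p ∈ I} => nextRow A v p.1.1 p.1.2 :=
    hv.comp (fun p : {p // p ∈ I} => (⟨p.1, hmemI p.1 p.2⟩ :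
        {p : Fin n × (𝒯 × Cfg n M) // p.1.val < ∑ a ∈ R p.2.1, run p.2.2 a})) (by
      intro p p' hpp
      exact Subtype.ext (Subtype.mk.inj hpp))
  have hcount : ∀ κ j, (I.filter fun p => w p.2.1 * x ^ p.2.2.card = κ ∧ p.1.val < j).card ≤
      (P.filter fun p => w p.2.1 * x ^ p.2.2.card = κ ∧ p.1.val < j).card := by
    intro κ j
    have := pivot_count ord' (nextRow A v) R' hR' (fun T => w T.1 * x ^ T.2.card)
      (fun S => u S.1 * (x ^ (S.2.card + 1))) hcl I hIind κ j
    have e : P.filter (fun p => w p.2.1 * x ^ p.2.2.card = κ ∧ p.1.val < j) =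
        univ.filter fun p : Fin n × (𝒯 × Cfg n M) =>
          p.1 ∈ R' p.2 ∧ w p.2.1 * x ^ p.2.2.card = κ ∧ p.1.val < j := by
      rw [hP, Finset.filter_filter]
    rw [e]
    exact this
  have hw' : ∀ T : 𝒯 × Cfg n M, 0 ≤ w T.1 * x ^ T.2.card := fun T =>
    mul_nonneg (hw0 _) (by positivity)
  have habel := abel_le (fun T : 𝒯 × Cfg n M => w T.1 * x ^ T.2.card) hw' I P hcount
    (fun c => s * (1 - s) ^ c) (by
      intro c d hcd
      exact mul_le_mul_of_nonneg_left (pow_le_pow_of_le_one (by linarith) (by linarith) hcd)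
        hs0.le) (by
      intro c
      exact mul_nonneg hs0.le (pow_nonneg (by linarith) _))
  -- right-hand side
  have hRHS : ∑ p ∈ P, (w p.2.1 * x ^ p.2.2.card) * (s * (1 - s) ^ p.1.val) =
      ∑ T : 𝒯 × Cfg n M, (w T.1 * x ^ T.2.card) * ∑ c ∈ R' T, s * (1 - s) ^ c.val := by
    rw [hP, Finset.sum_filter, Fintype.sum_prod_type_right]
    refine Finset.sum_congr rfl fun T _ => ?_
    rw [Finset.mul_sum, ← Finset.sum_filter]
    refine Finset.sum_congr ?_ fun _ _ => rfl
    ext c; simp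
  -- left-hand side
  have hLHS : ∑ p ∈ I, (w p.2.1 * x ^ p.2.2.card) * (s * (1 - s) ^ p.1.val) =
      ∑ T : 𝒯 × Cfg n M, (w T.1 * x ^ T.2.card) *
        (1 - (1 - s) ^ (min n (∑ a ∈ R T.1, run T.2 a))) := by
    rw [hI, Finset.sum_filter, Fintype.sum_prod_type_right]
    refine Finset.sum_congr rfl fun T _ => ?_
    rw [← sum_geom_min n _ s, Finset.mul_sum]
    refine Finset.sum_congr rfl fun c _ => ?_
    split_ifs <;> simp
  rw [hRHS, hLHS] at habel
  refine le_trans ?_ habel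
  -- lower bound for the left-hand side
  have hgn : 0 ≤ 1 - (1 - s) ^ n := by
    have : (1 - s) ^ n ≤ 1 := pow_le_one₀ (by linarith) (by linarith)
    linarith
  calc (1 - (1 - s) ^ n) * ((1 + x) ^ (n * M) * ∑ T, w T * ∑ a ∈ R T, ψ * (1 - ψ) ^ a.val)
      ≤ (1 - (1 - s) ^ n) * ∑ T, w T * ((1 + x) ^ (n * M) * (1 - (1 - ψ) ^ (R T).card)) := by
        refine mul_le_mul_of_nonneg_left ?_ hgn
        rw [Finset.mul_sum]
        refine Finset.sum_le_sum fun T _ => ?_
        have h3 : ∑ a ∈ R T, ψ * (1 - ψ) ^ a.val ≤ 1 - (1 - ψ) ^ (R T).card := by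
          rcases hψ0.eq_or_lt with h4 | h4
          · rw [← h4]; simp
          · exact sum_label_le (R T) ψ h4 hψ1
        have h5 : 0 ≤ w T := hw0 T
        have h6 : 0 ≤ (1 + x) ^ (n * M) := by positivity
        calc (1 + x) ^ (n * M) * (w T * ∑ a ∈ R T, ψ * (1 - ψ) ^ a.val)
            = w T * ((1 + x) ^ (n * M) * ∑ a ∈ R T, ψ * (1 - ψ) ^ a.val) := by ring
          _ ≤ w T * ((1 + x) ^ (n * M) * (1 - (1 - ψ) ^ (R T).card)) := by gcongr
    _ ≤ (1 - (1 - s) ^ n) * ∑ T, w T *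
          ∑ τ : Cfg n M, x ^ τ.card * (1 - (1 - s) ^ (∑ a ∈ R T, run τ a)) := by
        refine mul_le_mul_of_nonneg_left ?_ hgn
        refine Finset.sum_le_sum fun T _ => ?_
        exact mul_le_mul_of_nonneg_left (run_sum_ge x s hx hs0 hs1 (R T)) (hw0 T)
    _ = ∑ T : 𝒯 × Cfg n M, (w T.1 * x ^ T.2.card) * ((1 - (1 - s) ^ n) *
        (1 - (1 - s) ^ (∑ a ∈ R T.1, run T.2 a))) := by
        rw [Fintype.sum_prod_type, Finset.mul_sum]
        refine Finset.sum_congr rfl fun T _ => ?_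
        rw [Finset.mul_sum, Finset.mul_sum]
        refine Finset.sum_congr rfl fun τ _ => ?_
        ring
    _ ≤ ∑ T : 𝒯 × Cfg n M, (w T.1 * x ^ T.2.card) *
        (1 - (1 - s) ^ (min n (∑ a ∈ R T.1, run T.2 a))) := by
        refine Finset.sum_le_sum fun T _ => ?_
        exact mul_le_mul_of_nonneg_left (g_min_ge n _ s hs0 hs1) (hw' T)

namespace GProcAux

theorem rowsA_congr {n M : ℕ} [NeZero n] {F : Type*} [Field F]
    (v v' : ℕ → Fin n → Fin M → Fin n → F) :
    ∀ t : ℕ, (∀ i < t, v i = v' i) → rowsA v t = rowsA v' t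
  | 0, _ => rfl
  | t + 1, h => by
    show nextRow (rowsA v t) (v t) = nextRow (rowsA v' t) (v' t)
    rw [rowsA_congr v v' t fun i hi => h i (by omega), h t (by omega)]

theorem wH_nonneg {n M : ℕ} (x : ℕ → ℝ) (hx : ∀ t, 0 < x t) :
    ∀ (t : ℕ) (T : Hist n M t), 0 ≤ wH x t T
  | 0, _ => by
    show (0 : ℝ) ≤ 1
    norm_num
  | t + 1, T => by
    show 0 ≤ wH x t T.1 * x t ^ T.2.card
    have := wH_nonneg x hx t T.1
    have := hx t
    positivity

/-- the classes of the rows -/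
theorem rowsA_class {n M : ℕ} [NeZero n] {F : Type*} [Field F]
    (v : ℕ → Fin n → Fin M → Fin n → F) (x : ℕ → ℝ) :
    ∀ (t : ℕ) (a : Fin n) (T S : Hist n M t), rowsA v t a T S ≠ 0 →
      wH x t S * ∏ i ∈ range t, x i = wH x t T
  | 0, _, _, _, _ => by
    show (1 : ℝ) * _ = 1
    simp
  | t + 1, a, T, S, h => by
    change (∑ p ∈ T.2, if S.2 = T.2.erase p then v t p.1 p.2 a * rowsA v t p.1 T.1 S.1
      else 0) ≠ 0 at h
    obtain ⟨p, hp, hpne⟩ := Finset.exists_ne_zero_of_sum_ne_zero h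
    split_ifs at hpne with hS
    · have ih := rowsA_class v x t p.1 T.1 S.1 (right_ne_zero_of_mul hpne)
      show (wH x t S.1 * x t ^ S.2.card) * _ = wH x t T.1 * x t ^ T.2.card
      rw [hS, ← Finset.card_erase_add_one hp, Finset.prod_range_succ, ← ih]
      ring
    · exact absurd rfl hpne

/-- the functional -/
noncomputable def Gf {n M : ℕ} (x : ℕ → ℝ) (t : ℕ) (R : Hist n M t → Finset (Fin n)) (s : ℝ) :
    ℝ := ∑ T : Hist n M t, wH x t T * ∑ a ∈ R T, s * (1 - s) ^ a.val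

theorem Gf_scale {n M : ℕ} (x : ℕ → ℝ) (hx : ∀ t, 0 < x t) (t : ℕ)
    (R : Hist n M t → Finset (Fin n)) (s s' : ℝ) (hs : 0 ≤ s) (hss : s ≤ s') (hs' : 0 < s')
    (h1 : s' ≤ 1) : s / s' * Gf x t R s' ≤ Gf x t R s := by
  unfold Gf
  rw [Finset.mul_sum]
  refine Finset.sum_le_sum fun T _ => ?_
  have hw := wH_nonneg x hx t T
  calc s / s' * (wH x t T * ∑ a ∈ R T, s' * (1 - s') ^ a.val)
      = wH x t T * ∑ a ∈ R T, s * (1 - s') ^ a.val := by
        rw [mul_left_comm, Finset.mul_sum, Finset.mul_sum, Finset.mul_sum]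
        congr 1
        funext a
        field_simp
    _ ≤ wH x t T * ∑ a ∈ R T, s * (1 - s) ^ a.val := by
        refine mul_le_mul_of_nonneg_left ?_ hw
        refine Finset.sum_le_sum fun a _ => ?_
        refine mul_le_mul_of_nonneg_left ?_ hs
        exact pow_le_pow_left₀ (by linarith) (by linarith) _

theorem pivot_zero {n M : ℕ} [NeZero n] {F : Type*} [Field F]
    (v : ℕ → Fin n → Fin M → Fin n → F) :
    IsPivot (fun _ => 0) (rowsA v 0) (fun _ : Hist n M 0 => ({0} : Finset (Fin n))) := by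
  refine ⟨?_, ?_⟩
  · have hu : Subsingleton {p : Fin n × Hist n M 0 // p.1 ∈ ({0} : Finset (Fin n))} := by
      refine ⟨fun p q => Subtype.ext (Prod.ext ?_ ?_)⟩
      · have h1 := Finset.mem_singleton.1 p.2
        have h2 := Finset.mem_singleton.1 q.2
        rw [h1, h2]
      · show (p.1.2 : Unit) = q.1.2
        rfl
    rw [linearIndependent_subsingleton_index_iff]
    intro p hp
    have h1 := Finset.mem_singleton.1 p.2
    have h2 := congrFun hp p.1.2
    change (if p.1.1 = 0 then (1 : F) else 0) = 0 at h2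
    rw [if_pos h1] at h2
    exact one_ne_zero h2
  · intro a T
    by_cases ha : a = 0
    · refine Submodule.subset_span ⟨a, T, ?_, Or.inr ⟨rfl, le_rfl⟩, rfl⟩
      rw [ha]; exact Finset.mem_singleton_self _
    · have : (rowsA v 0 a T : Hist n M 0 → F) = 0 := by
        funext S
        show (if a = 0 then (1 : F) else 0) = 0
        rw [if_neg ha]
      rw [this]
      exact Submodule.zero_mem _

end GProcAux

open GProcAux

theorem gproc_aux {n M : ℕ} [NeZero n] {F : Type*} [Field F] [Infinite F] (x : ℕ → ℝ)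
    (hx : ∀ t, 0 < x t) (Z B δ : ℝ) (hZ : 1 ≤ Z) (N : ℕ)
    (h1 : ∀ t ≤ N, 1 ≤ ∏ i ∈ range t, x i) (hB : ∀ t ≤ N, ∏ i ∈ range t, x i ≤ B)
    (hδ : ∀ t < N, (x t / (1 + x t)) ^ M ≤ δ) (hδ1 : δ ≤ 1) :
    ∀ t ≤ N, ∃ (v : ℕ → Fin n → Fin M → Fin n → F) (ord : Hist n M t → ℕ)
      (R : Hist n M t → Finset (Fin n)), Function.Injective ord ∧ IsPivot ord (rowsA v t) R ∧
      ∀ s : ℝ, 0 < s → s ≤ 1 → 1 ≤ s * (Z * ∏ i ∈ range t, x i) →
        1 / Z * ((Z / (Z + 1)) * (1 - δ) * (1 - Real.exp (-(n / (Z * B))))) ^ t *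
          ∏ i ∈ range t, (1 + x i) ^ (n * M) ≤ Gf x t R s := by
  intro t
  have hZ0 : 0 < Z := by linarith
  have hB0 : 0 < B := by
    have h2 := h1 0 (Nat.zero_le _)
    have h3 := hB 0 (Nat.zero_le _)
    linarith
  have hn0 : 0 < (n : ℝ) := by exact_mod_cast Nat.pos_of_ne_zero (NeZero.ne n)
  have hexp : 0 ≤ 1 - Real.exp (-(n / (Z * B))) := by
    have : Real.exp (-(n / (Z * B))) ≤ 1 := by
      rw [Real.exp_le_one_iff]
      have : 0 ≤ n / (Z * B) := by positivity
      linarith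
    linarith
  have hc0 : 0 ≤ (Z / (Z + 1)) * (1 - δ) * (1 - Real.exp (-(n / (Z * B)))) :=
    mul_nonneg (mul_nonneg (by positivity) (by linarith)) hexp
  induction t with
  | zero =>
    intro _
    refine ⟨fun _ _ _ _ => 0, fun _ => 0, fun _ => {0}, ?_, pivot_zero _, ?_⟩
    · intro T T' _
      show (T : Unit) = T'
      rfl
    · intro s hs0 hs1 hs
      have e : Gf x 0 (fun _ : Hist n M 0 => ({0} : Finset (Fin n))) s = s := by
        unfold Gf
        have : Fintype.card (Hist n M 0) = 1 := rfl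
        show ∑ T : Unit, (1 : ℝ) * _ = s
        simp
      rw [e]
      simp only [Finset.range_zero, Finset.prod_empty, mul_one, pow_zero] at hs ⊢
      rw [div_le_iff₀ hZ0]
      exact hs
  | succ t ih =>
    intro ht
    obtain ⟨v, ord, R, hord, hR, hG⟩ := ih (by omega)
    obtain ⟨vt, ord', R', hord', hR', hstep⟩ := proc_step (M := M) ord hord (rowsA v t) R hR
      (wH x t) (wH_nonneg x hx t) (fun S => wH x t S * ∏ i ∈ range t, x i)
      (rowsA_class v x t) (x t) (hx t)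
    set v' : ℕ → Fin n → Fin M → Fin n → F := Function.update v t vt with hv'
    have hrows : rowsA v' (t + 1) = nextRow (rowsA v t) vt := by
      show nextRow (rowsA v' t) (v' t) = _
      rw [rowsA_congr v' v t fun i hi => by
        rw [hv', Function.update_of_ne (by omega)]]
      rw [hv', Function.update_self]
    refine ⟨v', ord', R', hord', ?_, ?_⟩
    · rw [hrows]; exact hR'
    intro s hs0 hs1 hs
    have hst := hstep s hs0 hs1
    set q : ℝ := (x t / (1 + x t)) ^ M with hq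
    set ψ' : ℝ := x t * s / (1 + x t * s) with hψ'
    set Pt : ℝ := ∏ i ∈ range t, x i with hPt
    have hxt := hx t
    have hP1 : 1 ≤ Pt := h1 t (by omega)
    have hP0 : 0 < Pt := by linarith
    have hPs : ∏ i ∈ range (t + 1), x i = Pt * x t := Finset.prod_range_succ _ _
    rw [hPs] at hs
    have hqδ : q ≤ δ := hδ t (by omega)
    have hq0 : 0 ≤ q := by positivity
    have hxs : 0 < x t * s := mul_pos hxt hs0
    have hψ'0 : 0 < ψ' := by positivity
    have hψ'1 : ψ' ≤ 1 := by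
      rw [hψ', div_le_one (by linarith)]; linarith
    have hq1 : 0 ≤ 1 - q := by linarith
    have hψ0 : 0 ≤ (1 - q) * ψ' := mul_nonneg hq1 hψ'0.le
    -- the key lower bound
    have hlow : (Z / (Z + 1)) * (1 - δ) ≤ ((1 - q) * ψ') * (Z * Pt) := by
      have h2 : Z / (Z + 1) ≤ ψ' * (Z * Pt) := by
        -- ψ' ≥ 1 / (1 + Z Pt)
        have h3 : 1 / (1 + Z * Pt) ≤ ψ' := by
          rw [hψ', div_le_div_iff₀ (by positivity) (by positivity)]
          nlinarith
        have h4 : Z / (Z + 1) ≤ 1 / (1 + Z * Pt) * (Z * Pt) := by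
          rw [div_mul_eq_mul_div, one_mul, div_le_div_iff₀ (by positivity) (by positivity)]
          nlinarith
        exact h4.trans (mul_le_mul_of_nonneg_right h3 (by positivity))
      calc (Z / (Z + 1)) * (1 - δ) ≤ (ψ' * (Z * Pt)) * (1 - q) := by
            apply mul_le_mul h2 (by linarith) (by linarith) (by positivity)
        _ = _ := by ring
    have hlow1 : (Z / (Z + 1)) * (1 - δ) ≤ 1 := by
      have h2 : Z / (Z + 1) ≤ 1 := by rw [div_le_one (by linarith)]; linarith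
      have h3 : 1 - δ ≤ 1 := by linarith
      calc (Z / (Z + 1)) * (1 - δ) ≤ 1 * 1 := mul_le_mul h2 h3 (by linarith) (by norm_num)
        _ = 1 := by norm_num
    set c : ℝ := (Z / (Z + 1)) * (1 - δ) * (1 - Real.exp (-(n / (Z * B)))) with hc
    set W : ℝ := ∏ i ∈ range t, (1 + x i) ^ (n * M) with hW
    have hW0 : 0 ≤ W := Finset.prod_nonneg fun i _ => by have := hx i; positivity
    have hct : 0 ≤ 1 / Z * c ^ t * W := by positivity
    -- the functional at ψ
    have hGψ : (Z / (Z + 1)) * (1 - δ) * (1 / Z * c ^ t * W) ≤ Gf x t R ((1 - q) * ψ') := by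
      by_cases hcase : 1 ≤ ((1 - q) * ψ') * (Z * Pt)
      · have hpos : 0 < (1 - q) * ψ' := by
          by_contra hcon
          push Not at hcon
          have h2 : (1 - q) * ψ' * (Z * Pt) ≤ 0 :=
            mul_nonpos_of_nonpos_of_nonneg hcon (by positivity)
          linarith
        have hle : (1 - q) * ψ' ≤ 1 := by nlinarith
        refine le_trans ?_ (hG _ hpos hle hcase)
        calc (Z / (Z + 1)) * (1 - δ) * (1 / Z * c ^ t * W) ≤ 1 * (1 / Z * c ^ t * W) :=
              mul_le_mul_of_nonneg_right hlow1 hct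
          _ = _ := one_mul _
      · push Not at hcase
        have hZP : 0 < Z * Pt := by positivity
        have hs' : 0 < 1 / (Z * Pt) := by positivity
        have hs'1 : 1 / (Z * Pt) ≤ 1 := by
          rw [div_le_one hZP]; nlinarith
        have hle : (1 - q) * ψ' ≤ 1 / (Z * Pt) := by
          rw [le_div_iff₀ hZP]; exact hcase.le
        have h2 := Gf_scale x hx t R _ _ hψ0 hle hs' hs'1
        refine le_trans ?_ h2
        have h3 := hG (1 / (Z * Pt)) hs' hs'1 (by rw [one_div, inv_mul_cancel₀ hZP.ne'])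
        have h4 : (1 - q) * ψ' / (1 / (Z * Pt)) = (1 - q) * ψ' * (Z * Pt) := by
          rw [div_div_eq_mul_div, div_one]
        rw [h4]
        exact mul_le_mul hlow h3 hct (by positivity)
    -- the factor 1 - (1 - s)^n
    have hgn : 1 - Real.exp (-(n / (Z * B))) ≤ 1 - (1 - s) ^ n := by
      have h2 : (1 - s) ^ n ≤ Real.exp (-(n * s)) := by
        calc (1 - s) ^ n ≤ Real.exp (-s) ^ n := by
              refine pow_le_pow_left₀ (by linarith) ?_ n
              have := Real.add_one_le_exp (-s)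
              linarith
          _ = Real.exp (-(n * s)) := by
              rw [← Real.exp_nat_mul]
              congr 1
              ring
      have h3 : Real.exp (-(n * s)) ≤ Real.exp (-(n / (Z * B))) := by
        apply Real.exp_le_exp.2
        have h4 : 1 / (Z * B) ≤ s := by
          rw [div_le_iff₀ (by positivity)]
          have h5 : Pt * x t ≤ B := by
            rw [← hPs]; exact hB (t + 1) ht
          calc 1 ≤ s * (Z * (Pt * x t)) := hs
            _ ≤ s * (Z * B) := by gcongr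
        have h6 : (n : ℝ) / (Z * B) = n * (1 / (Z * B)) := by ring
        rw [h6]
        have : n * (1 / (Z * B)) ≤ n * s := by gcongr
        linarith
      linarith
    have hstep2 : (1 - (1 - s) ^ n) * ((1 + x t) ^ (n * M) * Gf x t R ((1 - q) * ψ')) ≤
        Gf x (t + 1) R' s := hst
    refine le_trans ?_ hstep2
    rw [pow_succ, Finset.prod_range_succ, ← hW]
    have h5 : 0 ≤ (1 + x t) ^ (n * M) := by positivity
    calc 1 / Z * (c ^ t * c) * (W * (1 + x t) ^ (n * M))
        = (1 - Real.exp (-(n / (Z * B)))) * ((1 + x t) ^ (n * M) *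
            ((Z / (Z + 1)) * (1 - δ) * (1 / Z * c ^ t * W))) := by
          rw [hc]; ring
      _ ≤ (1 - (1 - s) ^ n) * ((1 + x t) ^ (n * M) * Gf x t R ((1 - q) * ψ')) := by
          apply mul_le_mul hgn _ _ (hexp.trans hgn)
          · exact mul_le_mul_of_nonneg_left hGψ h5
          · refine mul_nonneg h5 (mul_nonneg ?_ hct)
            exact mul_nonneg (by positivity) (by linarith)

theorem gproc {n M : ℕ} [NeZero n] {F : Type*} [Field F] [Infinite F] (x : ℕ → ℝ)
    (hx : ∀ t, 0 < x t) (Z B δ : ℝ) (hZ : 1 ≤ Z) (N : ℕ)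
    (h1 : ∀ t ≤ N, 1 ≤ ∏ i ∈ range t, x i) (hB : ∀ t ≤ N, ∏ i ∈ range t, x i ≤ B)
    (hδ : ∀ t < N, (x t / (1 + x t)) ^ M ≤ δ) (hδ1 : δ ≤ 1) :
    ∃ (v : ℕ → Fin n → Fin M → Fin n → F) (I : Finset (Hist n M N)),
      (LinearIndependent F fun T : {T // T ∈ I} => rowsA v N 0 T.1) ∧
      1 / Z * ((Z / (Z + 1)) * (1 - δ) * (1 - Real.exp (-(n / (Z * B))))) ^ N *
        ∏ i ∈ range N, (1 + x i) ^ (n * M) ≤ ∑ T ∈ I, wH x N T := by
  classical
  obtain ⟨v, ord, R, hord, hR, hG⟩ := gproc_aux (n := n) (F := F) (M := M) x hx Z B δ hZ N h1 hB hδ hδ1 N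
    le_rfl
  refine ⟨v, univ.filter fun T => (0 : Fin n) ∈ R T, ?_, ?_⟩
  · have hmem : ∀ T ∈ (univ.filter fun T : Hist n M N => (0 : Fin n) ∈ R T), (0 : Fin n) ∈ R T :=
      fun T hT => (Finset.mem_filter.1 hT).2
    exact hR.indep.comp (fun T : {T // T ∈ univ.filter fun T : Hist n M N => (0 : Fin n) ∈ R T} =>
      (⟨((0 : Fin n), T.1), hmem T.1 T.2⟩ : {p : Fin n × Hist n M N // p.1 ∈ R p.2})) (by
      intro T T' hTT
      have := Subtype.mk.inj hTT
      exact Subtype.ext (Prod.mk.inj this).2)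
  · have h2 := hG 1 one_pos le_rfl (by
      rw [one_mul]
      have := h1 N le_rfl
      nlinarith)
    refine h2.trans (le_of_eq ?_)
    unfold Gf
    rw [Finset.sum_filter]
    refine Finset.sum_congr rfl fun T _ => ?_
    have h3 : ∑ a ∈ R T, (1 : ℝ) * (1 - 1) ^ a.val = if (0 : Fin n) ∈ R T then 1 else 0 := by
      rw [← Finset.sum_ite_eq' (R T) (0 : Fin n) (fun _ => (1 : ℝ))]
      refine Finset.sum_congr rfl fun a _ => ?_
      by_cases ha : a = 0
      · rw [if_pos ha, ha]; simp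
      · rw [if_neg ha]
        have : a.val ≠ 0 := fun h => ha (Fin.ext (by rw [h]; simp))
        rw [sub_self, zero_pow this, mul_zero]
    rw [h3]
    split_ifs <;> simp

end Vale.Agent.P346
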