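import Vale.Agent.P346.GDefs

/-! # P346 [GSTEPC]: independence of evaluations; coordinates with respect to pivot rows -/

namespace Vale.Agent.P346

open MvPolynomial Finset

namespace GStepCAux

theorem exists_dual {F ι V : Type*} [Field F] [AddCommGroup V] [Module F V] {v : ι → V}
    (hv : LinearIndependent F v) (g : ι → F) : ∃ φ : V →ₗ[F] F, ∀ i, φ (v i) = g i := by
  obtain ⟨L, hL⟩ := LinearMap.exists_leftInverse_of_injective (Finsupp.linearCombination F v)
    (LinearMap.ker_eq_bot.2 hv)
  refine ⟨(Finsupp.linearCombination F g) ∘ₗ L, fun i => ?_⟩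
  have h1 : L (v i) = Finsupp.single i 1 := by
    have := LinearMap.congr_fun hL (Finsupp.single i (1 : F))
    simpa using this
  simp [h1]

theorem dual_apply {F κ : Type*} [Field F] [Fintype κ] [DecidableEq κ] (φ : (κ → F) →ₗ[F] F)
    (x : κ → F) : φ x = ∑ j, x j * φ (Pi.single j 1) := by
  have h3 : x = ∑ j, x j • (Pi.single j 1 : κ → F) := by
    ext j
    simp [Finset.sum_apply, Pi.single_apply]
  conv_lhs => rw [h3, map_sum]
  refine Finset.sum_congr rfl fun j _ => ?_
  rw [map_smul, smul_eq_mul]

end GStepCAux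

open GStepCAux in
/-- (c) -/
theorem exists_eval_linearIndependent {F : Type*} [Field F] [Infinite F] {ι κ : Type*}
    [Fintype ι] [Fintype κ] (M : ι → κ → Polynomial F)
    (h0 : LinearIndependent F fun i j => (M i j).eval 0) :
    ∃ s : F, s ≠ 0 ∧ LinearIndependent F fun i j => (M i j).eval s := by
  classical
  choose φ hφ using fun i : ι => exists_dual h0 (fun j => if j = i then (1 : F) else 0)
  set A : Matrix ι κ (Polynomial F) := Matrix.of M with hA
  set B : Matrix κ ι F := Matrix.of fun k i => φ i (Pi.single k 1) with hB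
  set P : Polynomial F := (A * B.map Polynomial.C).det with hP
  have hev : ∀ s : F, P.eval s = (Matrix.of (fun i j => (M i j).eval s) * B).det := by
    intro s
    have h1 : P.eval s = Polynomial.evalRingHom s P := rfl
    rw [h1, hP, RingHom.map_det, RingHom.mapMatrix_apply, Matrix.map_mul]
    congr 2
    ext k i
    simp
  have h1 : P.eval 0 = 1 := by
    rw [hev]
    have : Matrix.of (fun i j => (M i j).eval 0) * B = 1 := by
      ext j i
      rw [Matrix.mul_apply, Matrix.one_apply]
      have h2 := hφ i j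
      rw [dual_apply] at h2
      simp only [hB, Matrix.of_apply]
      exact h2
    rw [this, Matrix.det_one]
  have hP0 : P ≠ 0 := by
    intro h
    rw [h, Polynomial.eval_zero] at h1
    exact zero_ne_one h1
  obtain ⟨s, hs⟩ : ∃ s : F, (Polynomial.X * P).eval s ≠ 0 := by
    by_contra hcon
    push Not at hcon
    have : Polynomial.X * P = 0 := Polynomial.funext fun s => by
      rw [hcon s, Polynomial.eval_zero]
    rcases mul_eq_zero.1 this with h | h
    · exact Polynomial.X_ne_zero h
    · exact hP0 h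
  rw [Polynomial.eval_mul, Polynomial.eval_X] at hs
  refine ⟨s, left_ne_zero_of_mul hs, ?_⟩
  have hd := right_ne_zero_of_mul hs
  rw [hev] at hd
  rw [Fintype.linearIndependent_iff]
  intro g hg
  have h2 : Matrix.vecMul g (Matrix.of (fun i j => (M i j).eval s) * B) = 0 := by
    rw [← Matrix.vecMul_vecMul]
    have h3 : Matrix.vecMul g (Matrix.of fun i j => (M i j).eval s) = 0 := by
      funext j
      have h4 := congrFun hg j
      rw [Finset.sum_apply] at h4
      simpa [Matrix.vecMul, dotProduct] using h4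
    rw [h3, Matrix.zero_vecMul]
  have h3 := Matrix.eq_zero_of_vecMul_eq_zero hd h2
  exact fun i => congrFun h3 i

/-- (a) coordinates with respect to the pivot rows -/
theorem exists_coord {n : ℕ} {F : Type*} [Field F] {𝒯 𝒮 : Type*} [Fintype 𝒯]
    (ord : 𝒯 → ℕ) (hord : Function.Injective ord) (A : Fin n → 𝒯 → 𝒮 → F)
    (R : 𝒯 → Finset (Fin n)) (h : IsPivot ord A R) :
    ∃ φ : (𝒮 → F) →ₗ[F] (Fin n × 𝒯 → F),
      (∀ a T, a ∈ R T → φ (A a T) (a, T) = 1) ∧
      (∀ a T a' T', φ (A a T) (a', T') ≠ 0 → a' ∈ R T' ∧ (a' < a ∨ a' = a ∧ ord T' ≤ ord T)) := by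
  classical
  obtain ⟨L, hL⟩ := LinearMap.exists_leftInverse_of_injective
    (Finsupp.linearCombination F fun p : {p : Fin n × 𝒯 // p.1 ∈ R p.2} => A p.1.1 p.1.2)
    (LinearMap.ker_eq_bot.2 h.indep)
  have hLs : ∀ p : {p : Fin n × 𝒯 // p.1 ∈ R p.2}, L (A p.1.1 p.1.2) = Finsupp.single p 1 := by
    intro p
    have := LinearMap.congr_fun hL (Finsupp.single p (1 : F))
    simpa using this
  set φ : (𝒮 → F) →ₗ[F] (Fin n × 𝒯 → F) :=
    { toFun := fun f p => if hp : p.1 ∈ R p.2 then L f ⟨p, hp⟩ else 0
      map_add' := by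
        intro f g
        funext p
        simp only [Pi.add_apply]
        split_ifs
        · rw [map_add, Finsupp.add_apply]
        · rw [add_zero]
      map_smul' := by
        intro c f
        funext p
        simp only [Pi.smul_apply, RingHom.id_apply]
        split_ifs
        · rw [map_smul, Finsupp.smul_apply]
        · rw [smul_zero] } with hφ
  have hφa : ∀ f p, φ f p = if hp : p.1 ∈ R p.2 then L f ⟨p, hp⟩ else 0 := fun f p => rfl
  refine ⟨φ, ?_, ?_⟩
  · intro a T ha
    rw [hφa, dif_pos ha]
    have := hLs ⟨(a, T), ha⟩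
    simp only at this
    rw [this, Finsupp.single_apply, if_pos rfl]
  · intro a T a' T' hne
    rw [hφa] at hne
    by_cases ha' : a' ∈ R T'
    · refine ⟨ha', ?_⟩
      by_contra hcon
      rw [dif_pos ha'] at hne
      apply hne
      have hle : Submodule.span F {r | ∃ a₁ T₁, a₁ ∈ R T₁ ∧
          (a₁ < a ∨ a₁ = a ∧ ord T₁ ≤ ord T) ∧ r = A a₁ T₁} ≤
          LinearMap.ker ((Finsupp.lapply (⟨(a', T'), ha'⟩ : {p : Fin n × 𝒯 // p.1 ∈ R p.2})) ∘ₗ
            L : (𝒮 → F) →ₗ[F] F) := by
        rw [Submodule.span_le]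
        rintro r ⟨a₁, T₁, h1, h2, rfl⟩
        rw [SetLike.mem_coe, LinearMap.mem_ker, LinearMap.comp_apply, Finsupp.lapply_apply]
        have h3 := hLs ⟨(a₁, T₁), h1⟩
        simp only at h3
        rw [h3, Finsupp.single_apply, if_neg]
        intro heq
        have h4 := congrArg Subtype.val heq
        simp only [Prod.mk.injEq] at h4
        obtain ⟨rfl, rfl⟩ := h4
        exact hcon h2
      have := hle (h.span a T)
      rw [LinearMap.mem_ker, LinearMap.comp_apply, Finsupp.lapply_apply] at this
      exact this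
    · exact absurd (dif_neg ha') hne

end Vale.Agent.P346
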