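import Vale.Agent.P346.GStepB
import Vale.Agent.P346.GStepC

/-! # P346 [GSTEP]: one step of the generic degeneration -/

namespace Vale.Agent.P346

open MvPolynomial Finset

namespace GStepAux

theorem exists_nodes (F : Type*) [Infinite F] (n M : ℕ) :
    ∃ ξ : Fin n → Fin M → F, Function.Injective fun p : Fin n × Fin M => ξ p.1 p.2 := by
  obtain ⟨k, ⟨e⟩⟩ := Finite.exists_equiv_fin (Fin n × Fin M)
  refine ⟨fun a b => Infinite.natEmbedding F (e (a, b)).val, ?_⟩
  intro p q h
  have h1 := (Infinite.natEmbedding F).injective h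
  exact e.injective (Fin.ext h1)

/-- apply `φ` to the slices and rescale -/
noncomputable def slice {n M : ℕ} {F : Type*} [Field F] {𝒯 𝒮 : Type*}
    (φ : (𝒮 → F) →ₗ[F] (Fin n × 𝒯 → F)) (s : F) :
    (𝒮 × Cfg n M → F) →ₗ[F] (Fin n × 𝒯 × Cfg n M → F) where
  toFun f c := (s ^ c.1.val)⁻¹ * φ (fun S => f (S, c.2.2)) (c.1, c.2.1)
  map_add' f g := by
    funext c
    change (s ^ c.1.val)⁻¹ * φ ((fun S => f (S, c.2.2)) + fun S => g (S, c.2.2)) (c.1, c.2.1) =
      (s ^ c.1.val)⁻¹ * φ (fun S => f (S, c.2.2)) (c.1, c.2.1) +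
        (s ^ c.1.val)⁻¹ * φ (fun S => g (S, c.2.2)) (c.1, c.2.1)
    rw [map_add, Pi.add_apply, mul_add]
  map_smul' r f := by
    funext c
    change (s ^ c.1.val)⁻¹ * φ (r • fun S => f (S, c.2.2)) (c.1, c.2.1) =
      r * ((s ^ c.1.val)⁻¹ * φ (fun S => f (S, c.2.2)) (c.1, c.2.1))
    rw [map_smul, Pi.smul_apply, smul_eq_mul]
    ring

/-- the slices of a new row -/
theorem slice_nextRow {n M : ℕ} {F : Type*} [Field F] {𝒯 𝒮 : Type*}
    (φ : (𝒮 → F) →ₗ[F] (Fin n × 𝒯 → F)) (A : Fin n → 𝒯 → 𝒮 → F)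
    (v : Fin n → Fin M → Fin n → F) (c : Fin n) (T : 𝒯) (τ σ : Cfg n M) (a' : Fin n) (T' : 𝒯) :
    φ (fun S => nextRow A v c (T, τ) (S, σ)) (a', T') =
      ∑ a : Fin n, ∑ b : Fin M, if (a, b) ∈ τ ∧ σ = τ.erase (a, b) then
        v a b c * φ (A a T) (a', T') else 0 := by
  classical
  have h1 : (fun S => nextRow A v c (T, τ) (S, σ)) =
      ∑ p ∈ τ, (if σ = τ.erase p then v p.1 p.2 c else 0) • A p.1 T := by
    funext S
    unfold nextRow
    rw [Finset.sum_apply]
    refine Finset.sum_congr rfl fun p _ => ?_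
    simp only [Pi.smul_apply, smul_eq_mul]
    split_ifs
    · rfl
    · rw [zero_mul]
  rw [h1, map_sum, Finset.sum_apply]
  have h2 : ∀ p : Fin n × Fin M, φ ((if σ = τ.erase p then v p.1 p.2 c else 0) • A p.1 T) (a', T') =
      if σ = τ.erase p then v p.1 p.2 c * φ (A p.1 T) (a', T') else 0 := by
    intro p
    rw [map_smul, Pi.smul_apply, smul_eq_mul]
    split_ifs
    · rfl
    · rw [zero_mul]
  simp only [h2]
  rw [← Fintype.sum_prod_type' (fun a b => if (a, b) ∈ τ ∧ σ = τ.erase (a, b) then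
        v a b c * φ (A a T) (a', T') else 0)]
  rw [← Finset.sum_filter_add_sum_filter_not univ (fun p : Fin n × Fin M => p ∈ τ)]
  have h3 : ∑ p ∈ univ.filter (fun p : Fin n × Fin M => ¬ p ∈ τ),
      (if (p.1, p.2) ∈ τ ∧ σ = τ.erase (p.1, p.2) then
        v p.1 p.2 c * φ (A p.1 T) (a', T') else 0) = 0 := by
    refine Finset.sum_eq_zero fun p hp => ?_
    rw [if_neg]
    rintro ⟨h, -⟩
    exact (mem_filter.1 hp).2 h
  rw [h3, add_zero]
  have h4 : univ.filter (fun p : Fin n × Fin M => p ∈ τ) = τ := by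
    ext p
    simp
  rw [h4]
  refine Finset.sum_congr rfl fun p hp => ?_
  by_cases h : σ = τ.erase p
  · rw [if_pos h, if_pos ⟨hp, h⟩]
  · rw [if_neg h, if_neg fun h' => h h'.2]

end GStepAux

open GStepAux in
theorem gstep {n M : ℕ} {F : Type*} [Field F] [Infinite F] {𝒯 𝒮 : Type*} [Fintype 𝒯]
    [Fintype 𝒮] (ord : 𝒯 → ℕ) (hord : Function.Injective ord)
    (A : Fin n → 𝒯 → 𝒮 → F) (R : 𝒯 → Finset (Fin n)) (h : IsPivot ord A R) :
    ∃ v : Fin n → Fin M → Fin n → F, LinearIndependent F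
      fun p : {p : Fin n × (𝒯 × Cfg n M) // p.1.val < ∑ a ∈ R p.2.1, run p.2.2 a} =>
        nextRow A v p.1.1 p.1.2 := by
  classical
  obtain ⟨ξ, hξ⟩ := exists_nodes F n M
  obtain ⟨φ, hφ1, hφ2⟩ := exists_coord ord hord A R h
  have hcore := gstep_core ord hord R ξ hξ (fun a T T' => φ (A a T) (a, T'))
    (fun a T ha => hφ1 a T ha) (fun a T T' hne => by
      rcases (hφ2 a T a T' hne).2 with h1 | h1
      · exact absurd h1 (lt_irrefl _)
      · exact h1.2)
  -- the matrix of polynomials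
  set Mp : {p : Fin n × (𝒯 × Cfg n M) // p.1.val < ∑ a ∈ R p.2.1, run p.2.2 a} →
      (Fin n × 𝒯 × Cfg n M) → Polynomial F := fun p c =>
    ∑ a : Fin n, ∑ b : Fin M, if (a, b) ∈ p.1.2.2 ∧ c.2.2 = p.1.2.2.erase (a, b) then
      Polynomial.C (ξ a b ^ p.1.1.val * φ (A a p.1.2.1) (c.1, c.2.1)) *
        Polynomial.X ^ (a.val - c.1.val) else 0 with hMp
  have hM0 : LinearIndependent F fun p c => (Mp p c).eval 0 := by
    convert hcore using 1
    funext p c
    rw [hMp]
    simp only [Polynomial.eval_finset_sum]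
    have e1 : ∀ (a : Fin n) (b : Fin M), Polynomial.eval 0
        (if (a, b) ∈ p.1.2.2 ∧ c.2.2 = p.1.2.2.erase (a, b) then
          Polynomial.C (ξ a b ^ p.1.1.val * φ (A a p.1.2.1) (c.1, c.2.1)) *
          Polynomial.X ^ (a.val - c.1.val) else 0) =
        if a = c.1 then (if (c.1, b) ∈ p.1.2.2 ∧ c.2.2 = p.1.2.2.erase (c.1, b) then
          ξ c.1 b ^ p.1.1.val * φ (A c.1 p.1.2.1) (c.1, c.2.1) else 0) else 0 := by
      intro a b
      by_cases hac : a = c.1
      · subst hac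
        rw [if_pos rfl]
        split_ifs
        · simp
        · simp
      · rw [if_neg hac]
        split_ifs
        · by_cases hE : φ (A a p.1.2.1) (c.1, c.2.1) = 0
          · rw [hE]
            simp
          · have h1 := (hφ2 a p.1.2.1 c.1 c.2.1 hE).2
            have h2 : c.1 < a := by
              rcases h1 with h1 | h1
              · exact h1
              · exact absurd h1.1.symm hac
            have h3 : c.1.val < a.val := h2
            simp only [Polynomial.eval_mul, Polynomial.eval_pow, Polynomial.eval_X]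
            rw [zero_pow (by omega), mul_zero]
        · simp
    simp only [e1]
    have e2 : ∀ a : Fin n, (∑ b : Fin M, if a = c.1 then
        (if (c.1, b) ∈ p.1.2.2 ∧ c.2.2 = p.1.2.2.erase (c.1, b) then
          ξ c.1 b ^ p.1.1.val * φ (A c.1 p.1.2.1) (c.1, c.2.1) else 0) else 0) =
        if a = c.1 then ∑ b : Fin M,
        (if (c.1, b) ∈ p.1.2.2 ∧ c.2.2 = p.1.2.2.erase (c.1, b) then
          ξ c.1 b ^ p.1.1.val * φ (A c.1 p.1.2.1) (c.1, c.2.1) else 0) else 0 := by
      intro a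
      by_cases hac : a = c.1
      · simp only [if_pos hac]
      · simp only [if_neg hac, Finset.sum_const_zero]
    simp only [e2]
    rw [Finset.sum_ite_eq' univ c.1, if_pos (mem_univ _)]
    by_cases hcR : c.1 ∈ R c.2.1
    · rw [if_pos hcR]
    · rw [if_neg hcR]
      refine Finset.sum_eq_zero fun b _ => ?_
      have hE : φ (A c.1 p.1.2.1) (c.1, c.2.1) = 0 := by
        by_contra hne
        exact hcR (hφ2 _ _ _ _ hne).1
      rw [hE, mul_zero, ite_self]
  obtain ⟨s, hs0, hs⟩ := exists_eval_linearIndependent Mp hM0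
  refine ⟨fun a b c => s ^ a.val * ξ a b ^ c.val, ?_⟩
  refine LinearIndependent.of_comp (slice φ s) ?_
  convert hs using 1
  funext p c
  have e3 : ((slice φ s : (𝒮 × Cfg n M → F) →ₗ[F] (Fin n × 𝒯 × Cfg n M → F)) ∘
      fun p : {p : Fin n × (𝒯 × Cfg n M) // p.1.val < ∑ a ∈ R p.2.1, run p.2.2 a} =>
        nextRow A (fun a b c => s ^ a.val * ξ a b ^ c.val) p.1.1 p.1.2) p c =
      (s ^ c.1.val)⁻¹ * φ (fun S => nextRow A (fun a b c => s ^ a.val * ξ a b ^ c.val)
        p.1.1 (p.1.2.1, p.1.2.2) (S, c.2.2)) (c.1, c.2.1) := rfl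
  rw [e3, slice_nextRow, Finset.mul_sum, hMp]
  simp only [Polynomial.eval_finset_sum]
  refine Finset.sum_congr rfl fun a _ => ?_
  rw [Finset.mul_sum]
  refine Finset.sum_congr rfl fun b _ => ?_
  split_ifs
  · simp only [Polynomial.eval_mul, Polynomial.eval_pow, Polynomial.eval_X, Polynomial.eval_C]
    by_cases hE : φ (A a p.1.2.1) (c.1, c.2.1) = 0
    · rw [hE]
      ring
    · have h1 := (hφ2 a p.1.2.1 c.1 c.2.1 hE).2
      have h3 : c.1.val ≤ a.val := by
        rcases h1 with h1 | h1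
        · exact le_of_lt h1
        · rw [h1.1]
      have h4 : s ^ a.val = s ^ c.1.val * s ^ (a.val - c.1.val) := by
        rw [← pow_add]
        congr 1
        omega
      rw [h4]
      have h5 : s ^ c.1.val ≠ 0 := pow_ne_zero _ hs0
      field_simp
  · simp

end Vale.Agent.P346
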