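import Vale.Agent.P346.GDefs

/-! # P346 [GSTEPB]: the combinatorial core of the generic degeneration -/

namespace Vale.Agent.P346

open MvPolynomial Finset

namespace GStepBAux

/-- total height of a configuration -/
def hgt {n M : ℕ} (τ : Cfg n M) : ℕ := ∑ x ∈ τ, x.2.val

theorem hgt_erase {n M : ℕ} {τ : Cfg n M} {x : Fin n × Fin M} (h : x ∈ τ) :
    hgt τ = hgt (τ.erase x) + x.2.val := by
  unfold hgt
  rw [add_comm, Finset.add_sum_erase _ (fun x => x.2.val) h]

/-- the cells of the initial runs -/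
def cells {n M : ℕ} (R : Finset (Fin n)) (τ : Cfg n M) : Finset (Fin n × Fin M) :=
  univ.filter fun x => x.1 ∈ R ∧ ∀ b' ≤ x.2, (x.1, b') ∈ τ

theorem card_cells {n M : ℕ} (R : Finset (Fin n)) (τ : Cfg n M) :
    (cells R τ).card = ∑ a ∈ R, run τ a := by
  unfold cells
  rw [Finset.card_filter, Fintype.sum_prod_type]
  have h : ∀ a : Fin n, (∑ b : Fin M, if a ∈ R ∧ ∀ b' ≤ b, (a, b') ∈ τ then 1 else 0) =
      if a ∈ R then run τ a else 0 := by
    intro a
    by_cases ha : a ∈ R
    · simp only [ha, true_and, if_true]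
      unfold run
      rw [Finset.card_filter]
    · simp only [ha, false_and, if_false, Finset.sum_const_zero]
  simp only [h]
  rw [Finset.sum_ite_mem, Finset.univ_inter]

/-- the entries -/
def ent {n M : ℕ} {F : Type*} [Field F] {𝒯 : Type*}
    (R : 𝒯 → Finset (Fin n)) (ξ : Fin n → Fin M → F) (E : Fin n → 𝒯 → 𝒯 → F)
    (p : Fin n × (𝒯 × Cfg n M)) (c : Fin n × 𝒯 × Cfg n M) : F :=
  if c.1 ∈ R c.2.1 then
    ∑ b : Fin M, (if (c.1, b) ∈ p.2.2 ∧ c.2.2 = p.2.2.erase (c.1, b) then
      ξ c.1 b ^ p.1.val * E c.1 p.2.1 c.2.1 else 0) else 0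

theorem vanish {n M : ℕ} {F : Type*} [Field F] {𝒯 : Type*} [Fintype 𝒯] [DecidableEq 𝒯]
    (ord : 𝒯 → ℕ) (hord : Function.Injective ord) (R : 𝒯 → Finset (Fin n))
    (ξ : Fin n → Fin M → F) (hξ : Function.Injective fun p : Fin n × Fin M => ξ p.1 p.2)
    (E : Fin n → 𝒯 → 𝒯 → F) (hE1 : ∀ a T, a ∈ R T → E a T T = 1)
    (hE2 : ∀ a T T', E a T T' ≠ 0 → ord T' ≤ ord T)
    (κ : Fin n × (𝒯 × Cfg n M) → F)
    (hκ : ∀ p, κ p ≠ 0 → p.1.val < ∑ a ∈ R p.2.1, run p.2.2 a)
    (hsum : ∀ c, ∑ p, κ p * ent R ξ E p c = 0) : ∀ p, κ p = 0 := by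
  classical
  by_contra hcon
  push Not at hcon
  obtain ⟨p0, hp0⟩ := hcon
  obtain ⟨p1, hp1, hmax1⟩ := Finset.exists_max_image (univ.filter fun p => κ p ≠ 0)
    (fun p => ord p.2.1) ⟨p0, by simpa using hp0⟩
  set T := p1.2.1 with hT
  obtain ⟨p2, hp2, hmax2⟩ := Finset.exists_max_image
    (univ.filter fun p => κ p ≠ 0 ∧ p.2.1 = T) (fun p => hgt p.2.2)
    ⟨p1, by
      rw [mem_filter] at hp1 ⊢
      exact ⟨mem_univ _, hp1.2, rfl⟩⟩
  set τ := p2.2.2 with hτ
  rw [mem_filter] at hp2
  obtain ⟨-, hκ2, hT2⟩ := hp2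
  have hm1 : ∀ p, κ p ≠ 0 → ord p.2.1 ≤ ord T := fun p hp =>
    hmax1 p (mem_filter.2 ⟨mem_univ _, hp⟩)
  have hm2 : ∀ p, κ p ≠ 0 → p.2.1 = T → hgt p.2.2 ≤ hgt τ := fun p hp hpT =>
    hmax2 p (mem_filter.2 ⟨mem_univ _, hp, hpT⟩)
  -- the polynomial
  set P : Polynomial F := ∑ c : Fin n, Polynomial.monomial c.val (κ (c, (T, τ))) with hP
  have hcoeff : ∀ c : Fin n, P.coeff c.val = κ (c, (T, τ)) := by
    intro c
    rw [hP, Polynomial.finset_sum_coeff]
    rw [Finset.sum_eq_single c]
    · rw [Polynomial.coeff_monomial, if_pos rfl]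
    · intro c' _ hc'
      rw [Polynomial.coeff_monomial, if_neg]
      exact fun h => hc' (Fin.ext h)
    · intro h
      exact absurd (mem_univ _) h
  have hcoeff' : ∀ k, n ≤ k → P.coeff k = 0 := by
    intro k hk
    rw [hP, Polynomial.finset_sum_coeff]
    refine Finset.sum_eq_zero fun c _ => ?_
    rw [Polynomial.coeff_monomial, if_neg]
    have := c.isLt
    omega
  have hP0 : P ≠ 0 := by
    intro h
    have h1 := hcoeff p2.1
    rw [h, Polynomial.coeff_zero] at h1
    apply hκ2
    have h2 : p2 = (p2.1, (T, τ)) := by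
      rw [← hT2]
    rw [h2]
    exact h1.symm
  -- roots
  have hroot : ∀ x ∈ cells (R T) τ, P.eval (ξ x.1 x.2) = 0 := by
    rintro ⟨a, b⟩ hx
    unfold cells at hx
    rw [mem_filter] at hx
    obtain ⟨-, haR, hrun⟩ := hx
    simp only at haR hrun
    have hab : (a, b) ∈ τ := hrun b le_rfl
    have h1 := hsum (a, T, τ.erase (a, b))
    have h2 : ∀ p, κ p * ent R ξ E p (a, T, τ.erase (a, b)) =
        if p.2 = (T, τ) then κ p * ξ a b ^ p.1.val else 0 := by
      intro p
      by_cases hκp : κ p = 0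
      · rw [hκp, zero_mul, zero_mul, ite_self]
      unfold ent
      simp only [haR, if_true]
      by_cases hpT : p.2.1 = T
      · by_cases hpτ : p.2.2 = τ
        · have hp : p.2 = (T, τ) := Prod.ext hpT hpτ
          rw [if_pos hp]
          congr 1
          rw [Finset.sum_eq_single b]
          · rw [hpτ, hpT, if_pos ⟨hab, rfl⟩, hE1 a T haR, mul_one]
          · intro b' _ hb'
            rw [if_neg]
            rintro ⟨h3, h4⟩
            rw [hpτ] at h3 h4
            have h5 : (a, b') ∈ τ.erase (a, b) :=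
              mem_erase.2 ⟨fun h => hb' (Prod.ext_iff.1 h).2, h3⟩
            rw [h4] at h5
            exact (notMem_erase _ _) h5
          · intro h
            exact absurd (mem_univ _) h
        · have hp : p.2 ≠ (T, τ) := fun h => hpτ (by rw [h])
          rw [if_neg hp]
          convert mul_zero _
          refine Finset.sum_eq_zero fun b' _ => ?_
          rw [if_neg]
          rintro ⟨h3, h4⟩
          rcases lt_trichotomy b' b with hb | hb | hb
          · have h5 : (a, b') ∈ τ.erase (a, b) :=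
              mem_erase.2 ⟨fun h => hb.ne (Prod.ext_iff.1 h).2, hrun b' hb.le⟩
            rw [h4] at h5
            exact (notMem_erase _ _) h5
          · subst hb
            apply hpτ
            rw [← insert_erase h3, ← h4, insert_erase hab]
          · have h5 := hm2 p hκp hpT
            rw [hgt_erase h3, hgt_erase hab, ← h4] at h5
            have h6 : b.val < b'.val := hb
            simp only at h5
            omega
      · have hp : p.2 ≠ (T, τ) := fun h => hpT (by rw [h])
        rw [if_neg hp]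
        convert mul_zero _
        refine Finset.sum_eq_zero fun b' _ => ?_
        have hE : E a p.2.1 T = 0 := by
          by_contra hne
          exact hpT (hord (le_antisymm (hm1 p hκp) (hE2 a _ _ hne)))
        rw [hE, mul_zero, ite_self]
    simp only [h2] at h1
    rw [Fintype.sum_prod_type] at h1
    have h3 : ∀ c : Fin n, (∑ y : 𝒯 × Cfg n M,
        if (c, y).2 = (T, τ) then κ (c, y) * ξ a b ^ (c, y).1.val else 0) =
        κ (c, (T, τ)) * ξ a b ^ c.val := by
      intro c
      rw [Finset.sum_eq_single (T, τ)]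
      · rw [if_pos rfl]
      · intro y _ hy
        rw [if_neg hy]
      · intro h
        exact absurd (mem_univ _) h
    simp only [h3] at h1
    rw [hP, Polynomial.eval_finset_sum]
    simp only [Polynomial.eval_monomial]
    exact h1
  -- counting
  have hcard : ((cells (R T) τ).image fun x => ξ x.1 x.2).card = ∑ a ∈ R T, run τ a := by
    rw [card_image_of_injective _ hξ, card_cells]
  have hdeg : P.natDegree < ∑ a ∈ R T, run τ a := by
    have h1 : P.coeff P.natDegree ≠ 0 := by
      rw [Polynomial.coeff_natDegree]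
      exact Polynomial.leadingCoeff_ne_zero.2 hP0
    have h2 : P.natDegree < n := by
      by_contra h
      exact h1 (hcoeff' _ (not_lt.1 h))
    have h3 := hcoeff ⟨P.natDegree, h2⟩
    simp only at h3
    rw [h3] at h1
    exact hκ _ h1
  apply hP0
  refine Polynomial.eq_zero_of_natDegree_lt_card_of_eval_eq_zero' P
    ((cells (R T) τ).image fun x => ξ x.1 x.2) ?_ (by rw [hcard]; exact hdeg)
  intro z hz
  obtain ⟨x, hx, rfl⟩ := mem_image.1 hz
  exact hroot x hx

end GStepBAux

open GStepBAux in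
/-- (b) combinatorial core: take `T` of maximal `ord` in a relation, then `τ` with `∑ b` maximal;
the polynomial `∑ c, κ (c, T, τ) z ^ c` has the roots `ξ a b`, `a ∈ R T`, `b < run τ a`. -/
theorem gstep_core {n M : ℕ} {F : Type*} [Field F] {𝒯 : Type*} [Fintype 𝒯] [DecidableEq 𝒯]
    (ord : 𝒯 → ℕ) (hord : Function.Injective ord) (R : 𝒯 → Finset (Fin n))
    (ξ : Fin n → Fin M → F) (hξ : Function.Injective fun p : Fin n × Fin M => ξ p.1 p.2)
    (E : Fin n → 𝒯 → 𝒯 → F) (hE1 : ∀ a T, a ∈ R T → E a T T = 1)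
    (hE2 : ∀ a T T', E a T T' ≠ 0 → ord T' ≤ ord T) :
    LinearIndependent F fun p : {p : Fin n × (𝒯 × Cfg n M) //
        p.1.val < ∑ a ∈ R p.2.1, run p.2.2 a} =>
      fun c : Fin n × 𝒯 × Cfg n M => if c.1 ∈ R c.2.1 then
        ∑ b : Fin M, (if (c.1, b) ∈ p.1.2.2 ∧ c.2.2 = p.1.2.2.erase (c.1, b) then
          ξ c.1 b ^ p.1.1.val * E c.1 p.1.2.1 c.2.1 else 0) else 0 := by
  classical
  rw [Fintype.linearIndependent_iff]
  intro g hg
  set κ : Fin n × (𝒯 × Cfg n M) → F := fun p =>
    if h : p.1.val < ∑ a ∈ R p.2.1, run p.2.2 a then g ⟨p, h⟩ else 0 with hκ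
  have h1 : ∀ p, κ p = 0 := by
    refine vanish ord hord R ξ hξ E hE1 hE2 κ ?_ ?_
    · intro p hp
      by_contra h
      exact hp (by rw [hκ]; exact dif_neg h)
    · intro c
      have h2 := congrFun hg c
      rw [Finset.sum_apply] at h2
      have h3 : ∑ p, κ p * ent R ξ E p c =
          ∑ p ∈ univ.filter (fun p : Fin n × (𝒯 × Cfg n M) =>
            p.1.val < ∑ a ∈ R p.2.1, run p.2.2 a), κ p * ent R ξ E p c := by
        rw [Finset.sum_filter]
        refine Finset.sum_congr rfl fun p _ => ?_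
        split_ifs with h
        · rfl
        · have : κ p = 0 := by
            rw [hκ]
            exact dif_neg h
          rw [this, zero_mul]
      rw [h3, Finset.sum_subtype (univ.filter (fun p : Fin n × (𝒯 × Cfg n M) =>
            p.1.val < ∑ a ∈ R p.2.1, run p.2.2 a))
            (p := fun p => p.1.val < ∑ a ∈ R p.2.1, run p.2.2 a) (fun p => by simp)]
      rw [Pi.zero_apply] at h2
      rw [← h2]
      refine Finset.sum_congr rfl fun p _ => ?_
      have h4 : κ p.1 = g p := by
        rw [hκ]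
        exact dif_pos p.2
      rw [h4, Pi.smul_apply, smul_eq_mul]
      rfl
  intro p
  have h2 := h1 p.1
  rw [hκ] at h2
  simp only [dif_pos p.2] at h2
  exact h2

end Vale.Agent.P346
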