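import Vale.Agent.P346.PathDefs
import Vale.Agent.P346.Binom

/-! # P346: parameters and estimates for binomial coefficients -/

namespace Vale.Agent.P346

open MvPolynomial Finset Matrix

/-- parameters: the ground set on each side -/
abbrev GS (n L m : ℕ) : Type := (Fin n × Fin n × Fin n) × Fin (L * (L + m + 1))

theorem card_GS (n L m : ℕ) : Fintype.card (GS n L m) = n ^ 3 * L * (L + m + 1) := by
  simp only [GS, Fintype.card_prod, Fintype.card_fin]
  ring

/-- source degree on the left -/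
def iS (n L m : ℕ) : ℕ := n ^ 3 * L * (L + m)

/-- source degree on the right -/
def jS (n L m : ℕ) : ℕ := n ^ 3 * (L + m + 1)

theorem hdim (n L m : ℕ) (hL : 0 < L) (a b : ℕ) :
    (((Fintype.card (GS n L m)).choose (iS n L m + a) : ℝ) *
      (Fintype.card (GS n L m)).choose (jS n L m + b)) ≤
      (Fintype.card (GS n L m)).choose (iS n L m) * (Fintype.card (GS n L m)).choose (jS n L m) *
        ((L : ℝ) ^ b / ((L : ℝ) + m) ^ a) := by
  set N := Fintype.card (GS n L m) with hN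
  have hN' : N = n ^ 3 * L * (L + m + 1) := card_GS n L m
  have hLr : (0 : ℝ) < L := by exact_mod_cast hL
  have h1 : (N.choose (iS n L m + a) : ℝ) ≤ N.choose (iS n L m) / ((L : ℝ) + m) ^ a := by
    apply choose_decay N (iS n L m) ((L : ℝ) + m) (by positivity)
    intro s hs
    have : (L + m) * (N - s) ≤ s + 1 := by
      have h2 : N - s ≤ n ^ 3 * L := by
        have : N = iS n L m + n ^ 3 * L := by rw [hN', iS]; ring
        omega
      calc (L + m) * (N - s) ≤ (L + m) * (n ^ 3 * L) := Nat.mul_le_mul_left _ h2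
        _ = iS n L m := by rw [iS]; ring
        _ ≤ s + 1 := by omega
    exact_mod_cast this
  have h2 : (N.choose (jS n L m + b) : ℝ) ≤ N.choose (jS n L m) * (L : ℝ) ^ b := by
    apply choose_growth N (jS n L m) (L : ℝ) hLr
    intro s hs
    have : N - s ≤ L * (s + 1) := by
      calc N - s ≤ N := Nat.sub_le _ _
        _ = L * jS n L m := by rw [hN', jS]; ring
        _ ≤ L * (s + 1) := Nat.mul_le_mul_left _ (by omega)
    exact_mod_cast this
  calc (N.choose (iS n L m + a) : ℝ) * N.choose (jS n L m + b)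
      ≤ (N.choose (iS n L m) / ((L : ℝ) + m) ^ a) * (N.choose (jS n L m) * (L : ℝ) ^ b) := by
        gcongr
    _ = _ := by ring

/-- the embedding of the variables -/
def om (n L m : ℕ) [NeZero (L * (L + m + 1))] (x : Fin n × Fin n × Fin n) : GS n L m := (x, 0)

theorem om_injective (n L m : ℕ) [NeZero (L * (L + m + 1))] :
    Function.Injective (om n L m) := fun x y h => by
  simpa [om] using h

theorem cnt_eq (n : ℕ) (word : Fin n → Bool) :
    (Finset.univ.filter fun t => word t = true).card = cntT n word n ∧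
    (Finset.univ.filter fun t => word t = false).card = cntF n word n := by
  constructor
  · unfold cntT; congr 1; ext s; simp
  · unfold cntF; congr 1; ext s; simp

theorem cnt_add (n : ℕ) (word : Fin n → Bool) : cntT n word n + cntF n word n = n := by
  rw [← (cnt_eq n word).1, ← (cnt_eq n word).2]
  have := Finset.card_filter_add_card_filter_not (s := (Finset.univ : Finset (Fin n)))
    (p := fun t => word t = true)
  simp only [Bool.not_eq_true, Finset.card_univ, Fintype.card_fin] at this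
  exact this

/-- the arithmetic behind the trace inequality -/
theorem combine (n k k' : ℕ) (D Y L E eY T₁ T₂ R : ℝ) (hD : 0 < D) (hY : 0 < Y) (hL : 0 < L)
    (hn : (0 : ℝ) < n) (hE : 0 < E) (heY : 0 < eY) (hR : 0 ≤ R)
    (h1 : (n : ℝ) ^ (n - 1) * D * (1 / 2 / Y ^ k * E) ≤ T₁)
    (h2 : T₂ ≤ D * ((n : ℝ) ^ (2 * (n - 1)) * ((1 + Y) * eY) / (Y ^ k * L ^ k')))
    (h3 : T₁ ^ 2 ≤ R * T₂) (h4 : Y ^ k ≤ L ^ k' * (L * Y)) :
    D * (1 / (4 * L * Y * (1 + Y)) * (E ^ 2 / eY)) ≤ R := by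
  have hYk : 0 < Y ^ k := pow_pos hY k
  have hLk : 0 < L ^ k' := pow_pos hL k'
  have hnn : 0 < (n : ℝ) ^ (n - 1) := pow_pos hn _
  set M : ℝ := (n : ℝ) ^ (n - 1) with hM
  set Yk : ℝ := Y ^ k with hYkd
  set Lk : ℝ := L ^ k' with hLkd
  have e : (n : ℝ) ^ (2 * (n - 1)) = M ^ 2 := by rw [hM, ← pow_mul, mul_comm]
  rw [e] at h2
  have h5 : 0 ≤ M * D * (1 / 2 / Yk * E) := by positivity
  have h6 : (M * D * (1 / 2 / Yk * E)) ^ 2 ≤ R * (D * (M ^ 2 * ((1 + Y) * eY) / (Yk * Lk))) :=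
    calc (M * D * (1 / 2 / Yk * E)) ^ 2 ≤ T₁ ^ 2 := by gcongr
      _ ≤ R * T₂ := h3
      _ ≤ _ := mul_le_mul_of_nonneg_left h2 hR
  have h7 : 0 < D * (M ^ 2 * ((1 + Y) * eY) / (Yk * Lk)) := by positivity
  rw [← div_le_iff₀ h7] at h6
  refine le_trans ?_ h6
  have h8 : (M * D * (1 / 2 / Yk * E)) ^ 2 / (D * (M ^ 2 * ((1 + Y) * eY) / (Yk * Lk))) =
      D * (E ^ 2 / (4 * (1 + Y) * eY)) * (Lk / Yk) := by
    field_simp
    norm_num
  rw [h8]
  have h9 : 1 / (L * Y) ≤ Lk / Yk := by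
    rw [div_le_div_iff₀ (by positivity) hYk]
    linarith
  calc D * (1 / (4 * L * Y * (1 + Y)) * (E ^ 2 / eY))
      = D * (E ^ 2 / (4 * (1 + Y) * eY)) * (1 / (L * Y)) := by field_simp
    _ ≤ _ := by gcongr

section

variable (n L m k : ℕ)

theorem cube_ge (hn0 : 0 < n) : n ≤ n ^ 3 := by
  calc n = n ^ 1 := (pow_one n).symm
    _ ≤ n ^ 3 := Nat.pow_le_pow_right hn0 (by norm_num)

theorem cube_le_jS : n ^ 3 ≤ jS n L m := by
  rw [jS]; exact Nat.le_mul_of_pos_right _ (by omega)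

theorem iS_le : iS n L m ≤ Fintype.card (GS n L m) := by
  rw [card_GS, iS]; exact Nat.mul_le_mul_left _ (by omega)

theorem jS_le (hL : 0 < L) : jS n L m ≤ Fintype.card (GS n L m) := by
  rw [card_GS, jS]
  calc n ^ 3 * (L + m + 1) ≤ n ^ 3 * (L + m + 1) * L := Nat.le_mul_of_pos_right _ hL
    _ = n ^ 3 * L * (L + m + 1) := by ring

theorem remove_left (hn0 : 0 < n) (hL : 4 ≤ L) (hk : k ≤ n) :
    ((Fintype.card (GS n L m)).choose (iS n L m) : ℝ) * (1 / 2 / ((L : ℝ) + m + 1) ^ k) ≤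
      (Fintype.card (GS n L m) - k).choose (iS n L m) := by
  have hN := card_GS n L m
  have hLr : (4 : ℝ) ≤ L := by exact_mod_cast hL
  have hL0 : (0 : ℝ) < L := by linarith
  have hn3 := cube_ge n hn0
  have hnr : (1 : ℝ) ≤ n := by exact_mod_cast hn0
  have hkn : (k : ℝ) ≤ n := by exact_mod_cast hk
  have h1 : iS n L m + k ≤ Fintype.card (GS n L m) := by
    have e : iS n L m + n ^ 3 * L = Fintype.card (GS n L m) := by rw [hN, iS]; ring
    have h3 : n ^ 3 ≤ n ^ 3 * L := Nat.le_mul_of_pos_right _ (by omega)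
    omega
  have h2 := choose_remove _ _ k h1 k le_rfl
  refine le_trans ?_ h2
  apply mul_le_mul_of_nonneg_left _ (Nat.cast_nonneg _)
  have e1 : ((Fintype.card (GS n L m) : ℝ) - iS n L m - k) / Fintype.card (GS n L m) =
      (1 / ((L : ℝ) + m + 1)) * (1 - k / (n ^ 3 * L)) := by
    rw [hN, iS]
    push_cast
    have : (n : ℝ) ^ 3 * L ≠ 0 := by positivity
    have : (L : ℝ) + m + 1 ≠ 0 := by positivity
    field_simp
    ring
  rw [e1, mul_pow, _root_.one_div_pow]
  have h3 : (1 : ℝ) / 2 ≤ (1 - k / (n ^ 3 * L)) ^ k := by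
    have hn3r : (n : ℝ) ≤ n ^ 3 := by exact_mod_cast hn3
    have hx : (k : ℝ) / (n ^ 3 * L) ≤ 1 := by
      rw [div_le_one (by positivity)]
      nlinarith
    have h4 := one_add_mul_le_pow (a := -(k / ((n : ℝ) ^ 3 * L))) (by linarith) k
    have h5 : (k : ℝ) * (k / (n ^ 3 * L)) ≤ 1 / 2 := by
      rw [← mul_div_assoc, div_le_iff₀ (by positivity)]
      have h5 : (k : ℝ) * k ≤ n * n := by gcongr
      have h6 : (n : ℝ) * n ≤ n ^ 3 := by
        have : (n : ℝ) ^ 3 = n * n * n := by ring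
        nlinarith
      nlinarith
    calc (1 : ℝ) / 2 ≤ 1 + k * -(k / ((n : ℝ) ^ 3 * L)) := by linarith
      _ ≤ _ := by simpa [sub_eq_add_neg] using h4
  calc (1 : ℝ) / 2 / ((L : ℝ) + m + 1) ^ k = 1 / ((L : ℝ) + m + 1) ^ k * (1 / 2) := by ring
    _ ≤ _ := mul_le_mul_of_nonneg_left h3 (by positivity)

theorem exp_le_one_sub {x : ℝ} (hx0 : 0 ≤ x) (hx : x ≤ 1 / 2) : Real.exp (-(2 * x)) ≤ 1 - x := by
  rw [Real.exp_neg]
  have h5 : 1 / (1 - x) ≤ Real.exp (2 * x) := by
    have h6 := Real.add_one_le_exp (2 * x)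
    have h7 : 1 / (1 - x) ≤ 1 + 2 * x := by
      rw [div_le_iff₀ (by linarith)]
      nlinarith
    linarith
  have h8 : 0 < 1 - x := by linarith
  calc (Real.exp (2 * x))⁻¹ ≤ (1 / (1 - x))⁻¹ := inv_anti₀ (by positivity) h5
    _ = 1 - x := by rw [one_div, inv_inv]

theorem remove_right (hn0 : 0 < n) (hL : 4 ≤ L) (hk : k ≤ n) :
    ((Fintype.card (GS n L m)).choose (jS n L m) : ℝ) * Real.exp (-(4 * n / L)) ≤
      (Fintype.card (GS n L m) - k).choose (jS n L m) := by
  have hN := card_GS n L m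
  have hLr : (4 : ℝ) ≤ L := by exact_mod_cast hL
  have hL0 : (0 : ℝ) < L := by linarith
  have hn3 := cube_ge n hn0
  have hj3 := cube_le_jS n L m
  have hnr : (1 : ℝ) ≤ n := by exact_mod_cast hn0
  have ej : jS n L m * L = Fintype.card (GS n L m) := by rw [hN, jS]; ring
  have h1 : jS n L m + k ≤ Fintype.card (GS n L m) := by nlinarith
  have h2 := choose_remove _ _ k h1 k le_rfl
  refine le_trans ?_ h2
  apply mul_le_mul_of_nonneg_left _ (Nat.cast_nonneg _)
  have hNpos : (0 : ℝ) < Fintype.card (GS n L m) := by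
    rw [← ej]
    push_cast
    have : (1 : ℝ) ≤ jS n L m := by exact_mod_cast (by omega : 1 ≤ jS n L m)
    positivity
  have e1 : 1 - 2 / (L : ℝ) ≤
      ((Fintype.card (GS n L m) : ℝ) - jS n L m - k) / Fintype.card (GS n L m) := by
    rw [le_div_iff₀ hNpos]
    have h3 : (k : ℝ) ≤ jS n L m := by exact_mod_cast (by omega : k ≤ jS n L m)
    have e3 : (1 - 2 / (L : ℝ)) * Fintype.card (GS n L m) =
        Fintype.card (GS n L m) - 2 * jS n L m := by
      rw [← ej]; push_cast; field_simp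
    rw [e3]; linarith
  have hx : 2 / (L : ℝ) ≤ 1 / 2 := by
    rw [div_le_div_iff₀ hL0 (by norm_num)]; linarith
  have hx0 : 0 ≤ 2 / (L : ℝ) := by positivity
  have h0 : 0 ≤ 1 - 2 / (L : ℝ) := by linarith
  have h4 : Real.exp (-(4 / (L : ℝ))) ≤ 1 - 2 / (L : ℝ) := by
    have := exp_le_one_sub hx0 hx
    have e : 2 * (2 / (L : ℝ)) = 4 / L := by ring
    rwa [e] at this
  calc Real.exp (-(4 * n / L)) = Real.exp (-(4 / (L : ℝ))) ^ n := by
        rw [← Real.exp_nat_mul]; congr 1; ring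
    _ ≤ Real.exp (-(4 / (L : ℝ))) ^ k := by
        apply pow_le_pow_of_le_one (Real.exp_pos _).le
        · rw [Real.exp_le_one_iff]
          have : 0 ≤ 4 / (L : ℝ) := by positivity
          linarith
        · omega
    _ ≤ (1 - 2 / (L : ℝ)) ^ k := by gcongr
    _ ≤ _ := by gcongr

end

end Vale.Agent.P346
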