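import Vale.Agent.P346.PathDefs

/-!
# P346: the trace estimates for a family of sets
-/

namespace Vale.Agent.P346

open Finset Matrix

variable {W : Type*} [Fintype W] [DecidableEq W]

namespace QuadAux

theorem card_disj (A : Finset W) (i : ℕ) :
    (univ.filter fun S : Finset W => S.card = i ∧ Disjoint S A).card =
      (Fintype.card W - A.card).choose i := by
  have h : (univ.filter fun S : Finset W => S.card = i ∧ Disjoint S A) = (Aᶜ).powersetCard i := by
    ext S
    simp only [mem_filter, mem_univ, true_and, mem_powersetCard]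
    rw [subset_compl_iff_disjoint_right, and_comm]
  rw [h, card_powersetCard, card_compl]

theorem card_sup (B : Finset W) (j : ℕ) :
    (univ.filter fun S : Finset W => S.card = j ∧ B ⊆ S).card ≤
      (Fintype.card W - B.card).choose (j - B.card) := by
  rw [← card_compl, ← card_powersetCard]
  refine card_le_card_of_injOn (fun S => S \ B) ?_ ?_
  · intro S hS
    rw [mem_coe, mem_filter] at hS
    rw [mem_coe, mem_powersetCard]
    refine ⟨?_, ?_⟩
    · intro x hx
      rw [mem_sdiff] at hx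
      rw [mem_compl]
      exact hx.2
    · rw [card_sdiff_of_subset hS.2.2, hS.2.1]
  · intro S hS S' hS' h
    rw [mem_coe, mem_filter] at hS hS'
    simp only at h
    rw [← sdiff_union_of_subset hS.2.2, ← sdiff_union_of_subset hS'.2.2, h]

theorem choose_le1 (N i : ℕ) {Y : ℝ} (hY : 0 < Y) (h : ((N : ℝ) - i) / N ≤ 1 / Y) (a : ℕ)
    (ha : a ≤ N) : ((N - a).choose i : ℝ) ≤ N.choose i * (1 / Y) ^ a := by
  induction a with
  | zero => simp
  | succ a ih =>
    have ih' := ih (by omega)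
    obtain ⟨M, hM⟩ : ∃ M, N - a = M + 1 := ⟨N - a - 1, by omega⟩
    have hM2 : N - (a + 1) = M := by omega
    rw [hM] at ih'
    rw [hM2]
    rcases Nat.lt_or_ge M i with hi | hi
    · rw [Nat.choose_eq_zero_of_lt hi, Nat.cast_zero]
      positivity
    · have h1 := Nat.choose_mul_succ_eq M i
      have h2 : (M.choose i : ℝ) * (M + 1) = (M + 1).choose i * ((M : ℝ) + 1 - i) := by
        have h3 : ((M + 1 - i : ℕ) : ℝ) = (M : ℝ) + 1 - i := by
          rw [Nat.cast_sub (by omega)]; push_cast; ring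
        rw [← h3]
        exact_mod_cast h1
      have hM1 : (0 : ℝ) < (M : ℝ) + 1 := by positivity
      have hN : ((M : ℝ) + 1) ≤ N := by
        have : M + 1 ≤ N := by omega
        exact_mod_cast this
      have hNpos : (0 : ℝ) < N := lt_of_lt_of_le hM1 hN
      have h4 : ((M : ℝ) + 1 - i) / (M + 1) ≤ ((N : ℝ) - i) / N := by
        rw [div_le_div_iff₀ hM1 hNpos]
        have : (0 : ℝ) ≤ i := by positivity
        nlinarith
      have h5 : (M.choose i : ℝ) = (M + 1).choose i * (((M : ℝ) + 1 - i) / (M + 1)) := by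
        field_simp
        linarith
      rw [h5, pow_succ, ← mul_assoc]
      have h6 : (0 : ℝ) ≤ ((M : ℝ) + 1 - i) / (M + 1) := by
        have : (i : ℝ) ≤ M := by exact_mod_cast hi
        refine div_nonneg (by linarith) hM1.le
      exact mul_le_mul ih' (h4.trans h) h6 (by positivity)

theorem choose_le2 (N j : ℕ) {L : ℝ} (hL : 0 < L) (h : (j : ℝ) / N ≤ 1 / L) (b : ℕ)
    (hb : b ≤ j) (hbN : b ≤ N) : ((N - b).choose (j - b) : ℝ) ≤ N.choose j * (1 / L) ^ b := by
  induction b with
  | zero => simp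
  | succ b ih =>
    have ih' := ih (by omega) (by omega)
    obtain ⟨n, hn⟩ : ∃ n, N - b = n + 1 := ⟨N - b - 1, by omega⟩
    obtain ⟨k, hk⟩ : ∃ k, j - b = k + 1 := ⟨j - b - 1, by omega⟩
    have hn2 : N - (b + 1) = n := by omega
    have hk2 : j - (b + 1) = k := by omega
    rw [hn, hk] at ih'
    rw [hn2, hk2]
    rcases Nat.lt_or_ge n k with hi | hi
    · rw [Nat.choose_eq_zero_of_lt hi, Nat.cast_zero]
      positivity
    · have h1 := Nat.add_one_mul_choose_eq n k
      have h2 : ((n : ℝ) + 1) * n.choose k = (n + 1).choose (k + 1) * ((k : ℝ) + 1) := by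
        exact_mod_cast h1
      have hn1 : (0 : ℝ) < (n : ℝ) + 1 := by positivity
      have hnb : (n : ℝ) + 1 = N - b := by
        have : (((n + 1 : ℕ)) : ℝ) = ((N - b : ℕ) : ℝ) := by rw [hn]
        rw [Nat.cast_sub (by omega)] at this
        push_cast at this; exact this
      have hkb : (k : ℝ) + 1 = j - b := by
        have : (((k + 1 : ℕ)) : ℝ) = ((j - b : ℕ) : ℝ) := by rw [hk]
        rw [Nat.cast_sub (by omega)] at this
        push_cast at this; exact this
      have hb0 : (0 : ℝ) ≤ b := by positivity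
      have hNpos : (0 : ℝ) < N := by linarith
      have hjN : (j : ℝ) ≤ N := by
        have : (k : ℝ) ≤ n := by exact_mod_cast hi
        linarith
      have h4 : ((k : ℝ) + 1) / (n + 1) ≤ (j : ℝ) / N := by
        rw [div_le_div_iff₀ hn1 hNpos, hnb, hkb]
        nlinarith
      have h5 : (n.choose k : ℝ) = (n + 1).choose (k + 1) * (((k : ℝ) + 1) / (n + 1)) := by
        field_simp
        linarith
      rw [h5, pow_succ, ← mul_assoc]
      exact mul_le_mul ih' (h4.trans h) (by positivity) (by positivity)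

theorem card_prod (P1 P2 : Finset W → Prop) [DecidablePred P1] [DecidablePred P2] :
    (univ.filter fun S : Finset (W ⊕ W) => P1 S.toLeft ∧ P2 S.toRight).card =
      (univ.filter P1).card * (univ.filter P2).card := by
  rw [← card_product]
  refine card_equiv (Finset.sumEquiv (α := W) (β := W)).toEquiv ?_
  intro S
  simp [Finset.sumEquiv]

theorem disj_lr_iff (S p : Finset (W ⊕ W)) :
    Disjoint S p ↔ Disjoint S.toLeft p.toLeft ∧ Disjoint S.toRight p.toRight := by
  simp only [Finset.disjoint_left, mem_toLeft, mem_toRight]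
  constructor
  · intro h; exact ⟨fun a ha => h ha, fun a ha => h ha⟩
  · rintro ⟨h1, h2⟩ (a | a) ha
    · exact h1 ha
    · exact h2 ha

theorem MP_apply (P : Finset (Finset (W ⊕ W))) (i j : ℕ) (T S : Finset (W ⊕ W)) :
    MP ℝ P i j T S =
      if (S.toLeft.card = i ∧ S.toRight.card = j) ∧ S ⊆ T ∧ T \ S ∈ P then 1 else 0 := rfl

/-- for fixed `S`, sums over `T ⊇ S`, `T \ S ∈ P` are sums over `p ∈ P` disjoint from `S`. -/
theorem card_T (P : Finset (Finset (W ⊕ W))) (S : Finset (W ⊕ W)) :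
    (univ.filter fun T : Finset (W ⊕ W) => S ⊆ T ∧ T \ S ∈ P).card =
      (P.filter fun p => Disjoint S p).card := by
  refine card_bij' (fun T _ => T \ S) (fun p _ => S ∪ p) ?_ ?_ ?_ ?_
  · intro T hT
    rw [mem_filter] at hT ⊢
    exact ⟨hT.2.2, disjoint_sdiff⟩
  · intro p hp
    rw [mem_filter] at hp ⊢
    refine ⟨mem_univ _, subset_union_left, ?_⟩
    rw [union_sdiff_cancel_left hp.2]
    exact hp.1
  · intro T hT
    rw [mem_filter] at hT
    exact union_sdiff_of_subset hT.2.1
  · intro p hp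
    rw [mem_filter] at hp
    exact union_sdiff_cancel_left hp.2

end QuadAux

open QuadAux

theorem trace_MP (P : Finset (Finset (W ⊕ W))) (i j k k' : ℕ)
    (hP : ∀ p ∈ P, p.toLeft.card = k ∧ p.toRight.card = k') :
    ((MP ℝ P i j)ᵀ * MP ℝ P i j).trace =
      P.card * (Fintype.card W - k).choose i * (Fintype.card W - k').choose j := by
  have h1 : ((MP ℝ P i j)ᵀ * MP ℝ P i j).trace =
      ∑ S : Finset (W ⊕ W), if (S.toLeft.card = i ∧ S.toRight.card = j) then
        ((P.filter fun p => Disjoint S p).card : ℝ) else 0 := by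
    unfold Matrix.trace
    refine sum_congr rfl fun S _ => ?_
    rw [Matrix.diag_apply, Matrix.mul_apply]
    simp only [Matrix.transpose_apply, MP_apply]
    by_cases hS : S.toLeft.card = i ∧ S.toRight.card = j
    · rw [if_pos hS, ← card_T, card_filter]
      push_cast
      refine sum_congr rfl fun T _ => ?_
      by_cases h : S ⊆ T ∧ T \ S ∈ P
      · rw [if_pos ⟨hS, h⟩, if_pos h]; norm_num
      · rw [if_neg (fun h' => h h'.2), if_neg h]; norm_num
    · rw [if_neg hS]
      refine sum_eq_zero fun T _ => ?_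
      rw [if_neg (fun h' => hS h'.1)]; norm_num
  have h2 : (∑ S : Finset (W ⊕ W), if (S.toLeft.card = i ∧ S.toRight.card = j) then
        ((P.filter fun p => Disjoint S p).card : ℝ) else 0) =
      ∑ p ∈ P, (((univ.filter fun S : Finset (W ⊕ W) =>
        (S.toLeft.card = i ∧ Disjoint S.toLeft p.toLeft) ∧
        (S.toRight.card = j ∧ Disjoint S.toRight p.toRight)).card : ℕ) : ℝ) := by
    have h3 : ∀ S : Finset (W ⊕ W), (if (S.toLeft.card = i ∧ S.toRight.card = j) then
        ((P.filter fun p => Disjoint S p).card : ℝ) else 0) =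
        ∑ p ∈ P, if ((S.toLeft.card = i ∧ Disjoint S.toLeft p.toLeft) ∧
        (S.toRight.card = j ∧ Disjoint S.toRight p.toRight)) then (1 : ℝ) else 0 := by
      intro S
      split_ifs with hS
      · rw [card_filter]
        push_cast
        refine sum_congr rfl fun p _ => ?_
        simp only [hS.1, hS.2, true_and, ← disj_lr_iff]
      · symm
        refine sum_eq_zero fun p _ => ?_
        rw [if_neg]
        rintro ⟨⟨h1, _⟩, ⟨h2, _⟩⟩
        exact hS ⟨h1, h2⟩
    rw [sum_congr rfl fun S _ => h3 S, sum_comm]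
    refine sum_congr rfl fun p _ => ?_
    rw [card_filter]
    push_cast
    rfl
  rw [h1, h2]
  have h4 : ∀ p ∈ P, (((univ.filter fun S : Finset (W ⊕ W) =>
        (S.toLeft.card = i ∧ Disjoint S.toLeft p.toLeft) ∧
        (S.toRight.card = j ∧ Disjoint S.toRight p.toRight)).card : ℕ) : ℝ) =
      (Fintype.card W - k).choose i * (Fintype.card W - k').choose j := by
    intro p hp
    rw [card_prod (fun A : Finset W => A.card = i ∧ Disjoint A p.toLeft)
      (fun A : Finset W => A.card = j ∧ Disjoint A p.toRight), card_disj, card_disj,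
      (hP p hp).1, (hP p hp).2]
    push_cast
    rfl
  rw [sum_congr rfl h4, sum_const, nsmul_eq_mul]
  ring

namespace QuadAux

/-- the support relation of `MP` -/
def Rel (P : Finset (Finset (W ⊕ W))) (i j : ℕ) (T S : Finset (W ⊕ W)) : Prop :=
  (S.toLeft.card = i ∧ S.toRight.card = j) ∧ S ⊆ T ∧ T \ S ∈ P

instance (P : Finset (Finset (W ⊕ W))) (i j : ℕ) (T S : Finset (W ⊕ W)) :
    Decidable (Rel P i j T S) := by unfold Rel; infer_instance

theorem trace_eq (P : Finset (Finset (W ⊕ W))) (i j : ℕ) :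
    (((MP ℝ P i j)ᵀ * MP ℝ P i j) * ((MP ℝ P i j)ᵀ * MP ℝ P i j)).trace =
      ((univ.filter fun q : Finset (W ⊕ W) × Finset (W ⊕ W) × Finset (W ⊕ W) × Finset (W ⊕ W) =>
        Rel P i j q.2.2.1 q.1 ∧ Rel P i j q.2.2.1 q.2.1 ∧ Rel P i j q.2.2.2 q.2.1 ∧
          Rel P i j q.2.2.2 q.1).card : ℝ) := by
  rw [card_filter]
  push_cast
  rw [Fintype.sum_prod_type]
  unfold Matrix.trace
  refine sum_congr rfl fun S _ => ?_
  rw [Matrix.diag_apply, Matrix.mul_apply, Fintype.sum_prod_type]
  refine sum_congr rfl fun S' _ => ?_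
  rw [Matrix.mul_apply, Matrix.mul_apply, sum_mul_sum, Fintype.sum_prod_type]
  refine sum_congr rfl fun T _ => ?_
  refine sum_congr rfl fun T' _ => ?_
  simp only [Matrix.transpose_apply]
  have h : ∀ T S : Finset (W ⊕ W), MP ℝ P i j T S = if Rel P i j T S then 1 else 0 :=
    fun T S => rfl
  simp only [h]
  by_cases h1 : Rel P i j T S <;> by_cases h2 : Rel P i j T S' <;>
    by_cases h3 : Rel P i j T' S' <;> by_cases h4 : Rel P i j T' S <;> simp [h1, h2, h3, h4]

theorem card_quad_le (P : Finset (Finset (W ⊕ W))) (i j : ℕ) :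
    (univ.filter fun q : Finset (W ⊕ W) × Finset (W ⊕ W) × Finset (W ⊕ W) × Finset (W ⊕ W) =>
        Rel P i j q.2.2.1 q.1 ∧ Rel P i j q.2.2.1 q.2.1 ∧ Rel P i j q.2.2.2 q.2.1 ∧
          Rel P i j q.2.2.2 q.1).card ≤
      ∑ p ∈ (P ×ˢ P ×ˢ P ×ˢ P).filter Balanced,
        (univ.filter fun S : Finset (W ⊕ W) =>
          (S.toLeft.card = i ∧ Disjoint S.toLeft (p.1.toLeft ∪ p.2.2.2.toLeft)) ∧
          (S.toRight.card = j ∧ (p.2.1.toRight \ p.1.toRight) ⊆ S.toRight)).card := by
  rw [← card_sigma]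
  refine card_le_card_of_injOn (fun q => ⟨(q.2.2.1 \ q.1, q.2.2.1 \ q.2.1, q.2.2.2 \ q.2.1,
    q.2.2.2 \ q.1), q.1⟩) ?_ ?_
  · rintro ⟨S, S', T, T'⟩ hq
    rw [mem_coe, mem_filter] at hq
    obtain ⟨-, h1, h2, h3, h4⟩ := hq
    simp only [Rel] at h1 h2 h3 h4
    rw [mem_coe, mem_sigma, mem_filter, mem_filter]
    simp only [mem_product]
    refine ⟨⟨⟨h1.2.2, h2.2.2, h3.2.2, h4.2.2⟩, ?_⟩, mem_univ _, ⟨h1.1.1, ?_⟩, h1.1.2, ?_⟩
    · intro v
      have a1 := @h1.2.1 v
      have a2 := @h2.2.1 v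
      have a3 := @h3.2.1 v
      have a4 := @h4.2.1 v
      simp only [mem_sdiff]
      by_cases b1 : v ∈ S <;> by_cases b2 : v ∈ S' <;> by_cases b3 : v ∈ T <;>
        by_cases b4 : v ∈ T' <;> simp_all
    · rw [disjoint_union_right]
      constructor
      · rw [toLeft_sdiff]; exact disjoint_sdiff
      · rw [toLeft_sdiff]; exact disjoint_sdiff
    · intro v hv
      rw [toRight_sdiff, toRight_sdiff, mem_sdiff, mem_sdiff, mem_sdiff] at hv
      by_contra hc
      exact hv.2 ⟨hv.1.1, hc⟩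
  · rintro ⟨S, S', T, T'⟩ hq ⟨S₁, S₁', T₁, T₁'⟩ hq₁ heq
    rw [mem_coe, mem_filter] at hq hq₁
    obtain ⟨-, h1, h2, h3, h4⟩ := hq
    obtain ⟨-, g1, g2, g3, g4⟩ := hq₁
    simp only [Rel] at h1 h2 h3 h4 g1 g2 g3 g4
    simp only [Sigma.mk.injEq, Prod.mk.injEq, heq_eq_eq] at heq
    obtain ⟨⟨e1, e2, e3, e4⟩, e5⟩ := heq
    subst e5
    have eT : T = T₁ := by
      rw [← sdiff_union_of_subset h1.2.1, ← sdiff_union_of_subset g1.2.1, e1]
    have eT' : T' = T₁' := by
      rw [← sdiff_union_of_subset h4.2.1, ← sdiff_union_of_subset g4.2.1, e4]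
    subst eT eT'
    have eS' : S' = S₁' := by
      rw [← Finset.sdiff_sdiff_eq_self h2.2.1, ← Finset.sdiff_sdiff_eq_self g2.2.1, e2]
    subst eS'
    rfl

end QuadAux

theorem trace_sq_MP (P : Finset (Finset (W ⊕ W))) (i j k k' : ℕ)
    (hP : ∀ p ∈ P, p.toLeft.card = k ∧ p.toRight.card = k') (hkj : k' ≤ j)
    (Y L : ℝ) (hY : 0 < Y) (hL : 0 < L)
    (hYW : ((Fintype.card W : ℝ) - i) / Fintype.card W ≤ 1 / Y)
    (hLW : (j : ℝ) / Fintype.card W ≤ 1 / L) :
    (((MP ℝ P i j)ᵀ * MP ℝ P i j) * ((MP ℝ P i j)ᵀ * MP ℝ P i j)).trace ≤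
      (Fintype.card W).choose i * (Fintype.card W).choose j *
      ∑ p ∈ (P ×ˢ P ×ˢ P ×ˢ P).filter Balanced,
        (Y ^ (p.1 ∩ p.2.2.2).toLeft.card / Y ^ (2 * k)) *
        (L ^ (p.1 ∩ p.2.1).toRight.card / L ^ k') := by
  rw [trace_eq]
  refine (Nat.cast_le.2 (card_quad_le P i j)).trans ?_
  rw [Nat.cast_sum, mul_sum]
  refine sum_le_sum fun p hp => ?_
  rw [mem_filter] at hp
  simp only [mem_product] at hp
  obtain ⟨⟨hp1, hp2, hp3, hp4⟩, hb⟩ := hp
  rw [card_prod (fun A : Finset W => A.card = i ∧ Disjoint A (p.1.toLeft ∪ p.2.2.2.toLeft))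
    (fun A : Finset W => A.card = j ∧ (p.2.1.toRight \ p.1.toRight) ⊆ A), card_disj]
  push_cast
  have h1 : ((Fintype.card W - (p.1.toLeft ∪ p.2.2.2.toLeft).card).choose i : ℝ) ≤
      (Fintype.card W).choose i * (Y ^ (p.1 ∩ p.2.2.2).toLeft.card / Y ^ (2 * k)) := by
    refine (choose_le1 (Fintype.card W) i hY hYW _ (card_le_univ _)).trans ?_
    have hc : (p.1.toLeft ∪ p.2.2.2.toLeft).card + (p.1 ∩ p.2.2.2).toLeft.card = 2 * k := by
      rw [toLeft_inter, card_union_add_card_inter, (hP _ hp1).1, (hP _ hp4).1]; ring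
    refine le_of_eq ?_
    congr 1
    rw [← hc, pow_add, one_div, inv_pow]
    field_simp
  have h2 : ((univ.filter fun A : Finset W => A.card = j ∧
      (p.2.1.toRight \ p.1.toRight) ⊆ A).card : ℝ) ≤
      (Fintype.card W).choose j * (L ^ (p.1 ∩ p.2.1).toRight.card / L ^ k') := by
    have hc : (p.2.1.toRight \ p.1.toRight).card + (p.1 ∩ p.2.1).toRight.card = k' := by
      rw [toRight_inter, inter_comm, card_sdiff_add_card_inter, (hP _ hp2).2]
    refine (Nat.cast_le.2 (card_sup _ j)).trans ?_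
    refine (choose_le2 (Fintype.card W) j hL hLW _ (by omega) (card_le_univ _)).trans ?_
    refine le_of_eq ?_
    congr 1
    rw [← hc, pow_add, one_div, inv_pow]
    field_simp
  calc _ ≤ ((Fintype.card W).choose i * (Y ^ (p.1 ∩ p.2.2.2).toLeft.card / Y ^ (2 * k))) *
      ((Fintype.card W).choose j * (L ^ (p.1 ∩ p.2.1).toRight.card / L ^ k')) := by
        gcongr
    _ = _ := by ring

end Vale.Agent.P346
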