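import Mathlib

/-!
# P346: the rank of a matrix and traces; rank of an integer matrix
-/

namespace Vale.Agent.P346

open Finset Matrix

namespace TraceAux

theorem exists_factor {a b : Type*} [Fintype a] [Fintype b] [DecidableEq a] [DecidableEq b]
    {F : Type*} [Field F] (M : Matrix a b F) :
    ∃ (B : Matrix a (Fin M.rank) F) (C : Matrix (Fin M.rank) b F) (P : Matrix (Fin M.rank) a F)
      (V : Matrix b (Fin M.rank) F), M = B * C ∧ P * M * V = 1 := by
  classical
  let f := M.mulVecLin
  let bW : Module.Basis (Fin M.rank) F (LinearMap.range f) := Module.finBasisOfFinrankEq F _ rfl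
  let g : (Fin M.rank → F) →ₗ[F] (a → F) :=
    (LinearMap.range f).subtype ∘ₗ (bW.equivFun.symm : (Fin M.rank → F) →ₗ[F] _)
  let h : (b → F) →ₗ[F] (Fin M.rank → F) :=
    (bW.equivFun : _ →ₗ[F] (Fin M.rank → F)) ∘ₗ f.rangeRestrict
  have hgh : g ∘ₗ h = f := by
    ext x
    simp [g, h]
  have hg : Function.Injective g := by
    intro x y hxy
    simp only [g, LinearMap.comp_apply] at hxy
    exact bW.equivFun.symm.injective (Subtype.ext hxy)
  have hh : Function.Surjective h := by
    intro x
    obtain ⟨y, hy⟩ := (bW.equivFun.symm x).2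
    refine ⟨y, ?_⟩
    have h1 : f.rangeRestrict y = bW.equivFun.symm x := Subtype.ext hy
    have h2 : h y = bW.equivFun (f.rangeRestrict y) := rfl
    rw [h2, h1, LinearEquiv.apply_symm_apply]
  obtain ⟨p, hp⟩ := LinearMap.exists_leftInverse_of_injective g (LinearMap.ker_eq_bot.2 hg)
  obtain ⟨v, hv⟩ := LinearMap.exists_rightInverse_of_surjective h (LinearMap.range_eq_top.2 hh)
  have hM : LinearMap.toMatrix' f = M := by
    have : f = Matrix.toLin' M := rfl
    rw [this, LinearMap.toMatrix'_toLin']
  have e1 : M = LinearMap.toMatrix' g * LinearMap.toMatrix' h := by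
    rw [← LinearMap.toMatrix'_comp, hgh, hM]
  refine ⟨LinearMap.toMatrix' g, LinearMap.toMatrix' h, LinearMap.toMatrix' p,
    LinearMap.toMatrix' v, e1, ?_⟩
  have e2 : LinearMap.toMatrix' p * M * LinearMap.toMatrix' v =
      (LinearMap.toMatrix' p * LinearMap.toMatrix' g) *
        (LinearMap.toMatrix' h * LinearMap.toMatrix' v) := by
    calc LinearMap.toMatrix' p * M * LinearMap.toMatrix' v
        = LinearMap.toMatrix' p * (LinearMap.toMatrix' g * LinearMap.toMatrix' h) *
            LinearMap.toMatrix' v :=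
          congrArg (fun N => LinearMap.toMatrix' p * N * LinearMap.toMatrix' v) e1
      _ = _ := by simp only [Matrix.mul_assoc]
  rw [e2, ← LinearMap.toMatrix'_comp, ← LinearMap.toMatrix'_comp, hp, hv]
  simp

theorem rank_map_eq {a b : Type*} [Fintype a] [Fintype b] [DecidableEq a] [DecidableEq b]
    {F K : Type*} [Field F] [Field K] (M : Matrix a b F) (φ : F →+* K) :
    (M.map φ).rank = M.rank := by
  obtain ⟨B, C, P, V, h1, h2⟩ := exists_factor M
  apply le_antisymm
  · have e : M.map φ = B.map φ * C.map φ := by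
      rw [← Matrix.map_mul, ← h1]
    rw [e]
    exact (Matrix.rank_mul_le_left _ _).trans ((Matrix.rank_le_card_width _).trans (by simp))
  · have e : P.map φ * M.map φ * V.map φ = 1 := by
      rw [← Matrix.map_mul, ← Matrix.map_mul, h2]
      exact Matrix.map_one φ (map_zero φ) (map_one φ)
    have r1 : (1 : Matrix (Fin M.rank) (Fin M.rank) K).rank = M.rank := by
      rw [Matrix.rank_one]
      simp
    calc M.rank = (P.map φ * M.map φ * V.map φ).rank := by rw [e, r1]
      _ ≤ (P.map φ * M.map φ).rank := Matrix.rank_mul_le_left _ _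
      _ ≤ (M.map φ).rank := Matrix.rank_mul_le_right _ _

end TraceAux

theorem trace_sq_le_rank {a b : Type*} [Fintype a] [Fintype b] [DecidableEq a] [DecidableEq b]
    (M : Matrix a b ℝ) :
    (Mᵀ * M).trace ^ 2 ≤ (M.rank : ℝ) * ((Mᵀ * M) * (Mᵀ * M)).trace := by
  have hA : (Mᵀ * M).IsHermitian := by
    have := Matrix.isHermitian_conjTranspose_mul_self M
    rwa [Matrix.conjTranspose_eq_transpose_of_trivial] at this
  rw [← Matrix.rank_transpose_mul_self M]
  set A := Mᵀ * M with hAdef
  have htr : A.trace = ∑ i, hA.eigenvalues i := by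
    have := hA.trace_eq_sum_eigenvalues
    simpa using this
  have htr2 : (A * A).trace = ∑ i, hA.eigenvalues i ^ 2 := by
    have hs := hA.spectral_theorem
    rw [Unitary.conjStarAlgAut_apply] at hs
    set U : Matrix b b ℝ := (hA.eigenvectorUnitary : Matrix b b ℝ) with hU
    have hUU : star U * U = 1 := Unitary.coe_star_mul_self _
    have e : A * A = U * (Matrix.diagonal (fun i => hA.eigenvalues i) *
        Matrix.diagonal (fun i => hA.eigenvalues i)) * star U := by
      have hs' : A = U * Matrix.diagonal (fun i => hA.eigenvalues i) * star U := by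
        simpa [Function.comp_def] using hs
      conv_lhs => rw [hs']
      calc U * Matrix.diagonal (fun i => hA.eigenvalues i) * star U *
            (U * Matrix.diagonal (fun i => hA.eigenvalues i) * star U)
          = U * Matrix.diagonal (fun i => hA.eigenvalues i) * (star U * U) *
            (Matrix.diagonal (fun i => hA.eigenvalues i) * star U) := by
            simp only [Matrix.mul_assoc]
        _ = _ := by rw [hUU]; simp only [Matrix.mul_assoc, Matrix.one_mul]
    rw [e, Matrix.trace_mul_comm, ← Matrix.mul_assoc, hUU, Matrix.one_mul,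
      Matrix.diagonal_mul_diagonal, Matrix.trace_diagonal]
    exact Finset.sum_congr rfl (fun i _ => by ring)
  rw [htr, htr2, hA.rank_eq_card_non_zero_eigs]
  have h1 : ∑ i, hA.eigenvalues i =
      ∑ i ∈ Finset.univ.filter (fun i => hA.eigenvalues i ≠ 0), hA.eigenvalues i := by
    rw [Finset.sum_filter]
    refine Finset.sum_congr rfl (fun i _ => ?_)
    by_cases h : hA.eigenvalues i = 0
    · simp [h]
    · simp [h]
  have h2 : ∑ i ∈ Finset.univ.filter (fun i => hA.eigenvalues i ≠ 0), hA.eigenvalues i ^ 2
      ≤ ∑ i, hA.eigenvalues i ^ 2 :=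
    Finset.sum_le_sum_of_subset_of_nonneg (Finset.filter_subset _ _)
      (fun i _ _ => sq_nonneg _)
  have h3 := sq_sum_le_card_mul_sum_sq
    (s := Finset.univ.filter (fun i => hA.eigenvalues i ≠ 0)) (f := fun i => hA.eigenvalues i)
  have h4 : Fintype.card {i // hA.eigenvalues i ≠ 0} =
      (Finset.univ.filter (fun i => hA.eigenvalues i ≠ 0)).card := Fintype.card_subtype _
  rw [h1, h4]
  exact h3.trans (mul_le_mul_of_nonneg_left h2 (Nat.cast_nonneg _))

theorem rank_intCast_le {a b : Type*} [Fintype a] [Fintype b] [DecidableEq a] [DecidableEq b]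
    (M : Matrix a b ℤ) (K : Type*) [Field K] [CharZero K] :
    (M.map (Int.cast : ℤ → ℝ)).rank ≤ (M.map (Int.cast : ℤ → K)).rank := by
  have e1 : M.map (Int.cast : ℤ → ℝ) = (M.map (Int.cast : ℤ → ℚ)).map (Rat.castHom ℝ) := by
    ext i j
    simp
  have e2 : M.map (Int.cast : ℤ → K) = (M.map (Int.cast : ℤ → ℚ)).map (Rat.castHom K) := by
    ext i j
    simp
  rw [e1, e2, TraceAux.rank_map_eq, TraceAux.rank_map_eq]

end Vale.Agent.P346
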