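import Vale.Agent.P346.PathDefs

/-!
# P346: the transfer argument for balanced quadruples of paths
-/

namespace Vale.Agent.P346

open Finset

/-- Backward induction over layers: a super-solution bounds the total weight of the paths that
start in `s0`. -/
theorem transfer_le {S : Type*} [Fintype S] [DecidableEq S] (wt : ℕ → S → S → ℝ)
    (hwt : ∀ t s s', 0 ≤ wt t s s') (h : ℕ → S → ℝ) (s0 : S) (m : ℕ)
    (hh : ∀ t < m, ∀ s, ∑ s', wt t s s' * h (t + 1) s' ≤ h t s) :
    ∑ f : Fin (m + 1) → S, (if f 0 = s0 then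
      (∏ t : Fin m, wt t (f t.castSucc) (f t.succ)) * h m (f (Fin.last m)) else 0) ≤ h 0 s0 := by
  induction m with
  | zero =>
    rw [← (Equiv.funUnique (Fin 1) S).symm.sum_comp]
    simp
  | succ m ih =>
    refine le_trans ?_ (ih fun t ht s => hh t (by omega) s)
    rw [← (Fin.snocEquiv (fun _ : Fin (m + 2) => S)).sum_comp, Fintype.sum_prod_type_right]
    refine Finset.sum_le_sum fun f _ => ?_
    have e2 : ∀ (s' : S) (t : Fin (m + 1)),
        (Fin.snocEquiv (fun _ : Fin (m + 2) => S)) (s', f) t.castSucc = f t := fun s' t => by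
      simp [Fin.snocEquiv]
    have h0 : ∀ s' : S, (Fin.snocEquiv (fun _ : Fin (m + 2) => S)) (s', f) 0 = f 0 := fun s' => by
      exact e2 s' 0
    by_cases hf : f 0 = s0
    · simp only [h0, hf, if_true]
      have key : ∀ s' : S,
          (∏ t : Fin (m + 1), wt t ((Fin.snocEquiv (fun _ : Fin (m + 2) => S)) (s', f) t.castSucc)
            ((Fin.snocEquiv (fun _ : Fin (m + 2) => S)) (s', f) t.succ)) *
            h (m + 1) ((Fin.snocEquiv (fun _ : Fin (m + 2) => S)) (s', f) (Fin.last (m + 1))) =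
          (∏ t : Fin m, wt t (f t.castSucc) (f t.succ)) *
            (wt m (f (Fin.last m)) s' * h (m + 1) s') := fun s' => by
        rw [Fin.prod_univ_castSucc]
        have e1 : ∀ t : Fin m, (Fin.snocEquiv (fun _ : Fin (m + 2) => S)) (s', f) t.castSucc.succ
            = f t.succ := fun t => by
          rw [Fin.succ_castSucc]
          exact e2 s' t.succ
        have e3 : (Fin.snocEquiv (fun _ : Fin (m + 2) => S)) (s', f) (Fin.last (m + 1)) = s' := by
          simp [Fin.snocEquiv]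
        simp only [e1, e2, Fin.succ_last, e3, Fin.val_castSucc, Fin.val_last]
        ring
      rw [Finset.sum_congr rfl fun s' _ => key s', ← Finset.mul_sum]
      exact mul_le_mul_of_nonneg_left (hh m (by omega) _)
        (Finset.prod_nonneg fun t _ => hwt _ _ _)
    · simp only [h0, hf, if_false, Finset.sum_const_zero, le_refl]

theorem sum_image_le_sum {ι κ : Type*} [DecidableEq κ] (s : Finset ι) (Φ : ι → κ) (g : κ → ℝ)
    (hg : ∀ k, 0 ≤ g k) : ∑ k ∈ s.image Φ, g k ≤ ∑ i ∈ s, g (Φ i) := by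
  rw [Finset.sum_comp g Φ]
  refine Finset.sum_le_sum fun k hk => ?_
  obtain ⟨i, hi, rfl⟩ := Finset.mem_image.1 hk
  have h1 : 1 ≤ (s.filter fun a => Φ a = Φ i).card :=
    Finset.card_pos.2 ⟨i, Finset.mem_filter.2 ⟨hi, rfl⟩⟩
  have h2 : (1 : ℝ) ≤ ((s.filter fun a => Φ a = Φ i).card : ℝ) := by exact_mod_cast h1
  rw [nsmul_eq_mul]
  nlinarith [hg (Φ i)]

/-! ### The states -/

/-- four vertices -/
abbrev St (n : ℕ) := Fin n × Fin n × Fin n × Fin n

/-- indicator of the states `(v, v, w, w)` -/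
def inA {n : ℕ} (s : St n) : ℝ := if s.1 = s.2.1 ∧ s.2.2.1 = s.2.2.2 then 1 else 0

/-- indicator of the states `(v, w, w, v)` -/
def inB {n : ℕ} (s : St n) : ℝ := if s.1 = s.2.2.2 ∧ s.2.1 = s.2.2.1 then 1 else 0

theorem inA_nonneg {n : ℕ} (s : St n) : 0 ≤ inA s := by unfold inA; split_ifs <;> simp

theorem inB_nonneg {n : ℕ} (s : St n) : 0 ≤ inB s := by unfold inB; split_ifs <;> simp

theorem sum_inA_inA (n : ℕ) : ∑ s : St n, inA s * inA s = (n : ℝ) ^ 2 := by
  have : ∀ s : St n, inA s * inA s = inA s := fun s => by unfold inA; split_ifs <;> simp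
  rw [Finset.sum_congr rfl fun s _ => this s]
  simp only [inA, Fintype.sum_prod_type, ite_and]
  simp [sq]

theorem sum_inB_inB (n : ℕ) : ∑ s : St n, inB s * inB s = (n : ℝ) ^ 2 := by
  have : ∀ s : St n, inB s * inB s = inB s := fun s => by unfold inB; split_ifs <;> simp
  rw [Finset.sum_congr rfl fun s _ => this s]
  simp only [inB, Fintype.sum_prod_type, ite_and]
  simp [sq]

theorem sum_inA_inB (n : ℕ) : ∑ s : St n, inA s * inB s = (n : ℝ) := by
  have : ∀ a b c d : Fin n, inA (a, b, c, d) * inB (a, b, c, d) =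
      if a = b then (if b = c then (if c = d then 1 else 0) else 0) else 0 := by
    intro a b c d
    unfold inA inB
    by_cases h1 : a = b
    · subst h1
      by_cases h2 : a = c
      · subst h2
        by_cases h3 : a = d
        · simp [← h3]
        · simp [h3]
      · simp [h2]
    · simp [h1]
  simp only [Fintype.sum_prod_type, this]
  simp

/-- the weight of a transition -/
def wtt {n : ℕ} (x y : ℝ) (s s' : St n) : ℝ := x * (inA s * inA s') + y * (inB s * inB s')

theorem wtt_nonneg {n : ℕ} {x y : ℝ} (hx : 0 ≤ x) (hy : 0 ≤ y) (s s' : St n) :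
    0 ≤ wtt x y s s' := by
  have h1 := mul_nonneg hx (mul_nonneg (inA_nonneg s) (inA_nonneg s'))
  have h2 := mul_nonneg hy (mul_nonneg (inB_nonneg s) (inB_nonneg s'))
  exact add_nonneg h1 h2

theorem sum_wtt {n : ℕ} (x y a b : ℝ) (s : St n) :
    ∑ s', wtt x y s s' * (a * inA s' + b * inB s') =
      x * inA s * (a * n ^ 2 + b * n) + y * inB s * (a * n + b * n ^ 2) := by
  have h : ∀ s' : St n, wtt x y s s' * (a * inA s' + b * inB s') =
      (x * inA s * a) * (inA s' * inA s') + (x * inA s * b) * (inA s' * inB s') +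
      ((y * inB s * a) * (inA s' * inB s') + (y * inB s * b) * (inB s' * inB s')) := fun s' => by
    unfold wtt; ring
  rw [Finset.sum_congr rfl fun s' _ => h s']
  rw [Finset.sum_add_distrib, Finset.sum_add_distrib, Finset.sum_add_distrib, ← Finset.mul_sum,
    ← Finset.mul_sum, ← Finset.mul_sum, ← Finset.mul_sum, sum_inA_inA, sum_inA_inB, sum_inB_inB]
  ring

/-- the super-solution -/
noncomputable def hpot (n : ℕ) [NeZero n] (Y : ℝ) (F G : ℕ → ℝ) (t : ℕ) (s : St n) : ℝ :=
  if t < n then ((n : ℝ) ^ 2 + n * Y) ^ (n - 1 - t) * G n * (inA s / F t + Y * inB s / G t)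
  else (if s = (0, 0, 0, 0) then 1 else 0)

theorem hpot_step (n : ℕ) [NeZero n] (Y L : ℝ) (F G : ℕ → ℝ) (hL : 1 ≤ L) (hLY : L ≤ Y)
    (hF : ∀ t, 0 < F t) (hG : ∀ t, 0 < G t)
    (hFG : ∀ t ≤ n, F t ≤ G t ∧ G t ≤ F t * (L * Y)) (t : ℕ) (ht : t < n) (s : St n) :
    ∑ s', wtt (F (t + 1) / F t) (G (t + 1) / G t) s s' * hpot n Y F G (t + 1) s' ≤
      hpot n Y F G t s := by
  have hY : 1 ≤ Y := hL.trans hLY
  have hn : 0 < (n : ℝ) := by exact_mod_cast Nat.pos_of_ne_zero (NeZero.ne n)
  have hF0 := hF t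
  have hF1 := hF (t + 1)
  have hG0 := hG t
  have hG1 := hG (t + 1)
  obtain ⟨hle, hge⟩ := hFG (t + 1) ht
  have hA := inA_nonneg s
  have hB := inB_nonneg s
  rcases Nat.lt_or_ge (t + 1) n with h1 | h1
  · set Cc : ℝ := ((n : ℝ) ^ 2 + n * Y) ^ (n - 1 - (t + 1)) * G n with hCc
    have hCpos : 0 < Cc := by
      have := hG n
      positivity
    have e : ∀ s' : St n, hpot n Y F G (t + 1) s' =
        (Cc / F (t + 1)) * inA s' + (Cc * Y / G (t + 1)) * inB s' := fun s' => by
      rw [hpot, if_pos h1, ← hCc]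
      field_simp
    simp only [e]
    rw [sum_wtt, hpot, if_pos ht]
    have hexp : n - 1 - t = (n - 1 - (t + 1)) + 1 := by omega
    have hC0 : ((n : ℝ) ^ 2 + n * Y) ^ (n - 1 - t) * G n = Cc * ((n : ℝ) ^ 2 + n * Y) := by
      rw [hexp, pow_succ, hCc]; ring
    rw [hC0]
    have i1 : F (t + 1) / F t * (Cc / F (t + 1) * n ^ 2 + Cc * Y / G (t + 1) * n) ≤
        Cc * ((n : ℝ) ^ 2 + n * Y) / F t := by
      rw [div_mul_eq_mul_div]
      refine div_le_div_of_nonneg_right ?_ hF0.le
      have : F (t + 1) * (Cc / F (t + 1) * n ^ 2 + Cc * Y / G (t + 1) * n) =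
          Cc * n ^ 2 + Cc * n * Y * (F (t + 1) / G (t + 1)) := by
        field_simp
      rw [this]
      have h2 : F (t + 1) / G (t + 1) ≤ 1 := (div_le_one hG1).2 hle
      have h3 : 0 ≤ Cc * n * Y := by positivity
      nlinarith
    have i2 : G (t + 1) / G t * (Cc / F (t + 1) * n + Cc * Y / G (t + 1) * n ^ 2) ≤
        Cc * ((n : ℝ) ^ 2 + n * Y) * Y / G t := by
      rw [div_mul_eq_mul_div]
      refine div_le_div_of_nonneg_right ?_ hG0.le
      have : G (t + 1) * (Cc / F (t + 1) * n + Cc * Y / G (t + 1) * n ^ 2) =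
          Cc * n ^ 2 * Y + Cc * n * (G (t + 1) / F (t + 1)) := by
        field_simp
        ring
      rw [this]
      have h2 : G (t + 1) / F (t + 1) ≤ Y * Y := by
        rw [div_le_iff₀ hF1]
        nlinarith
      have h3 : 0 ≤ Cc * n := by positivity
      nlinarith
    calc F (t + 1) / F t * inA s * (Cc / F (t + 1) * n ^ 2 + Cc * Y / G (t + 1) * n) +
          G (t + 1) / G t * inB s * (Cc / F (t + 1) * n + Cc * Y / G (t + 1) * n ^ 2)
        = inA s * (F (t + 1) / F t * (Cc / F (t + 1) * n ^ 2 + Cc * Y / G (t + 1) * n)) +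
          inB s * (G (t + 1) / G t * (Cc / F (t + 1) * n + Cc * Y / G (t + 1) * n ^ 2)) := by ring
      _ ≤ inA s * (Cc * ((n : ℝ) ^ 2 + n * Y) / F t) +
          inB s * (Cc * ((n : ℝ) ^ 2 + n * Y) * Y / G t) :=
          add_le_add (mul_le_mul_of_nonneg_left i1 hA) (mul_le_mul_of_nonneg_left i2 hB)
      _ = Cc * ((n : ℝ) ^ 2 + n * Y) * (inA s / F t + Y * inB s / G t) := by ring
  · have hn1 : t + 1 = n := by omega
    have e : ∀ s' : St n, hpot n Y F G (t + 1) s' = if s' = (0, 0, 0, 0) then 1 else 0 :=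
      fun s' => by rw [hpot, if_neg (by omega)]
    simp only [e, mul_ite, mul_one, mul_zero, Finset.sum_ite_eq', Finset.mem_univ, if_true]
    rw [hpot, if_pos ht]
    have hexp : n - 1 - t = 0 := by omega
    have hGn : G n = G (t + 1) := by rw [hn1]
    rw [hexp, pow_zero, one_mul, hGn]
    have a0 : inA ((0, 0, 0, 0) : St n) = 1 := by simp [inA]
    have b0 : inB ((0, 0, 0, 0) : St n) = 1 := by simp [inB]
    rw [wtt, a0, b0, mul_one, mul_one]
    calc F (t + 1) / F t * inA s + G (t + 1) / G t * inB s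
        ≤ G (t + 1) / F t * inA s + G (t + 1) / G t * (Y * inB s) := by
          refine add_le_add ?_ ?_
          · exact mul_le_mul_of_nonneg_right (div_le_div_of_nonneg_right hle hF0.le) hA
          · refine mul_le_mul_of_nonneg_left ?_ (by positivity)
            nlinarith
      _ = G (t + 1) * (inA s / F t + Y * inB s / G t) := by ring

theorem hpot_zero_le (n : ℕ) [NeZero n] (Y : ℝ) (F G : ℕ → ℝ) (hY : 1 ≤ Y)
    (hF0 : F 0 = 1) (hG0 : G 0 = 1) (hG : ∀ t, 0 < G t) :
    hpot n Y F G 0 (0, 0, 0, 0) ≤ (n : ℝ) ^ (2 * (n - 1)) * G n * ((1 + Y) * Real.exp Y) := by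
  have hnpos : 0 < n := Nat.pos_of_ne_zero (NeZero.ne n)
  have hn : 0 < (n : ℝ) := by exact_mod_cast hnpos
  have a0 : inA ((0, 0, 0, 0) : St n) = 1 := by simp [inA]
  have b0 : inB ((0, 0, 0, 0) : St n) = 1 := by simp [inB]
  rw [hpot, if_pos hnpos, a0, b0, hF0, hG0, Nat.sub_zero]
  have e1 : ((n : ℝ) ^ 2 + n * Y) = (n : ℝ) ^ 2 * (1 + Y / n) := by field_simp
  rw [e1, mul_pow, ← pow_mul]
  have e2 : (1 + Y / n) ^ (n - 1) ≤ Real.exp Y := by
    have h1 : 1 + Y / n ≤ Real.exp (Y / n) := by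
      have := Real.add_one_le_exp (Y / (n : ℝ))
      linarith
    calc (1 + Y / n) ^ (n - 1) ≤ (Real.exp (Y / n)) ^ (n - 1) :=
          pow_le_pow_left₀ (by positivity) h1 _
      _ = Real.exp (((n - 1 : ℕ) : ℝ) * (Y / n)) := by rw [← Real.exp_nat_mul]
      _ ≤ Real.exp Y := by
          refine Real.exp_le_exp.2 ?_
          have h2 : ((n - 1 : ℕ) : ℝ) ≤ n := by exact_mod_cast Nat.sub_le n 1
          have h3 : 0 ≤ Y / n := by positivity
          calc ((n - 1 : ℕ) : ℝ) * (Y / n) ≤ n * (Y / n) := mul_le_mul_of_nonneg_right h2 h3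
            _ = Y := by field_simp
  have hGn := hG n
  have h4 : 0 < (n : ℝ) ^ (2 * (n - 1)) := by positivity
  calc (n : ℝ) ^ (2 * (n - 1)) * (1 + Y / n) ^ (n - 1) * G n * (1 / 1 + Y * 1 / 1)
      = (n : ℝ) ^ (2 * (n - 1)) * G n * ((1 + Y) * (1 + Y / n) ^ (n - 1)) := by ring
    _ ≤ (n : ℝ) ^ (2 * (n - 1)) * G n * ((1 + Y) * Real.exp Y) := by
        refine mul_le_mul_of_nonneg_left ?_ (by positivity)
        exact mul_le_mul_of_nonneg_left e2 (by positivity)

/-! ### Paths -/

section Link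

variable {W : Type*} [Fintype W] [DecidableEq W]

omit [Fintype W] [DecidableEq W] in
theorem emb_inj {n : ℕ} {word : Fin n → Bool} {ω : Fin n × Fin n × Fin n → W}
    (hω : Function.Injective ω) : Function.Injective (emb n word ω) := by
  intro x y h
  unfold emb at h
  split_ifs at h with h1 h2 h2
  · exact hω (Sum.inl_injective h)
  · exact hω (Sum.inr_injective h)

omit [Fintype W] in
theorem emb_mem_pathSet {n : ℕ} {word : Fin n → Bool} {ω : Fin n × Fin n × Fin n → W}
    (hω : Function.Injective ω) (v : Fin (n + 1) → Fin n) (t : Fin n) (e : Fin n × Fin n) :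
    emb n word ω (t, e) ∈ pathSet n word ω v ↔ (v t.castSucc, v t.succ) = e := by
  unfold pathSet
  rw [Finset.mem_image]
  constructor
  · rintro ⟨t', -, h⟩
    have h2 := emb_inj hω h
    obtain ⟨rfl, h3⟩ := Prod.mk.inj h2
    exact h3
  · rintro rfl
    exact ⟨t, Finset.mem_univ _, rfl⟩

/-- the quadruple of path sets of a sequence of states -/
def quad (n : ℕ) (word : Fin n → Bool) (ω : Fin n × Fin n × Fin n → W) (f : Fin (n + 1) → St n) :
    Finset (W ⊕ W) × Finset (W ⊕ W) × Finset (W ⊕ W) × Finset (W ⊕ W) :=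
  (pathSet n word ω fun t => (f t).1, pathSet n word ω fun t => (f t).2.1,
    pathSet n word ω fun t => (f t).2.2.1, pathSet n word ω fun t => (f t).2.2.2)

/-- in one layer the four edges are equal in pairs -/
def Lay {n : ℕ} (s s' : St n) : Prop :=
  ((s.1, s'.1) = (s.2.1, s'.2.1) ∧ (s.2.2.1, s'.2.2.1) = (s.2.2.2, s'.2.2.2)) ∨
  ((s.1, s'.1) = (s.2.2.2, s'.2.2.2) ∧ (s.2.1, s'.2.1) = (s.2.2.1, s'.2.2.1))

theorem pairing {E : Type*} [DecidableEq E] (e1 e2 e3 e4 : E)
    (h1 : (if e1 = e1 then 1 else 0) + (if e3 = e1 then 1 else 0) =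
      (if e2 = e1 then 1 else 0) + (if e4 = e1 then 1 else (0 : ℕ)))
    (h3 : (if e1 = e3 then 1 else 0) + (if e3 = e3 then 1 else 0) =
      (if e2 = e3 then 1 else 0) + (if e4 = e3 then 1 else (0 : ℕ))) :
    (e1 = e2 ∧ e3 = e4) ∨ (e1 = e4 ∧ e2 = e3) := by
  by_cases h13 : e1 = e3
  · subst h13
    by_cases h21 : e2 = e1 <;> by_cases h41 : e4 = e1 <;> simp_all
  · have h31 : ¬ e3 = e1 := fun h => h13 h.symm
    by_cases h21 : e2 = e1
    · subst h21
      by_cases h43 : e4 = e3
      · exact Or.inl ⟨rfl, h43.symm⟩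
      · simp [h13, h43] at h3
    · by_cases h41 : e4 = e1
      · subst h41
        by_cases h23 : e2 = e3
        · exact Or.inr ⟨rfl, h23⟩
        · simp [h13, h23] at h3
      · simp [h21, h41, h31] at h1

omit [Fintype W] in
theorem lay_of_balanced {n : ℕ} {word : Fin n → Bool} {ω : Fin n × Fin n × Fin n → W}
    (hω : Function.Injective ω) (f : Fin (n + 1) → St n) (hb : Balanced (quad n word ω f))
    (t : Fin n) : Lay (f t.castSucc) (f t.succ) := by
  have h1 := hb (emb n word ω (t, ((f t.castSucc).1, (f t.succ).1)))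
  have h3 := hb (emb n word ω (t, ((f t.castSucc).2.2.1, (f t.succ).2.2.1)))
  simp only [quad, emb_mem_pathSet hω] at h1 h3
  rw [if_pos trivial] at h1 h3
  exact pairing _ _ _ _ (by rw [if_pos rfl]; exact h1) (by rw [if_pos (rfl : _ = _)]; exact h3)

omit [Fintype W] [DecidableEq W] in
theorem layer_weight {n : ℕ} (w : Bool) (Y L : ℝ) (hY : 1 ≤ Y) (hL : 1 ≤ L) (s s' : St n)
    (h : Lay s s') :
    (if w = true ∧ (s.1, s'.1) = (s.2.2.2, s'.2.2.2) then Y else 1) *
      (if w = false ∧ (s.1, s'.1) = (s.2.1, s'.2.1) then L else 1) ≤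
      wtt (if w then 1 else L) (if w then Y else 1) s s' := by
  have hA0 := mul_nonneg (inA_nonneg s) (inA_nonneg s')
  have hB0 := mul_nonneg (inB_nonneg s) (inB_nonneg s')
  have hA1 : (s.1, s'.1) = (s.2.1, s'.2.1) → (s.2.2.1, s'.2.2.1) = (s.2.2.2, s'.2.2.2) →
      inA s * inA s' = 1 := by
    intro h1 h2
    obtain ⟨h3, h4⟩ := Prod.mk.inj h1
    obtain ⟨h5, h6⟩ := Prod.mk.inj h2
    rw [inA, inA, if_pos ⟨h3, h5⟩, if_pos ⟨h4, h6⟩, one_mul]
  have hB1 : (s.1, s'.1) = (s.2.2.2, s'.2.2.2) → (s.2.1, s'.2.1) = (s.2.2.1, s'.2.2.1) →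
      inB s * inB s' = 1 := by
    intro h1 h2
    obtain ⟨h3, h4⟩ := Prod.mk.inj h1
    obtain ⟨h5, h6⟩ := Prod.mk.inj h2
    rw [inB, inB, if_pos ⟨h3, h5⟩, if_pos ⟨h4, h6⟩, one_mul]
  unfold wtt
  cases w with
  | true =>
    simp only [true_and, if_true, Bool.true_eq_false, false_and, if_false, mul_one, one_mul]
    by_cases h14 : (s.1, s'.1) = (s.2.2.2, s'.2.2.2)
    · rw [if_pos h14]
      have : inB s * inB s' = 1 := by
        rcases h with ⟨h1, h2⟩ | ⟨h1, h2⟩
        · exact hB1 h14 (by rw [← h1, h2, h14])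
        · exact hB1 h1 h2
      rw [this]
      linarith
    · rw [if_neg h14]
      rcases h with ⟨h1, h2⟩ | ⟨h1, h2⟩
      · rw [hA1 h1 h2]
        nlinarith
      · exact absurd h1 h14
  | false =>
    simp only [Bool.false_eq_true, false_and, if_false, true_and, one_mul]
    by_cases h12 : (s.1, s'.1) = (s.2.1, s'.2.1)
    · rw [if_pos h12]
      have : inA s * inA s' = 1 := by
        rcases h with ⟨h1, h2⟩ | ⟨h1, h2⟩
        · exact hA1 h1 h2
        · exact hA1 h12 (by rw [← h2, ← h12, h1])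
      rw [this]
      linarith
    · rw [if_neg h12]
      rcases h with ⟨h1, h2⟩ | ⟨h1, h2⟩
      · exact absurd h1 h12
      · rw [hB1 h1 h2]
        nlinarith

omit [Fintype W] in
theorem card_left_le {n : ℕ} {word : Fin n → Bool} {ω : Fin n × Fin n × Fin n → W}
    (hω : Function.Injective ω) (v w : Fin (n + 1) → Fin n) :
    (pathSet n word ω v ∩ pathSet n word ω w).toLeft.card ≤ (univ.filter fun t : Fin n =>
      word t = true ∧ (v t.castSucc, v t.succ) = (w t.castSucc, w t.succ)).card := by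
  refine le_trans (Finset.card_le_card (t := (univ.filter fun t : Fin n =>
      word t = true ∧ (v t.castSucc, v t.succ) = (w t.castSucc, w t.succ)).image
      fun t => ω (t, v t.castSucc, v t.succ)) ?_) Finset.card_image_le
  intro x hx
  rw [mem_toLeft, mem_inter] at hx
  obtain ⟨h1, h2⟩ := hx
  obtain ⟨t, -, ht⟩ := Finset.mem_image.1 h1
  have hw : word t = true ∧ ω (t, v t.castSucc, v t.succ) = x := by
    unfold emb at ht
    split_ifs at ht with h3
    · exact ⟨h3, Sum.inl_injective ht⟩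
  rw [← ht, emb_mem_pathSet hω] at h2
  exact mem_image.2 ⟨t, mem_filter.2 ⟨mem_univ _, hw.1, h2.symm⟩, hw.2⟩

omit [Fintype W] in
theorem card_right_le {n : ℕ} {word : Fin n → Bool} {ω : Fin n × Fin n × Fin n → W}
    (hω : Function.Injective ω) (v w : Fin (n + 1) → Fin n) :
    (pathSet n word ω v ∩ pathSet n word ω w).toRight.card ≤ (univ.filter fun t : Fin n =>
      word t = false ∧ (v t.castSucc, v t.succ) = (w t.castSucc, w t.succ)).card := by
  refine le_trans (Finset.card_le_card (t := (univ.filter fun t : Fin n =>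
      word t = false ∧ (v t.castSucc, v t.succ) = (w t.castSucc, w t.succ)).image
      fun t => ω (t, v t.castSucc, v t.succ)) ?_) Finset.card_image_le
  intro x hx
  rw [mem_toRight, mem_inter] at hx
  obtain ⟨h1, h2⟩ := hx
  obtain ⟨t, -, ht⟩ := Finset.mem_image.1 h1
  have hw : word t = false ∧ ω (t, v t.castSucc, v t.succ) = x := by
    unfold emb at ht
    split_ifs at ht with h3
    · exact ⟨by simpa using h3, Sum.inr_injective ht⟩
  rw [← ht, emb_mem_pathSet hω] at h2
  exact mem_image.2 ⟨t, mem_filter.2 ⟨mem_univ _, hw.1, h2.symm⟩, hw.2⟩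

theorem prod_boole_pow {ι : Type*} [Fintype ι] (p : ι → Prop) [DecidablePred p] (Y : ℝ) :
    Y ^ (univ.filter p).card = ∏ t, if p t then Y else 1 := by
  rw [Finset.prod_ite, Finset.prod_const, Finset.prod_const_one, mul_one]

theorem quad_weight_le {n : ℕ} {word : Fin n → Bool} {ω : Fin n × Fin n × Fin n → W}
    (hω : Function.Injective ω) (Y L : ℝ) (hY : 1 ≤ Y) (hL : 1 ≤ L) (f : Fin (n + 1) → St n)
    (hf : ∀ t : Fin n, Lay (f t.castSucc) (f t.succ)) :
    Y ^ ((quad n word ω f).1 ∩ (quad n word ω f).2.2.2).toLeft.card *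
      L ^ ((quad n word ω f).1 ∩ (quad n word ω f).2.1).toRight.card ≤
    ∏ t : Fin n, wtt (if word t then 1 else L) (if word t then Y else 1)
      (f t.castSucc) (f t.succ) := by
  have h1 : Y ^ ((quad n word ω f).1 ∩ (quad n word ω f).2.2.2).toLeft.card ≤
      ∏ t : Fin n, if word t = true ∧ ((f t.castSucc).1, (f t.succ).1) =
        ((f t.castSucc).2.2.2, (f t.succ).2.2.2) then Y else 1 := by
    rw [← prod_boole_pow]
    exact pow_le_pow_right₀ hY (card_left_le hω _ _)
  have h2 : L ^ ((quad n word ω f).1 ∩ (quad n word ω f).2.1).toRight.card ≤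
      ∏ t : Fin n, if word t = false ∧ ((f t.castSucc).1, (f t.succ).1) =
        ((f t.castSucc).2.1, (f t.succ).2.1) then L else 1 := by
    rw [← prod_boole_pow]
    exact pow_le_pow_right₀ hL (card_right_le hω _ _)
  refine le_trans (mul_le_mul h1 h2 (by positivity) (Finset.prod_nonneg fun t _ => ?_)) ?_
  · split_ifs <;> linarith
  · rw [← Finset.prod_mul_distrib]
    refine Finset.prod_le_prod (fun t _ => ?_) fun t _ => layer_weight _ Y L hY hL _ _ (hf t)
    refine mul_nonneg ?_ ?_ <;> split_ifs <;> linarith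

end Link

/-! ### Counting letters -/

theorem cntF_zero (n : ℕ) (word : Fin n → Bool) : cntF n word 0 = 0 := by simp [cntF]

theorem cntT_zero (n : ℕ) (word : Fin n → Bool) : cntT n word 0 = 0 := by simp [cntT]

theorem cntF_succ (n : ℕ) (word : Fin n → Bool) (t : Fin n) :
    cntF n word (t + 1) = cntF n word t + if word t then 0 else 1 := by
  unfold cntF
  rw [Finset.card_filter, Finset.card_filter]
  have : (if word t then 0 else 1) =
      ∑ s : Fin n, if s = t then (if word s then 0 else 1) else 0 := by simp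
  rw [this, ← Finset.sum_add_distrib]
  refine Finset.sum_congr rfl fun s _ => ?_
  by_cases hs : s = t
  · subst hs
    cases word s <;> simp
  · have h1 : (s : ℕ) < t + 1 ↔ (s : ℕ) < t := by
      have : (s : ℕ) ≠ t := fun h => hs (Fin.ext h)
      omega
    simp [hs, h1]

theorem cntT_succ (n : ℕ) (word : Fin n → Bool) (t : Fin n) :
    cntT n word (t + 1) = cntT n word t + if word t then 1 else 0 := by
  unfold cntT
  rw [Finset.card_filter, Finset.card_filter]
  have : (if word t then 1 else 0) =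
      ∑ s : Fin n, if s = t then (if word s then 1 else 0) else 0 := by simp
  rw [this, ← Finset.sum_add_distrib]
  refine Finset.sum_congr rfl fun s _ => ?_
  by_cases hs : s = t
  · subst hs
    cases word s <;> simp
  · have h1 : (s : ℕ) < t + 1 ↔ (s : ℕ) < t := by
      have : (s : ℕ) ≠ t := fun h => hs (Fin.ext h)
      omega
    simp [hs, h1]

/-! ### The theorem -/

variable {W : Type*} [Fintype W] [DecidableEq W]

/-- [TRANSFER] -/
theorem quad_sum_le (n : ℕ) [NeZero n] (word : Fin n → Bool) (ω : Fin n × Fin n × Fin n → W)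
    (hω : Function.Injective ω) (Y L : ℝ) (hL : 1 ≤ L) (hLY : L ≤ Y)
    (hword : ∀ t ≤ n, L ^ cntF n word t ≤ Y ^ cntT n word t ∧
      Y ^ cntT n word t ≤ L ^ cntF n word t * (L * Y)) :
    ∑ p ∈ (pathSets n word ω ×ˢ pathSets n word ω ×ˢ pathSets n word ω ×ˢ
        pathSets n word ω).filter Balanced,
      Y ^ (p.1 ∩ p.2.2.2).toLeft.card * L ^ (p.1 ∩ p.2.1).toRight.card ≤
    (n : ℝ) ^ (2 * (n - 1)) * Y ^ cntT n word n * ((1 + Y) * Real.exp Y) := by
  classical
  have hY : 1 ≤ Y := hL.trans hLY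
  have hY0 : 0 < Y := by linarith
  have hL0 : 0 < L := by linarith
  set F : ℕ → ℝ := fun t => L ^ cntF n word t with hFdef
  set G : ℕ → ℝ := fun t => Y ^ cntT n word t with hGdef
  have hF : ∀ t, 0 < F t := fun t => by rw [hFdef]; positivity
  have hG : ∀ t, 0 < G t := fun t => by rw [hGdef]; positivity
  set Q : Finset (Fin (n + 1) → St n) := univ.filter fun f =>
    f 0 = (0, 0, 0, 0) ∧ f (Fin.last n) = (0, 0, 0, 0) ∧
      ∀ t : Fin n, Lay (f t.castSucc) (f t.succ) with hQ
  set g : Finset (W ⊕ W) × Finset (W ⊕ W) × Finset (W ⊕ W) × Finset (W ⊕ W) → ℝ :=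
    fun p => Y ^ (p.1 ∩ p.2.2.2).toLeft.card * L ^ (p.1 ∩ p.2.1).toRight.card with hg
  have hg0 : ∀ p, 0 ≤ g p := fun p => by rw [hg]; positivity
  have step1 : (pathSets n word ω ×ˢ pathSets n word ω ×ˢ pathSets n word ω ×ˢ
        pathSets n word ω).filter Balanced ⊆ Q.image (quad n word ω) := by
    rintro ⟨p1, p2, p3, p4⟩ hp
    rw [mem_filter, mem_product, mem_product, mem_product] at hp
    obtain ⟨⟨m1, m2, m3, m4⟩, hb⟩ := hp
    obtain ⟨v1, k1, e1⟩ := mem_image.1 m1
    obtain ⟨v2, k2, e2⟩ := mem_image.1 m2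
    obtain ⟨v3, k3, e3⟩ := mem_image.1 m3
    obtain ⟨v4, k4, e4⟩ := mem_image.1 m4
    simp only at e1 e2 e3 e4
    have hq : quad n word ω (fun t => (v1 t, v2 t, v3 t, v4 t)) = (p1, p2, p3, p4) := by
      simp only [quad, e1, e2, e3, e4]
    refine mem_image.2 ⟨fun t => (v1 t, v2 t, v3 t, v4 t), ?_, hq⟩
    rw [hQ, mem_filter]
    have l1 := (mem_filter.1 k1).2
    have l2 := (mem_filter.1 k2).2
    have l3 := (mem_filter.1 k3).2
    have l4 := (mem_filter.1 k4).2
    refine ⟨mem_univ _, ?_, ?_, fun t => ?_⟩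
    · simp only [l1.1, l2.1, l3.1, l4.1]
    · simp only [l1.2, l2.2, l3.2, l4.2]
    · exact lay_of_balanced (word := word) hω (fun t => (v1 t, v2 t, v3 t, v4 t)) (by rwa [hq]) t
  have hx : ∀ t : Fin n, F (t + 1) / F t = if word t then 1 else L := fun t => by
    simp only [hFdef]
    rw [cntF_succ]
    split_ifs
    · rw [add_zero, div_self (by positivity)]
    · rw [pow_succ, mul_div_assoc, mul_comm, div_mul_cancel₀ _ (by positivity)]
  have hy : ∀ t : Fin n, G (t + 1) / G t = if word t then Y else 1 := fun t => by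
    simp only [hGdef]
    rw [cntT_succ]
    split_ifs
    · rw [pow_succ, mul_div_assoc, mul_comm, div_mul_cancel₀ _ (by positivity)]
    · rw [add_zero, div_self (by positivity)]
  calc ∑ p ∈ (pathSets n word ω ×ˢ pathSets n word ω ×ˢ pathSets n word ω ×ˢ
        pathSets n word ω).filter Balanced, g p
      ≤ ∑ p ∈ Q.image (quad n word ω), g p :=
        Finset.sum_le_sum_of_subset_of_nonneg step1 fun p _ _ => hg0 p
    _ ≤ ∑ f ∈ Q, g (quad n word ω f) := sum_image_le_sum _ _ _ hg0
    _ ≤ ∑ f ∈ Q, ∏ t : Fin n, wtt (F (t + 1) / F t) (G (t + 1) / G t)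
          (f t.castSucc) (f t.succ) := by
        refine Finset.sum_le_sum fun f hf => ?_
        rw [hQ, mem_filter] at hf
        have := quad_weight_le (word := word) hω Y L hY hL f hf.2.2.2
        simp only [hx, hy]
        exact this
    _ ≤ ∑ f : Fin (n + 1) → St n, (if f 0 = (0, 0, 0, 0) then
          (∏ t : Fin n, wtt (F (t + 1) / F t) (G (t + 1) / G t) (f t.castSucc) (f t.succ)) *
            hpot n Y F G n (f (Fin.last n)) else 0) := by
        have hnn : ∀ f : Fin (n + 1) → St n, 0 ≤ ∏ t : Fin n,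
            wtt (F (t + 1) / F t) (G (t + 1) / G t) (f t.castSucc) (f t.succ) := fun f =>
          Finset.prod_nonneg fun t _ => wtt_nonneg (div_pos (hF _) (hF _)).le
            (div_pos (hG _) (hG _)).le _ _
        rw [hQ, Finset.sum_filter]
        refine Finset.sum_le_sum fun f _ => ?_
        have hp : hpot n Y F G n (f (Fin.last n)) =
            if f (Fin.last n) = (0, 0, 0, 0) then 1 else 0 := by
          rw [hpot, if_neg (lt_irrefl n)]
        by_cases h0 : f 0 = (0, 0, 0, 0)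
        · rw [if_pos h0, hp]
          by_cases h1 : f (Fin.last n) = (0, 0, 0, 0)
          · rw [if_pos h1, mul_one]
            split_ifs
            · exact le_refl _
            · exact hnn f
          · rw [if_neg h1, mul_zero, if_neg (fun h => h1 h.2.1)]
        · rw [if_neg h0, if_neg (fun h => h0 h.1)]
    _ ≤ hpot n Y F G 0 (0, 0, 0, 0) :=
        transfer_le (fun t => wtt (F (t + 1) / F t) (G (t + 1) / G t))
          (fun t s s' => wtt_nonneg (div_pos (hF _) (hF _)).le (div_pos (hG _) (hG _)).le s s')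
          (hpot n Y F G) (0, 0, 0, 0) n
          (fun t ht s => hpot_step n Y L F G hL hLY hF hG hword t ht s)
    _ ≤ (n : ℝ) ^ (2 * (n - 1)) * G n * ((1 + Y) * Real.exp Y) :=
        hpot_zero_le n Y F G hY (by simp [hFdef, cntF_zero]) (by simp [hGdef, cntT_zero]) hG

end Vale.Agent.P346
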