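import Vale.Agent.P346.Circuit
import Vale.Agent.P346.DegreeEq
import Vale.Agent.P346.Quad
import Vale.Agent.P346.Paths
import Vale.Agent.P346.Transfer
import Vale.Agent.P346.Trace
import Vale.Agent.P346.Word
import Vale.Agent.P346.Param

/-! # P346: the lower bound for the measure of `IMM` -/

namespace Vale.Agent.P346

open MvPolynomial Finset Matrix

/-- the rank over `K` is at least the rank of the real 0/1 matrix -/
theorem mu_ge_rank (K : Type*) [Field K] [CharZero K] (n L m : ℕ) [NeZero n]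
    [NeZero (L * (L + m + 1))] (i j : ℕ) (word : Fin n → Bool) :
    ((MP ℝ (pathSets n word (om n L m)) i j).rank : ℝ) ≤
      mu i j (cntT n word n) (cntF n word n) (rename (emb n word (om n L m)) (IMM K n n)) := by
  have h1 := SM_IMM (K := K) n word (om n L m) (om_injective n L m) i j
  rw [(cnt_eq n word).1, (cnt_eq n word).2] at h1
  unfold mu
  rw [h1]
  have h2 := rank_intCast_le (MP ℤ (pathSets n word (om n L m)) i j) K
  have h3 : (MP ℤ (pathSets n word (om n L m)) i j).map (Int.cast : ℤ → ℝ) =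
      MP ℝ (pathSets n word (om n L m)) i j := by
    ext T S
    simp only [MP, Matrix.map_apply, Matrix.of_apply]
    split_ifs <;> simp
  rw [h3] at h2
  exact_mod_cast h2

theorem pathSets_bideg (n L m : ℕ) [NeZero n] [NeZero (L * (L + m + 1))] (word : Fin n → Bool) :
    ∀ p ∈ pathSets n word (om n L m),
      p.toLeft.card = cntT n word n ∧ p.toRight.card = cntF n word n := by
  intro p hp
  have := card_of_mem_pathSets n word (om n L m) (om_injective n L m) p hp
  rw [(cnt_eq n word).1, (cnt_eq n word).2] at this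
  exact this

/-- lower bound for the first trace -/
theorem trace_ge (n L m : ℕ) [NeZero n] [NeZero (L * (L + m + 1))] (hL : 4 ≤ L)
    (word : Fin n → Bool) :
    (n : ℝ) ^ (n - 1) * ((Fintype.card (GS n L m)).choose (iS n L m) *
      (Fintype.card (GS n L m)).choose (jS n L m)) *
      (1 / 2 / ((L : ℝ) + m + 1) ^ cntT n word n * Real.exp (-(4 * n / L))) ≤
    ((MP ℝ (pathSets n word (om n L m)) (iS n L m) (jS n L m))ᵀ *
      MP ℝ (pathSets n word (om n L m)) (iS n L m) (jS n L m)).trace := by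
  have hkk := cnt_add n word
  have hn0 : 0 < n := Nat.pos_of_ne_zero (NeZero.ne n)
  rw [trace_MP _ _ _ _ _ (pathSets_bideg n L m word),
    card_pathSets n word (om n L m) (om_injective n L m)]
  have hA := remove_left n L m (cntT n word n) hn0 hL (by omega)
  have hB := remove_right n L m (cntF n word n) hn0 hL (by omega)
  push_cast
  calc (n : ℝ) ^ (n - 1) * (((Fintype.card (GS n L m)).choose (iS n L m) : ℝ) *
      (Fintype.card (GS n L m)).choose (jS n L m)) *
      (1 / 2 / ((L : ℝ) + m + 1) ^ cntT n word n * Real.exp (-(4 * n / L)))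
      = (n : ℝ) ^ (n - 1) * (((Fintype.card (GS n L m)).choose (iS n L m) : ℝ) *
          (1 / 2 / ((L : ℝ) + m + 1) ^ cntT n word n)) *
          (((Fintype.card (GS n L m)).choose (jS n L m) : ℝ) * Real.exp (-(4 * n / L))) := by ring
    _ ≤ (n : ℝ) ^ (n - 1) * ((Fintype.card (GS n L m) - cntT n word n).choose (iS n L m)) *
          ((Fintype.card (GS n L m) - cntF n word n).choose (jS n L m)) := by gcongr

/-- upper bound for the second trace -/
theorem trace_sq_le (n L m : ℕ) [NeZero n] [NeZero (L * (L + m + 1))] (hL : 4 ≤ L)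
    (word : Fin n → Bool)
    (hword : ∀ t ≤ n, (L : ℝ) ^ cntF n word t ≤ ((L : ℝ) + m + 1) ^ cntT n word t ∧
      ((L : ℝ) + m + 1) ^ cntT n word t ≤ (L : ℝ) ^ cntF n word t * (L * ((L : ℝ) + m + 1))) :
    (((MP ℝ (pathSets n word (om n L m)) (iS n L m) (jS n L m))ᵀ *
      MP ℝ (pathSets n word (om n L m)) (iS n L m) (jS n L m)) *
      ((MP ℝ (pathSets n word (om n L m)) (iS n L m) (jS n L m))ᵀ *
      MP ℝ (pathSets n word (om n L m)) (iS n L m) (jS n L m))).trace ≤
    ((Fintype.card (GS n L m)).choose (iS n L m) *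
      (Fintype.card (GS n L m)).choose (jS n L m)) *
      ((n : ℝ) ^ (2 * (n - 1)) * ((1 + ((L : ℝ) + m + 1)) * Real.exp ((L : ℝ) + m + 1)) /
        (((L : ℝ) + m + 1) ^ cntT n word n * (L : ℝ) ^ cntF n word n)) := by
  set Y : ℝ := (L : ℝ) + m + 1 with hY
  have hkk := cnt_add n word
  have hn0 : 0 < n := Nat.pos_of_ne_zero (NeZero.ne n)
  have hLr : (4 : ℝ) ≤ L := by exact_mod_cast hL
  have hL0 : (0 : ℝ) < L := by linarith
  have hmr : (0 : ℝ) ≤ m := Nat.cast_nonneg m
  have hYpos : 0 < Y := by rw [hY]; linarith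
  have hnr : (1 : ℝ) ≤ n := by exact_mod_cast hn0
  have hn3 := cube_ge n hn0
  have hj3 := cube_le_jS n L m
  have hNr : (Fintype.card (GS n L m) : ℝ) = (n : ℝ) ^ 3 * L * Y := by
    rw [card_GS, hY]; push_cast; ring
  have hir : (iS n L m : ℝ) = (n : ℝ) ^ 3 * L * (L + m) := by rw [iS]; push_cast; ring
  have hjr : (jS n L m : ℝ) = (n : ℝ) ^ 3 * Y := by rw [jS, hY]; push_cast; ring
  have ht2 := trace_sq_MP _ (iS n L m) (jS n L m) _ _ (pathSets_bideg n L m word)
    (by omega) Y L hYpos hL0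
    (by
      have : (n : ℝ) ^ 3 * L * Y - (n : ℝ) ^ 3 * L * (L + m) = n ^ 3 * L := by rw [hY]; ring
      rw [hNr, hir, this]
      apply le_of_eq
      have : (n : ℝ) ^ 3 * L ≠ 0 := by positivity
      field_simp)
    (by
      rw [hjr, hNr]
      apply le_of_eq
      have : (n : ℝ) ^ 3 * Y ≠ 0 := by positivity
      field_simp)
  have hq := quad_sum_le n word (om n L m) (om_injective n L m) Y L (by linarith)
    (by rw [hY]; linarith) hword
  refine ht2.trans ?_
  apply mul_le_mul_of_nonneg_left _ (by positivity)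
  have e1 : ∀ p : Finset (GS n L m ⊕ GS n L m) × Finset (GS n L m ⊕ GS n L m) ×
      Finset (GS n L m ⊕ GS n L m) × Finset (GS n L m ⊕ GS n L m),
      (Y ^ (p.1 ∩ p.2.2.2).toLeft.card / Y ^ (2 * cntT n word n)) *
      ((L : ℝ) ^ (p.1 ∩ p.2.1).toRight.card / (L : ℝ) ^ cntF n word n) =
      (Y ^ (p.1 ∩ p.2.2.2).toLeft.card * (L : ℝ) ^ (p.1 ∩ p.2.1).toRight.card) *
        (1 / (Y ^ (2 * cntT n word n) * (L : ℝ) ^ cntF n word n)) := by
    intro p; field_simp
  simp_rw [e1]
  rw [← Finset.sum_mul]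
  refine (mul_le_mul_of_nonneg_right hq (by positivity)).trans ?_
  apply le_of_eq
  rw [two_mul (cntT n word n), pow_add]
  field_simp

/-- [LOWER] `IMM` has nearly full rank -/
theorem mu_IMM_ge (K : Type*) [Field K] [CharZero K] (n L m : ℕ) [NeZero n]
    [NeZero (L * (L + m + 1))] (hL : 4 ≤ L) (word : Fin n → Bool)
    (hword : ∀ t ≤ n, (L : ℝ) ^ cntF n word t ≤ ((L : ℝ) + m + 1) ^ cntT n word t ∧
      ((L : ℝ) + m + 1) ^ cntT n word t ≤ (L : ℝ) ^ cntF n word t * (L * ((L : ℝ) + m + 1))) :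
    ((Fintype.card (GS n L m)).choose (iS n L m) *
      (Fintype.card (GS n L m)).choose (jS n L m)) *
      (1 / (4 * (L : ℝ) * (L + m + 1) * (1 + (L + m + 1))) *
        Real.exp (-(8 * n / L) - (L + m + 1))) ≤
      mu (iS n L m) (jS n L m) (cntT n word n) (cntF n word n)
        (rename (emb n word (om n L m)) (IMM K n n)) := by
  refine le_trans ?_ (mu_ge_rank K n L m _ _ word)
  have hn0 : 0 < n := Nat.pos_of_ne_zero (NeZero.ne n)
  have hLr : (4 : ℝ) ≤ L := by exact_mod_cast hL
  have hL0 : (0 : ℝ) < L := by linarith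
  have hmr : (0 : ℝ) ≤ m := Nat.cast_nonneg m
  have hDpos : (0 : ℝ) < (Fintype.card (GS n L m)).choose (iS n L m) *
      (Fintype.card (GS n L m)).choose (jS n L m) := by
    have h1 : 0 < (Fintype.card (GS n L m)).choose (iS n L m) := Nat.choose_pos (iS_le n L m)
    have h2 : 0 < (Fintype.card (GS n L m)).choose (jS n L m) :=
      Nat.choose_pos (jS_le n L m (by omega))
    positivity
  have hT1 := trace_ge n L m hL word
  have hT2 := trace_sq_le n L m hL word hword
  have hrank := trace_sq_le_rank (MP ℝ (pathSets n word (om n L m)) (iS n L m) (jS n L m))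
  have hYL := (hword n le_rfl).2
  have e2 : Real.exp (-(8 * (n : ℝ) / L)) = Real.exp (-(4 * n / L)) ^ 2 := by
    rw [← Real.exp_nat_mul]; congr 1; push_cast; ring
  rw [Real.exp_sub, e2]
  exact combine n _ _ _ _ _ _ _ _ _ _ hDpos (by positivity) hL0 (by exact_mod_cast hn0)
    (Real.exp_pos _) (Real.exp_pos _) (Nat.cast_nonneg _) hT1 hT2 hrank hYL

end Vale.Agent.P346
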